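import Crest.Agent.R304.Learn
import Crest.Agent.R309.Tape

/-!
Row 304: the algorithm on lists.  All parameters are powers of `s = 2 ^ ℓ`, `pw c ℓ = s ^ c`.
A matching is the list of the partners, a graph is its adjacency matrix `G` (`n = G.length`), the weights are given
by a matrix `k` of exponents.
-/

set_option autoImplicit false

namespace Crest.Agent.R304

open Finset Crest.Agent.Lib.PT Crest.Agent.R309

/-- `(2 ^ ℓ) ^ c` -/
@[irreducible] def pw (c ℓ : ℕ) : ℕ := 2 ^ (c * ℓ)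

theorem pw_def (c ℓ : ℕ) : pw c ℓ = 2 ^ (c * ℓ) := by unfold pw; rfl
theorem pw_eq (c ℓ : ℕ) : pw c ℓ = (2 ^ ℓ) ^ c := by rw [pw_def, mul_comm, pow_mul]
theorem pw_pos (c ℓ : ℕ) : 0 < pw c ℓ := by rw [pw_def]; positivity
theorem pw_cast (c ℓ : ℕ) : (pw c ℓ : ℝ) = ((2 : ℝ) ^ ℓ) ^ c := by rw [pw_eq]; push_cast; rfl

/-- weights change by factors `1 + 1 / pM` -/
abbrev pM (ℓ : ℕ) : ℕ := pw 630 ℓ
/-- number of unit steps of a down move -/
abbrev pa (ℓ : ℕ) : ℕ := pw 626 ℓ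
/-- number of unit steps of an up move -/
abbrev pu (ℓ : ℕ) : ℕ := pw 628 ℓ
/-- number of outer steps -/
abbrev pJ (ℓ : ℕ) : ℕ := pw 11 ℓ
/-- offset of the exponents -/
abbrev pK (ℓ : ℕ) : ℕ := pw 639 ℓ
/-- bound on the length of a schedule -/
abbrev pL (ℓ : ℕ) : ℕ := pw 640 ℓ
/-- number of replicas -/
abbrev pN (ℓ : ℕ) : ℕ := pw 300 ℓ
/-- number of steps of a run -/
abbrev pT (ℓ : ℕ) : ℕ := pw 652 ℓ
/-- bound on the bit size of the weight of a pair -/
abbrev pR (ℓ : ℕ) : ℕ := pw 643 ℓ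

/-- tape of a collision -/
def r1 (ℓ : ℕ) : ℕ := 3 + 2 * ℓ + pR ℓ
/-- tape of a step of the particle system -/
def r2 (ℓ : ℕ) : ℕ := 300 * ℓ + (300 * ℓ + r1 ℓ)
/-- tape of a run -/
def r3 (ℓ : ℕ) : ℕ := pT ℓ * r2 ℓ
/-- tape of an initial matching -/
def rI1 (ℓ : ℕ) : ℕ := pw 1 ℓ * (400 * ℓ)
/-- tape of the initial replicas -/
def rI (ℓ : ℕ) : ℕ := pN ℓ * rI1 ℓ
/-- tape of a sample of replicas -/
def rS (ℓ : ℕ) : ℕ := rI ℓ + pL ℓ * r3 ℓ
/-- tape of an estimate -/
def rTot (ℓ : ℕ) : ℕ := pJ ℓ * rS ℓ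

/-- matrices of naturals -/
abbrev KM : Type := List (List ℕ)

def ap (S : List ℕ) (v : ℕ) : ℕ := S.getD v 0
def ent2 (k : KM) (u v : ℕ) : ℕ := (k.getD u []).getD v 0
def adj (G : List (List Bool)) (u v : ℕ) : Bool := (G.getD u []).getD v false
/-- the matrix with the given entries -/
def mat (n : ℕ) (F : ℕ → ℕ → ℕ) : KM := (List.range n).map fun u => (List.range n).map fun v => F u v

def shiftL (g S : List ℕ) : List ℕ :=
  if g.Nodup then (List.range S.length).map fun v => rv g (ap S (rv g v)) else S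

def mvL (x : List ℕ × List ℕ) (t a b : ℕ) : List ℕ × List ℕ :=
  if t = 0 then (x.2, x.1)
  else if t = 1 then (shiftL [a, b] x.1, x.2)
  else if t = 2 then (x.1, shiftL [a, b] x.2)
  else (shiftL (seg (ap x.2) (ap x.1) a (b + 1)) x.1, shiftL (seg (ap x.2) (ap x.1) a (b + 1)) x.2)

/-- the common scale of the weights -/
def pD (ℓ : ℕ) : ℕ := (pM ℓ + 1) ^ pK ℓ * pM ℓ ^ pK ℓ
/-- scaled weight of a virtual edge -/
def omN (ℓ k : ℕ) : ℕ := pM ℓ * (pM ℓ + 1) ^ min k (2 * pK ℓ) * pM ℓ ^ (2 * pK ℓ - k)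
/-- scaled weight of a pair -/
def lamN (ℓ : ℕ) (g : Bool) (k : ℕ) : ℕ := (if g then pD ℓ else 0) + omN ℓ k
/-- scaled weight of a matching -/
def wtL (ℓ : ℕ) (G : List (List Bool)) (k : KM) (S : List ℕ) : ℕ :=
  ∏ v ∈ range G.length, if v < ap S v then lamN ℓ (adj G v (ap S v)) (ent2 k v (ap S v)) else 1
def w2L (ℓ : ℕ) (G : List (List Bool)) (k : KM) (x : List ℕ × List ℕ) : ℕ :=
  wtL ℓ G k x.1 * wtL ℓ G k x.2

/-- the proposed move -/
def prop (ℓ : ℕ) (x : List ℕ × List ℕ) (ω : List Bool) : List ℕ × List ℕ :=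
  mvL x (ofBits ((ω.drop 1).take 2)) (ofBits ((ω.drop 3).take ℓ)) (ofBits ((ω.drop (3 + ℓ)).take ℓ))

/-- a collision -/
def pstep (ℓ : ℕ) (G : List (List Bool)) (k : KM) (x : List ℕ × List ℕ) (ω : List Bool) :
    List ℕ × List ℕ :=
  if ω.getD 0 false = true ∧ ofBits ((ω.drop 3).take ℓ) < G.length ∧
      ofBits ((ω.drop (3 + ℓ)).take ℓ) < G.length ∧
      ofBits ((ω.drop (3 + 2 * ℓ)).take (Nat.size (max (w2L ℓ G k x) (w2L ℓ G k (prop ℓ x ω))))) <
        w2L ℓ G k (prop ℓ x ω)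
  then prop ℓ x ω else x

/-- the collision of the replicas `i` and `j` -/
def coll (ℓ : ℕ) (G : List (List Bool)) (k : KM) (X : List (List ℕ)) (i j : ℕ) (ω : List Bool) :
    List (List ℕ) :=
  if i = j then X else
    (X.set i (pstep ℓ G k (X.getD i [], X.getD j []) ω).1).set j
      (pstep ℓ G k (X.getD i [], X.getD j []) ω).2

/-- a step of the particle system -/
def nstep (ℓ : ℕ) (G : List (List Bool)) (k : KM) (X : List (List ℕ)) (ω : List Bool) :
    List (List ℕ) :=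
  coll ℓ G k X (ofBits (ω.take (300 * ℓ))) (ofBits ((ω.drop (300 * ℓ)).take (300 * ℓ)))
    ((ω.drop (300 * ℓ)).drop (300 * ℓ))

def run (ℓ : ℕ) (G : List (List Bool)) (k : KM) (X : List (List ℕ)) (ω : List Bool) :
    List (List ℕ) :=
  (chunks (pT ℓ) (r2 ℓ) ω).foldl (nstep ℓ G k) X

/-- the matching `0 1, 2 3, ...` -/
def base (n : ℕ) : List ℕ := (List.range n).map fun v => if v % 2 = 0 then v + 1 else v - 1

/-- step `j` of the initial sampler: with `i = n / 2 - 1 - j`, exchange `2 i + 1` with a random vertex in `[2 i + 1, n)` -/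
def istep (n : ℕ) (S : List ℕ) (z : ℕ × List Bool) : List ℕ :=
  shiftL [n - 1 - 2 * z.1, n - 1 - 2 * z.1 + ofBits z.2 % (2 * z.1 + 1)] S

/-- a nearly uniform matching -/
def init1 (ℓ n : ℕ) (ω : List Bool) : List ℕ :=
  ((List.range (n / 2)).zip (chunks (n / 2) (400 * ℓ) ω)).foldl (istep n) (base n)

def init (ℓ n : ℕ) (ω : List Bool) : List (List ℕ) := (chunks (pN ℓ) (rI1 ℓ) ω).map (init1 ℓ n)

/-- run the particle system along a schedule -/
def sample (ℓ : ℕ) (G : List (List Bool)) (sched : List KM) (ω : List Bool) : List (List ℕ) :=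
  (sched.zip (chunks sched.length (r3 ℓ) (ω.drop (rI ℓ)))).foldl
    (fun X z => run ℓ G z.1 X z.2) (init ℓ G.length ω)

/-- the number of replicas containing the pair `u v` -/
def cnt (X : List (List ℕ)) (u v : ℕ) : ℕ := X.countP fun S => decide (ap S u = v)

/-- the estimated virtual marginal is at most `3 b / 4`, `b = 1 / s³` -/
def up (ℓ : ℕ) (G : List (List Bool)) (k : KM) (X : List (List ℕ)) (u v : ℕ) : Bool :=
  decide (4 * cnt X u v * omN ℓ (ent2 k u v) * pw 3 ℓ ≤ 3 * pN ℓ * lamN ℓ (adj G u v) (ent2 k u v))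

/-- the estimated virtual marginal is at least `7 b / 2` -/
def dn (ℓ : ℕ) (G : List (List Bool)) (k : KM) (X : List (List ℕ)) (u v : ℕ) : Bool :=
  decide (7 * pN ℓ * lamN ℓ (adj G u v) (ent2 k u v) ≤ 2 * cnt X u v * omN ℓ (ent2 k u v) * pw 3 ℓ)

/-- the exponents after `i ≤ pu ℓ` unit steps -/
def sub (ℓ : ℕ) (G : List (List Bool)) (k : KM) (X : List (List ℕ)) (i : ℕ) : KM :=
  mat G.length fun u v => if up ℓ G k X u v then ent2 k u v + i
    else if dn ℓ G k X u v then ent2 k u v - min i (pa ℓ) else ent2 k u v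

def anyDn (ℓ : ℕ) (G : List (List Bool)) (k : KM) (X : List (List ℕ)) : Bool :=
  (List.range G.length).any fun u => (List.range G.length).any fun v =>
    decide (u ≠ v) && dn ℓ G k X u v

/-- `S` is a perfect matching of `G` -/
def inG (G : List (List Bool)) (S : List ℕ) : Bool :=
  (List.range G.length).all fun v => decide (ap S v < G.length) && decide (ap S (ap S v) = v) &&
    decide (ap S v ≠ v) && adj G v (ap S v)

/-- estimate of the ratio of the partition functions of `k'` and `k` -/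
def rho (ℓ : ℕ) (G : List (List Bool)) (k' k : KM) (X : List (List ℕ)) : ℚ :=
  (X.map fun S => (wtL ℓ G k' S : ℚ) / (wtL ℓ G k S : ℚ)).sum / (pN ℓ : ℚ)

/-- estimate of the number of perfect matchings of `G` divided by the partition function of `k` -/
def alp (ℓ : ℕ) (G : List (List Bool)) (k : KM) (X : List (List ℕ)) : ℚ :=
  (X.map fun S => if inG G S then 1 / (wtL ℓ G k S : ℚ) else 0).sum / (pN ℓ : ℚ)

/-- schedule, previous exponents, current exponents, estimate of the partition function of the previous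
exponents, flag, answer -/
abbrev St : Type := List KM × KM × KM × ℚ × Bool × ℚ

/-- the update given the replicas -/
def upd (ℓ : ℕ) (G : List (List Bool)) (st : St) (X : List (List ℕ)) : St :=
  if anyDn ℓ G st.2.2.1 X then
    (st.1 ++ (List.range (pu ℓ)).map (fun i => sub ℓ G st.2.2.1 X (i + 1)), st.2.2.1,
      sub ℓ G st.2.2.1 X (pu ℓ), st.2.2.2.1 / rho ℓ G st.2.1 st.2.2.1 X, false, st.2.2.2.2.2)
  else (st.1, st.2.1, st.2.2.1, st.2.2.2.1, true,
    st.2.2.2.1 / rho ℓ G st.2.1 st.2.2.1 X * alp ℓ G st.2.2.1 X)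

def outer (ℓ : ℕ) (G : List (List Bool)) (st : St) (ω : List Bool) : St :=
  if st.2.2.2.2.1 then st else upd ℓ G st (sample ℓ G st.1 ω)

/-- the number of perfect matchings of the complete graph -/
def df (n : ℕ) : ℕ := ∏ j ∈ range (n / 2), (2 * j + 1)

def k0 (ℓ n : ℕ) : KM := mat n fun _ _ => pK ℓ

def st0 (ℓ n : ℕ) : St :=
  ([k0 ℓ n], k0 ℓ n, k0 ℓ n, (((pM ℓ * pD ℓ) ^ (n / 2) * df n : ℕ) : ℚ), false, 0)

def est (ℓ : ℕ) (G : List (List Bool)) (ω : List Bool) : ℚ :=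
  ((chunks (pJ ℓ) (rS ℓ) ω).foldl (outer ℓ G) (st0 ℓ G.length)).2.2.2.2.2

/-- a median -/
def med (l : List ℚ) : ℚ :=
  ((l.filter fun z => decide (l.length < 2 * l.countP fun y => decide (y ≤ z))).argmin
    fun z => z).getD 0

/-- the median of `t` estimates -/
def best (ℓ : ℕ) (G : List (List Bool)) (t : ℕ) (ω : List Bool) : ℚ :=
  med ((chunks t (rTot ℓ) ω).map (est ℓ G))

/-! ### the abstract view -/

variable {n : ℕ}

def enc1 (S : PM n) : List ℕ := List.ofFn fun v => (S v : ℕ)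
def enc2 (x : PM n × PM n) : List ℕ × List ℕ := (enc1 x.1, enc1 x.2)
def encX {N : ℕ} (x : Fin N → PM n) : List (List ℕ) := List.ofFn fun i => enc1 (x i)

/-- the scaled weights -/
def lamF (n ℓ : ℕ) (G : List (List Bool)) (k : KM) : Fin n → Fin n → ℕ :=
  fun u v => lamN ℓ (adj G u v) (ent2 k u v)
/-- the adjacency matrix -/
def gR (n : ℕ) (G : List (List Bool)) : Fin n → Fin n → ℝ := fun u v => if adj G u v then 1 else 0
/-- the weights of the virtual edges -/
noncomputable def omR (n ℓ : ℕ) (k : KM) : Fin n → Fin n → ℝ :=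
  fun u v => pM ℓ * (1 + 1 / (pM ℓ : ℝ)) ^ ent2 k u v / (1 + 1 / (pM ℓ : ℝ)) ^ pK ℓ
/-- the number of perfect matchings of `G` -/
noncomputable def cntG (n : ℕ) (G : List (List Bool)) : ℕ :=
  (univ.filter fun S : PM n => ∀ v : Fin n, adj G v (S v) = true).card

structure Sz (n ℓ : ℕ) (G : List (List Bool)) : Prop where
  len : G.length = n
  le : n ≤ 2 ^ ℓ
  ten : 10 ≤ ℓ
  symm : ∀ u v : Fin n, adj G u v = adj G v u

/-- admissible exponents -/
def KOk (n ℓ : ℕ) (k : KM) : Prop :=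
  (∀ u v : Fin n, ent2 k u v = ent2 k v u) ∧ ∀ u v : Fin n, ent2 k u v ≤ 2 * pK ℓ

/-- exponents differing by at most one -/
def Adj1 (n : ℕ) (k k' : KM) : Prop :=
  ∀ u v : Fin n, ent2 k u v ≤ ent2 k' u v + 1 ∧ ent2 k' u v ≤ ent2 k u v + 1

/-- admissible schedules -/
structure Sched (n ℓ : ℕ) (G : List (List Bool)) (sched : List KM) : Prop where
  head : sched.head? = some (k0 ℓ n)
  chain : sched.IsChain (Adj1 n)
  ok : ∀ k ∈ sched, KOk n ℓ k ∧ Bal (gR n G + omR n ℓ k) (8 * ((2 : ℝ) ^ ℓ) ^ 3)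

end Crest.Agent.R304
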