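import Crest.Agent.R304.Alg

/-!
Row 304: the sampler runs in polynomial time (on all inputs, provided `2 ^ ℓ` is polynomially bounded).

Prove lemmas for the definitions of `Alg.lean` in order.  `pw` is irreducible: use only `pt_pw`, `pb_pw`.  `walk` is a `Nat.rec` whose values are
the start, entries of the two lists or `0` (`PT.natRec`).  Loops (`PT.foldl_inv`): keep the invariant that all lists have length and entries at
most a bound `B` (`B ≥ G.length`; moves are accepted only for `a, b < G.length`; `shiftL` preserves the length, its entries come from `g`, the list, the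
index or `0`), and the number of replicas does not change.
-/

set_option autoImplicit false

namespace Crest.Agent.R304

open Finset Crest.Agent.Lib.PT Crest.Agent.R309

variable {α : Type} [Enc α]

theorem algpt_pb_l {ℓ : α → ℕ} (hb : PB fun a => 2 ^ ℓ a) : PB ℓ :=
  hb.of_le fun _ => Nat.lt_two_pow_self.le

theorem pb_pw (c : ℕ) {ℓ : α → ℕ} (hb : PB fun a => 2 ^ ℓ a) : PB fun a => pw c (ℓ a) :=
  (hb.pow c).of_le fun a => (pw_eq c (ℓ a)).le

theorem pt_pw (c : ℕ) {ℓ : α → ℕ} (hℓ : PT ℓ) (hb : PB fun a => 2 ^ ℓ a) : PT fun a => pw c (ℓ a) :=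
  ((PT.const 2).pow ((PT.const c).mul hℓ) ((PB.const c).mul (algpt_pb_l hb))).congr
    fun a => pw_def c (ℓ a)

theorem algpt_pt_r1 {ℓ : α → ℕ} (hℓ : PT ℓ) (hb : PB fun a => 2 ^ ℓ a) :
    PT (fun a => r1 (ℓ a)) ∧ PB fun a => r1 (ℓ a) :=
  ⟨((PT.const 3).add ((PT.const 2).mul hℓ)).add (pt_pw 643 hℓ hb),
    ((PB.const 3).add ((PB.const 2).mul (algpt_pb_l hb))).add (pb_pw 643 hb)⟩

theorem algpt_pt_r2 {ℓ : α → ℕ} (hℓ : PT ℓ) (hb : PB fun a => 2 ^ ℓ a) :
    PT (fun a => r2 (ℓ a)) ∧ PB fun a => r2 (ℓ a) :=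
  ⟨((PT.const 300).mul hℓ).add (((PT.const 300).mul hℓ).add (algpt_pt_r1 hℓ hb).1),
    ((PB.const 300).mul (algpt_pb_l hb)).add
      (((PB.const 300).mul (algpt_pb_l hb)).add (algpt_pt_r1 hℓ hb).2)⟩

theorem pt_r3 {ℓ : α → ℕ} (hℓ : PT ℓ) (hb : PB fun a => 2 ^ ℓ a) :
    PT (fun a => r3 (ℓ a)) ∧ PB fun a => r3 (ℓ a) :=
  ⟨(pt_pw 652 hℓ hb).mul (algpt_pt_r2 hℓ hb).1, (pb_pw 652 hb).mul (algpt_pt_r2 hℓ hb).2⟩

theorem algpt_pt_rI1 {ℓ : α → ℕ} (hℓ : PT ℓ) (hb : PB fun a => 2 ^ ℓ a) :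
    PT (fun a => rI1 (ℓ a)) ∧ PB fun a => rI1 (ℓ a) :=
  ⟨(pt_pw 1 hℓ hb).mul ((PT.const 400).mul hℓ),
    (pb_pw 1 hb).mul ((PB.const 400).mul (algpt_pb_l hb))⟩

theorem algpt_pt_rI {ℓ : α → ℕ} (hℓ : PT ℓ) (hb : PB fun a => 2 ^ ℓ a) :
    PT (fun a => rI (ℓ a)) ∧ PB fun a => rI (ℓ a) :=
  ⟨(pt_pw 300 hℓ hb).mul (algpt_pt_rI1 hℓ hb).1, (pb_pw 300 hb).mul (algpt_pt_rI1 hℓ hb).2⟩

theorem pt_rS {ℓ : α → ℕ} (hℓ : PT ℓ) (hb : PB fun a => 2 ^ ℓ a) :
    PT (fun a => rS (ℓ a)) ∧ PB fun a => rS (ℓ a) :=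
  ⟨(algpt_pt_rI hℓ hb).1.add ((pt_pw 640 hℓ hb).mul (pt_r3 hℓ hb).1),
    (algpt_pt_rI hℓ hb).2.add ((pb_pw 640 hb).mul (pt_r3 hℓ hb).2)⟩

theorem pt_rTot {ℓ : α → ℕ} (hℓ : PT ℓ) (hb : PB fun a => 2 ^ ℓ a) :
    PT (fun a => rTot (ℓ a)) ∧ PB fun a => rTot (ℓ a) :=
  ⟨(pt_pw 11 hℓ hb).mul (pt_rS hℓ hb).1, (pb_pw 11 hb).mul (pt_rS hℓ hb).2⟩

theorem algpt_pt_pD {ℓ : α → ℕ} (hℓ : PT ℓ) (hb : PB fun a => 2 ^ ℓ a) : PT fun a => pD (ℓ a) :=
  (((pt_pw 630 hℓ hb).add (PT.const 1)).pow (pt_pw 639 hℓ hb) (pb_pw 639 hb)).mul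
    ((pt_pw 630 hℓ hb).pow (pt_pw 639 hℓ hb) (pb_pw 639 hb))

theorem pt_omN {ℓ k : α → ℕ} (hℓ : PT ℓ) (hb : PB fun a => 2 ^ ℓ a) (hk : PT k) :
    PT fun a => omN (ℓ a) (k a) := by
  have h1 : PT fun a => 2 * pK (ℓ a) := (PT.const 2).mul (pt_pw 639 hℓ hb)
  have h2 : PB fun a => 2 * pK (ℓ a) := (PB.const 2).mul (pb_pw 639 hb)
  exact ((pt_pw 630 hℓ hb).mul (((pt_pw 630 hℓ hb).add (PT.const 1)).pow (hk.min h1)
    (PB.min_right k h2))).mul ((pt_pw 630 hℓ hb).pow (h1.sub hk) (h2.sub k))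

theorem pt_lamN {ℓ k : α → ℕ} {g : α → Bool} (hℓ : PT ℓ) (hb : PB fun a => 2 ^ ℓ a) (hg : PT g)
    (hk : PT k) : PT fun a => lamN (ℓ a) (g a) (k a) :=
  (PT.ite hg.decide_eq_true (algpt_pt_pD hℓ hb) (PT.const 0)).add (pt_omN hℓ hb hk)

@[fun_prop] theorem algpt_pt_ap {S : α → List ℕ} {v : α → ℕ} (hS : PT S) (hv : PT v) :
    PT fun a => ap (S a) (v a) := by unfold ap; fun_prop

@[fun_prop] theorem algpt_pt_ent2 {k : α → KM} {u v : α → ℕ} (hk : PT k) (hu : PT u) (hv : PT v) :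
    PT fun a => ent2 (k a) (u a) (v a) := by unfold ent2; fun_prop

@[fun_prop] theorem algpt_pt_adj {G : α → List (List Bool)} {u v : α → ℕ} (hG : PT G) (hu : PT u)
    (hv : PT v) : PT fun a => adj (G a) (u a) (v a) := by unfold adj; fun_prop

theorem pt_wtL {ℓ : α → ℕ} {G : α → List (List Bool)} {k : α → KM} {S : α → List ℕ} (hℓ : PT ℓ)
    (hb : PB fun a => 2 ^ ℓ a) (hG : PT G) (hk : PT k) (hS : PT S) :
    PT fun a => wtL (ℓ a) (G a) (k a) (S a) := by
  unfold wtL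
  refine PT.prod_range (g := fun a v => if v < ap (S a) v then
    lamN (ℓ a) (adj (G a) v (ap (S a) v)) (ent2 (k a) v (ap (S a) v)) else 1) hG.length
    (PB.length hG) (PT.ite (by fun_prop) ?_ (PT.const 1))
  exact pt_lamN (ℓ := fun p : α × ℕ => ℓ p.1) (hℓ.comp PT.id.fst) (hb.comp PT.id.fst)
    (by fun_prop) (by fun_prop)

theorem algpt_pt_w2L {ℓ : α → ℕ} {G : α → List (List Bool)} {k : α → KM}
    {x : α → List ℕ × List ℕ} (hℓ : PT ℓ) (hb : PB fun a => 2 ^ ℓ a) (hG : PT G) (hk : PT k)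
    (hx : PT x) : PT fun a => w2L (ℓ a) (G a) (k a) (x a) :=
  (pt_wtL hℓ hb hG hk hx.fst).mul (pt_wtL hℓ hb hG hk hx.snd)

/-! ### the moves -/

@[fun_prop] theorem algpt_pt_rv {g : α → List ℕ} {v : α → ℕ} (hg : PT g) (hv : PT v) :
    PT fun a => rv (g a) (v a) := by unfold rv; fun_prop

@[fun_prop] theorem algpt_pt_shiftL {g S : α → List ℕ} (hg : PT g) (hS : PT S) :
    PT fun a => shiftL (g a) (S a) := by unfold shiftL; fun_prop

theorem algpt_sz_ap (S : List ℕ) (v : ℕ) : sz (ap S v) ≤ sz S := by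
  unfold ap
  rcases lt_or_ge v S.length with h | h
  · rw [List.getD_eq_getElem _ _ h]
    exact sz_le_of_mem (List.getElem_mem _)
  · rw [List.getD_eq_default _ _ h]
    exact one_le_sz S

theorem algpt_walk_rec (Y S : ℕ → ℕ) (x i : ℕ) :
    walk Y S x i = (Nat.rec x (fun i w => if i % 2 = 0 then Y w else S w) i : ℕ) := by
  induction i with
  | zero => exact walk_zero Y S x
  | succ i ih => rw [walk_succ, ih]

theorem algpt_sz_walk (Y S : List ℕ) (x i : ℕ) :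
    sz (walk (ap Y) (ap S) x i) ≤ sz x + sz Y + sz S := by
  cases i with
  | zero => rw [walk_zero]; omega
  | succ i =>
    rw [walk_succ]
    split_ifs
    · exact (algpt_sz_ap _ _).trans (by omega)
    · exact (algpt_sz_ap _ _).trans (by omega)

theorem algpt_pt_walk {Y S : α → List ℕ} {x i : α → ℕ} (hY : PT Y) (hS : PT S) (hx : PT x)
    (hi : PT i) (hb : PB i) : PT fun a => walk (ap (Y a)) (ap (S a)) (x a) (i a) := by
  have := PT.natRec (f := fun a j w => if j % 2 = 0 then ap (Y a) w else ap (S a) w) (n := i)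
    (ini := x) (fun a => sz (x a) + sz (Y a) + sz (S a)) (by fun_prop) hi hb hx (by fun_prop)
    (fun a j _ => by rw [← algpt_walk_rec]; exact algpt_sz_walk _ _ _ _)
  exact this.congr fun a => algpt_walk_rec _ _ _ _

theorem algpt_pt_seg {Y S : α → List ℕ} {x m : α → ℕ} (hY : PT Y) (hS : PT S) (hx : PT x)
    (hm : PT m) (hb : PB m) : PT fun a => seg (ap (Y a)) (ap (S a)) (x a) (m a) := by
  have h1 : PT fun p : α × ℕ => walk (ap (Y p.1)) (ap (S p.1)) (x p.1) (min p.2 (m p.1)) :=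
    algpt_pt_walk (hY.comp PT.id.fst) (hS.comp PT.id.fst) (hx.comp PT.id.fst)
      (PT.id.snd.min (hm.comp PT.id.fst)) (PB.min_right _ (hb.comp PT.id.fst))
  have := PT.map (g := fun a i => walk (ap (Y a)) (ap (S a)) (x a) (min i (m a))) (hm.range hb) h1
  refine this.congr fun a => ?_
  unfold seg
  refine List.map_congr_left fun i hi => ?_
  rw [min_eq_left (List.mem_range.1 hi).le]

theorem algpt_pt_mvL {x : α → List ℕ × List ℕ} {t u v : α → ℕ} (hx : PT x) (ht : PT t) (hu : PT u)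
    (hv : PT v) (hb : PB v) : PT fun a => mvL (x a) (t a) (u a) (v a) := by
  have h1 : PT fun a => seg (ap (x a).2) (ap (x a).1) (u a) (v a + 1) :=
    algpt_pt_seg hx.snd hx.fst hu (hv.add (PT.const 1)) (hb.add (PB.const 1))
  unfold mvL
  refine PT.ite (by fun_prop) (by fun_prop) (PT.ite (by fun_prop) (by fun_prop)
    (PT.ite (by fun_prop) (by fun_prop) ?_))
  exact (algpt_pt_shiftL h1 hx.fst).pair (algpt_pt_shiftL h1 hx.snd)

theorem algpt_ofBits_take_lt (l : List Bool) (m : ℕ) : ofBits (l.take m) < 2 ^ m :=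
  (Lib.PT.ofBits_lt _).trans_le (Nat.pow_le_pow_right (by norm_num) (by simp))

theorem algpt_pt_prop {ℓ : α → ℕ} {x : α → List ℕ × List ℕ} {ω : α → List Bool} (hℓ : PT ℓ)
    (hb : PB fun a => 2 ^ ℓ a) (hx : PT x) (hω : PT ω) : PT fun a => prop (ℓ a) (x a) (ω a) := by
  unfold prop
  exact algpt_pt_mvL hx (by fun_prop) (by fun_prop) (by fun_prop)
    (hb.of_le fun a => (algpt_ofBits_take_lt _ _).le)

theorem algpt_pt_pstep {ℓ : α → ℕ} {G : α → List (List Bool)} {k : α → KM}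
    {x : α → List ℕ × List ℕ} {ω : α → List Bool} (hℓ : PT ℓ) (hb : PB fun a => 2 ^ ℓ a)
    (hG : PT G) (hk : PT k) (hx : PT x) (hω : PT ω) :
    PT fun a => pstep (ℓ a) (G a) (k a) (x a) (ω a) := by
  have h1 := algpt_pt_prop hℓ hb hx hω
  have h2 := algpt_pt_w2L hℓ hb hG hk hx
  have h3 := algpt_pt_w2L hℓ hb hG hk h1
  unfold pstep
  refine PT.ite (PT.decide_and (by fun_prop) (PT.decide_and (by fun_prop)
    (PT.decide_and (by fun_prop) (PT.decide_lt ?_ h3)))) h1 hx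
  exact (PT.take (h2.max h3).size (PT.drop (by fun_prop) hω)).ofBits

theorem algpt_pt_coll {ℓ i j : α → ℕ} {G : α → List (List Bool)} {k : α → KM}
    {X : α → List (List ℕ)} {ω : α → List Bool} (hℓ : PT ℓ) (hb : PB fun a => 2 ^ ℓ a)
    (hG : PT G) (hk : PT k) (hX : PT X) (hi : PT i) (hj : PT j) (hω : PT ω) :
    PT fun a => coll (ℓ a) (G a) (k a) (X a) (i a) (j a) (ω a) := by
  have h1 : PT fun a => pstep (ℓ a) (G a) (k a) ((X a).getD (i a) [], (X a).getD (j a) []) (ω a) :=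
    algpt_pt_pstep hℓ hb hG hk (by fun_prop) hω
  unfold coll
  exact PT.ite (by fun_prop) hX (PT.set hj (PT.set hi hX h1.fst) h1.snd)

theorem algpt_pt_nstep {ℓ : α → ℕ} {G : α → List (List Bool)} {k : α → KM}
    {X : α → List (List ℕ)} {ω : α → List Bool} (hℓ : PT ℓ) (hb : PB fun a => 2 ^ ℓ a)
    (hG : PT G) (hk : PT k) (hX : PT X) (hω : PT ω) :
    PT fun a => nstep (ℓ a) (G a) (k a) (X a) (ω a) := by
  unfold nstep
  exact algpt_pt_coll hℓ hb hG hk hX (by fun_prop) (by fun_prop) (by fun_prop)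

/-! ### size invariants -/

/-- length at most `B`, entries of at most `B` bits -/
def algptOk (B : ℕ) (S : List ℕ) : Prop := S.length ≤ B ∧ ∀ x ∈ S, x < 2 ^ B

theorem algptOk.sz_le {B : ℕ} {S : List ℕ} (h : algptOk B S) : sz S ≤ (6 * B + 2) * B + 1 :=
  (sz_list_le S (6 * B + 1) fun x hx => sz_nat_le_of_lt_two_pow (h.2 x hx)).trans
    (Nat.add_le_add_right (Nat.mul_le_mul_left _ h.1) 1)

theorem algptOk_nil (B : ℕ) : algptOk B [] := ⟨Nat.zero_le _, by simp⟩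

theorem algptOk_of_sz {B : ℕ} {S : List ℕ} (h : sz S ≤ B) : algptOk B S :=
  ⟨(length_le_sz S).trans h, fun x hx => (lt_two_pow_sz x).trans_le
    (Nat.pow_le_pow_right (by norm_num) ((sz_le_of_mem hx).trans h))⟩

theorem algptOk.ap_lt {B : ℕ} {S : List ℕ} (h : algptOk B S) (v : ℕ) : ap S v < 2 ^ B := by
  unfold ap
  rcases lt_or_ge v S.length with hv | hv
  · rw [List.getD_eq_getElem _ _ hv]
    exact h.2 _ (List.getElem_mem _)
  · rw [List.getD_eq_default _ _ hv]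
    positivity

theorem algpt_rv_lt {N : ℕ} {g : List ℕ} (hg : ∀ x ∈ g, x < N) {v : ℕ} (hv : v < N) :
    rv g v < N := by
  unfold rv
  split_ifs
  · rcases lt_or_ge (g.idxOf v) g.reverse.length with h | h
    · rw [List.getD_eq_getElem _ _ h]
      exact hg _ (List.mem_reverse.1 (List.getElem_mem _))
    · rw [List.getD_eq_default _ _ h]
      exact hv
  · exact hv

theorem algptOk.shiftL {B : ℕ} {S g : List ℕ} (h : algptOk B S) (hg : ∀ x ∈ g, x < 2 ^ B) :
    algptOk B (shiftL g S) := by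
  unfold R304.shiftL
  split_ifs
  · refine ⟨by simpa using h.1, fun x hx => ?_⟩
    obtain ⟨v, -, rfl⟩ := List.mem_map.1 hx
    exact algpt_rv_lt hg (h.ap_lt _)
  · exact h

theorem algpt_seg_lt {B : ℕ} {Y S : List ℕ} (hY : algptOk B Y) (hS : algptOk B S) {x : ℕ}
    (hx : x < 2 ^ B) (m : ℕ) : ∀ y ∈ seg (ap Y) (ap S) x m, y < 2 ^ B := by
  intro y hy
  obtain ⟨i, -, rfl⟩ := List.mem_map.1 hy
  cases i with
  | zero => rw [walk_zero]; exact hx
  | succ i =>
    rw [walk_succ]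
    split_ifs
    · exact hY.ap_lt _
    · exact hS.ap_lt _

theorem algpt_ok_mvL {B : ℕ} {x : List ℕ × List ℕ} (h1 : algptOk B x.1) (h2 : algptOk B x.2)
    (t : ℕ) {u v : ℕ} (hu : u < 2 ^ B) (hv : v < 2 ^ B) :
    algptOk B (mvL x t u v).1 ∧ algptOk B (mvL x t u v).2 := by
  have hg : ∀ y ∈ [u, v], y < 2 ^ B := by
    intro y hy
    simp only [List.mem_cons, List.not_mem_nil, or_false] at hy
    rcases hy with rfl | rfl
    · exact hu
    · exact hv
  unfold mvL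
  split_ifs
  · exact ⟨h2, h1⟩
  · exact ⟨h1.shiftL hg, h2⟩
  · exact ⟨h1, h2.shiftL hg⟩
  · exact ⟨h1.shiftL (algpt_seg_lt h2 h1 hu _), h2.shiftL (algpt_seg_lt h2 h1 hu _)⟩

theorem algpt_ok_pstep {B : ℕ} (ℓ : ℕ) {G : List (List Bool)} (hG : G.length ≤ B) (k : KM)
    {x : List ℕ × List ℕ} (h1 : algptOk B x.1) (h2 : algptOk B x.2) (ω : List Bool) :
    algptOk B (pstep ℓ G k x ω).1 ∧ algptOk B (pstep ℓ G k x ω).2 := by
  unfold pstep
  split_ifs with h
  · have h3 : G.length < 2 ^ B := hG.trans_lt Nat.lt_two_pow_self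
    exact algpt_ok_mvL h1 h2 _ (h.2.1.trans h3) (h.2.2.1.trans h3)
  · exact ⟨h1, h2⟩

theorem algpt_ok_getD {B : ℕ} {X : List (List ℕ)} (h : ∀ S ∈ X, algptOk B S) (i : ℕ) :
    algptOk B (X.getD i []) := by
  rcases lt_or_ge i X.length with hi | hi
  · rw [List.getD_eq_getElem _ _ hi]
    exact h _ (List.getElem_mem _)
  · rw [List.getD_eq_default _ _ hi]
    exact algptOk_nil B

theorem algpt_ok_nstep {B : ℕ} (ℓ : ℕ) {G : List (List Bool)} (hG : G.length ≤ B) (k : KM)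
    {X : List (List ℕ)} (h : ∀ S ∈ X, algptOk B S) (ω : List Bool) :
    ∀ S ∈ nstep ℓ G k X ω, algptOk B S := by
  unfold nstep coll
  split_ifs
  · exact h
  · intro S hS
    rcases List.mem_or_eq_of_mem_set hS with hS | rfl
    · rcases List.mem_or_eq_of_mem_set hS with hS | rfl
      · exact h S hS
      · exact (algpt_ok_pstep ℓ hG k (algpt_ok_getD h _) (algpt_ok_getD h _) _).1
    · exact (algpt_ok_pstep ℓ hG k (algpt_ok_getD h _) (algpt_ok_getD h _) _).2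

theorem algpt_length_nstep (ℓ : ℕ) (G : List (List Bool)) (k : KM) (X : List (List ℕ))
    (ω : List Bool) : (nstep ℓ G k X ω).length = X.length := by
  unfold nstep coll
  split_ifs
  · rfl
  · rw [List.length_set, List.length_set]

theorem algpt_foldl_inv {β γ : Type} (P : β → Prop) (f : β → γ → β) (l : List γ)
    (hf : ∀ x, ∀ c ∈ l, P x → P (f x c)) {x : β} (hx : P x) : P (l.foldl f x) := by
  induction l generalizing x with
  | nil => exact hx
  | cons c l ih =>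
    exact ih (fun y d hd => hf y d (List.mem_cons_of_mem _ hd)) (hf x c List.mem_cons_self hx)

theorem algpt_ok_run {B : ℕ} (ℓ : ℕ) {G : List (List Bool)} (hG : G.length ≤ B) (k : KM)
    {X : List (List ℕ)} (h : ∀ S ∈ X, algptOk B S) (ω : List Bool) :
    ∀ S ∈ run ℓ G k X ω, algptOk B S :=
  algpt_foldl_inv (fun X => ∀ S ∈ X, algptOk B S) _ _ (fun _ c _ hX => algpt_ok_nstep ℓ hG k hX c) h

theorem algpt_length_run (ℓ : ℕ) (G : List (List Bool)) (k : KM) (X : List (List ℕ))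
    (ω : List Bool) : (run ℓ G k X ω).length = X.length :=
  algpt_foldl_inv (fun Y => Y.length = X.length) _ _
    (fun Y c _ hY => (algpt_length_nstep ℓ G k Y c).trans hY) rfl

theorem algpt_sz_le {B L : ℕ} {X : List (List ℕ)} (h : ∀ S ∈ X, algptOk B S) (hL : X.length = L) :
    sz X ≤ ((6 * B + 2) * B + 1 + 1) * L + 1 := by
  rw [← hL]
  exact sz_list_le X _ fun S hS => (h S hS).sz_le

theorem algpt_pt_run {ℓ : α → ℕ} {G : α → List (List Bool)} {k : α → KM}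
    {X : α → List (List ℕ)} {ω : α → List Bool} (hℓ : PT ℓ) (hb : PB fun a => 2 ^ ℓ a)
    (hG : PT G) (hk : PT k) (hX : PT X) (hω : PT ω) :
    PT fun a => run (ℓ a) (G a) (k a) (X a) (ω a) := by
  unfold run
  refine PT.foldl_inv (f := fun a => nstep (ℓ a) (G a) (k a))
    (fun a Y => (∀ S ∈ Y, algptOk (sz (X a) + (G a).length) S) ∧ Y.length = (X a).length)
    (fun a => ((6 * (sz (X a) + (G a).length) + 2) * (sz (X a) + (G a).length) + 1 + 1) *
      (X a).length + 1) ?_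
    (PT.chunks (pt_pw 652 hℓ hb) (pb_pw 652 hb) (algpt_pt_r2 hℓ hb).1 hω) hX (by fun_prop)
    (fun a => ⟨fun S hS => algptOk_of_sz ((sz_le_of_mem hS).trans (Nat.le_add_right _ _)), rfl⟩)
    (fun a Y c _ h => ⟨algpt_ok_nstep _ (Nat.le_add_left _ _) _ h.1 c,
      (algpt_length_nstep _ _ _ _ _).trans h.2⟩) fun a Y h => algpt_sz_le h.1 h.2
  exact algpt_pt_nstep (hℓ.comp PT.id.fst) (hb.comp PT.id.fst) (hG.comp PT.id.fst)
    (hk.comp PT.id.fst) PT.id.snd.fst PT.id.snd.snd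

/-! ### the initial replicas -/

theorem algpt_pt_base {n : α → ℕ} (hn : PT n) (hb : PB n) : PT fun a => base (n a) := by
  unfold base; fun_prop

theorem algpt_pt_istep {n : α → ℕ} {S : α → List ℕ} {z : α → ℕ × List Bool} (hn : PT n) (hS : PT S)
    (hz : PT z) : PT fun a => istep (n a) (S a) (z a) := by
  unfold istep; fun_prop

theorem algpt_ok_base (n : ℕ) : algptOk (2 * n) (base n) := by
  refine ⟨by simp [base]; omega, fun x hx => ?_⟩
  obtain ⟨v, hv, rfl⟩ := List.mem_map.1 hx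
  have h1 := List.mem_range.1 hv
  have h2 : 2 * n < 2 ^ (2 * n) := Nat.lt_two_pow_self
  split_ifs <;> omega

theorem algpt_ok_istep {n : ℕ} {S : List ℕ} (h : algptOk (2 * n) S) {z : ℕ × List Bool}
    (hz : z.1 < n / 2) : algptOk (2 * n) (istep n S z) := by
  refine h.shiftL fun x hx => ?_
  have h2 : 2 * n < 2 ^ (2 * n) := Nat.lt_two_pow_self
  have h3 : ofBits z.2 % (2 * z.1 + 1) < 2 * z.1 + 1 := Nat.mod_lt _ (by omega)
  simp only [List.mem_cons, List.not_mem_nil, or_false] at hx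
  rcases hx with rfl | rfl <;> omega

theorem algpt_pt_init1 {ℓ n : α → ℕ} {ω : α → List Bool} (hℓ : PT ℓ) (hn : PT n) (hb : PB n)
    (hω : PT ω) : PT fun a => init1 (ℓ a) (n a) (ω a) := by
  unfold init1
  refine PT.foldl_inv (f := fun a => istep (n a)) (fun a S => algptOk (2 * n a) S)
    (fun a => (6 * (2 * n a) + 2) * (2 * n a) + 1)
    (algpt_pt_istep (hn.comp PT.id.fst) PT.id.snd.fst PT.id.snd.snd) (by fun_prop)
    (algpt_pt_base hn hb) (by fun_prop) (fun a => algpt_ok_base _) (fun a S z hz h => ?_)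
    fun a S h => h.sz_le
  exact algpt_ok_istep h (List.mem_range.1 (List.of_mem_zip (a := z.1) (b := z.2) hz).1)

theorem algpt_pt_init {ℓ n : α → ℕ} {ω : α → List Bool} (hℓ : PT ℓ) (hb : PB fun a => 2 ^ ℓ a)
    (hn : PT n) (hb' : PB n) (hω : PT ω) : PT fun a => init (ℓ a) (n a) (ω a) := by
  unfold init
  exact PT.map (g := fun a w => init1 (ℓ a) (n a) w)
    (PT.chunks (pt_pw 300 hℓ hb) (pb_pw 300 hb) (algpt_pt_rI1 hℓ hb).1 hω)
    (algpt_pt_init1 (hℓ.comp PT.id.fst) (hn.comp PT.id.fst) (hb'.comp PT.id.fst) PT.id.snd)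

theorem length_sample (ℓ : ℕ) (G : List (List Bool)) (sched : List KM) (ω : List Bool) :
    (sample ℓ G sched ω).length = pN ℓ :=
  algpt_foldl_inv (fun Y => Y.length = pN ℓ) _ _
    (fun Y z _ hY => (algpt_length_run ℓ G z.1 Y z.2).trans hY)
    (by rw [init, List.length_map, length_chunks])

theorem pt_sample {ℓ : α → ℕ} {G : α → List (List Bool)} {sched : α → List KM} {ω : α → List Bool}
    (hℓ : PT ℓ) (hb : PB fun a => 2 ^ ℓ a) (hG : PT G) (hs : PT sched) (hω : PT ω) :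
    PT fun a => sample (ℓ a) (G a) (sched a) (ω a) := by
  have hX : PT fun a => init (ℓ a) (G a).length (ω a) :=
    algpt_pt_init hℓ hb hG.length (PB.length hG) hω
  have h1 : PB fun a => sz (init (ℓ a) (G a).length (ω a)) + (G a).length :=
    (PB.sz hX).add (PB.length hG)
  unfold sample
  refine PT.foldl_inv (f := fun a X (z : KM × List Bool) => run (ℓ a) (G a) z.1 X z.2)
    (fun a Y => (∀ S ∈ Y, algptOk (sz (init (ℓ a) (G a).length (ω a)) + (G a).length) S) ∧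
      Y.length = (init (ℓ a) (G a).length (ω a)).length)
    (fun a => ((6 * (sz (init (ℓ a) (G a).length (ω a)) + (G a).length) + 2) *
      (sz (init (ℓ a) (G a).length (ω a)) + (G a).length) + 1 + 1) *
      (init (ℓ a) (G a).length (ω a)).length + 1) ?_
    (hs.zip (PT.chunks hs.length (PB.length hs) (pt_r3 hℓ hb).1
      (PT.drop (algpt_pt_rI hℓ hb).1 hω))) hX ?_
    (fun a => ⟨fun S hS => algptOk_of_sz ((sz_le_of_mem hS).trans (Nat.le_add_right _ _)), rfl⟩)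
    (fun a Y z _ h => ⟨algpt_ok_run _ (Nat.le_add_left _ _) _ h.1 z.2,
      (algpt_length_run _ _ _ _ _).trans h.2⟩) fun a Y h => algpt_sz_le h.1 h.2
  · exact algpt_pt_run (hℓ.comp PT.id.fst) (hb.comp PT.id.fst) (hG.comp PT.id.fst)
      PT.id.snd.snd.fst PT.id.snd.fst PT.id.snd.snd.snd
  · exact (((((((PB.const 6).mul h1).add (PB.const 2)).mul h1).add (PB.const 1)).add
      (PB.const 1)).mul (PB.length hX)).add (PB.const 1)

end Crest.Agent.R304
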