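import Crest.Agent.R304.AlgPT

/-!
Row 304: the algorithm runs in polynomial time.

In the outer loop every step appends `pu` matrices of format `n × n` whose entries grow by at most `pu`, and divides the rational by `rho`, a sum of `pN`
quotients of naturals at most `((pM + 1) ^ (2 pK + 2)) ^ n` (so its height `ht` of `Lib/PT/Rat.lean` is polynomially bounded, uniformly in the state); use
`PT.foldl` with an explicit bound depending on the number of steps (compare `R309/AlgPT.lean`).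
-/

set_option autoImplicit false

namespace Crest.Agent.R304

open Finset Crest.Agent.Lib.PT Crest.Agent.R309

variable {α : Type} [Enc α]

/-! ### the building blocks -/

theorem algpt2_ap {S : α → List ℕ} {v : α → ℕ} (hS : PT S) (hv : PT v) :
    PT fun a => ap (S a) (v a) := hv.getD hS (PT.const 0)

theorem algpt2_ent2 {k : α → KM} {u v : α → ℕ} (hk : PT k) (hu : PT u) (hv : PT v) :
    PT fun a => ent2 (k a) (u a) (v a) := hv.getD (hu.getD hk (PT.const [])) (PT.const 0)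

theorem algpt2_adj {G : α → List (List Bool)} {u v : α → ℕ} (hG : PT G) (hu : PT u) (hv : PT v) :
    PT fun a => adj (G a) (u a) (v a) := hv.getD (hu.getD hG (PT.const [])) (PT.const false)

theorem algpt2_mat {n : α → ℕ} {F : α → ℕ → ℕ → ℕ} (hn : PT n) (hnb : PB n)
    (hF : PT fun p : (α × ℕ) × ℕ => F p.1.1 p.1.2 p.2) : PT fun a => mat (n a) (F a) :=
  (hn.range hnb).map (g := fun a u => (List.range (n a)).map fun v => F a u v)
    (((hn.comp PT.id.fst).range (hnb.comp PT.id.fst)).map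
      (g := fun (p : α × ℕ) v => F p.1 p.2 v) hF)

theorem algpt2_cnt {X : α → List (List ℕ)} {u v : α → ℕ} (hX : PT X) (hu : PT u) (hv : PT v) :
    PT fun a => cnt (X a) (u a) (v a) :=
  hX.countP (g := fun a S => decide (ap S (u a) = v a))
    ((algpt2_ap PT.id.snd (hu.comp PT.id.fst)).decide_eq (hv.comp PT.id.fst))

section Blocks

variable {ℓ u v i : α → ℕ} {G : α → List (List Bool)} {k k' : α → KM} {X : α → List (List ℕ)}
  {S : α → List ℕ}

theorem algpt2_up (hℓ : PT ℓ) (hb : PB fun a => 2 ^ ℓ a) (hG : PT G) (hk : PT k) (hX : PT X)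
    (hu : PT u) (hv : PT v) : PT fun a => up (ℓ a) (G a) (k a) (X a) (u a) (v a) :=
  ((((PT.const 4).mul (algpt2_cnt hX hu hv)).mul (pt_omN hℓ hb (algpt2_ent2 hk hu hv))).mul
    (pt_pw 3 hℓ hb)).decide_le (((PT.const 3).mul (pt_pw 300 hℓ hb)).mul
      (pt_lamN hℓ hb (algpt2_adj hG hu hv) (algpt2_ent2 hk hu hv)))

theorem algpt2_dn (hℓ : PT ℓ) (hb : PB fun a => 2 ^ ℓ a) (hG : PT G) (hk : PT k) (hX : PT X)
    (hu : PT u) (hv : PT v) : PT fun a => dn (ℓ a) (G a) (k a) (X a) (u a) (v a) :=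
  (((PT.const 7).mul (pt_pw 300 hℓ hb)).mul
      (pt_lamN hℓ hb (algpt2_adj hG hu hv) (algpt2_ent2 hk hu hv))).decide_le
    ((((PT.const 2).mul (algpt2_cnt hX hu hv)).mul (pt_omN hℓ hb (algpt2_ent2 hk hu hv))).mul
      (pt_pw 3 hℓ hb))

theorem algpt2_sub (hℓ : PT ℓ) (hb : PB fun a => 2 ^ ℓ a) (hG : PT G) (hk : PT k) (hX : PT X)
    (hi : PT i) : PT fun a => sub (ℓ a) (G a) (k a) (X a) (i a) := by
  have q : PT fun p : (α × ℕ) × ℕ => p.1.1 := PT.id.fst.fst
  have qu : PT fun p : (α × ℕ) × ℕ => p.1.2 := PT.id.fst.snd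
  have qv : PT fun p : (α × ℕ) × ℕ => p.2 := PT.id.snd
  have he := algpt2_ent2 (hk.comp q) qu qv
  exact algpt2_mat (F := fun a u v => if up (ℓ a) (G a) (k a) (X a) u v then ent2 (k a) u v + i a
      else if dn (ℓ a) (G a) (k a) (X a) u v then ent2 (k a) u v - min (i a) (pa (ℓ a))
      else ent2 (k a) u v) hG.length (PB.length hG)
    (PT.ite (algpt2_up (hℓ.comp q) (hb.comp q) (hG.comp q) (hk.comp q) (hX.comp q) qu qv).decide_eq_true
      (he.add (hi.comp q))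
      (PT.ite
        (algpt2_dn (hℓ.comp q) (hb.comp q) (hG.comp q) (hk.comp q) (hX.comp q) qu qv).decide_eq_true
        (he.sub ((hi.comp q).min (pt_pw 626 (hℓ.comp q) (hb.comp q)))) he))

theorem algpt2_anyDn (hℓ : PT ℓ) (hb : PB fun a => 2 ^ ℓ a) (hG : PT G) (hk : PT k) (hX : PT X) :
    PT fun a => anyDn (ℓ a) (G a) (k a) (X a) := by
  have q : PT fun p : (α × ℕ) × ℕ => p.1.1 := PT.id.fst.fst
  have qu : PT fun p : (α × ℕ) × ℕ => p.1.2 := PT.id.fst.snd
  have qv : PT fun p : (α × ℕ) × ℕ => p.2 := PT.id.snd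
  exact (hG.length.range (PB.length hG)).any
    (g := fun a u => (List.range (G a).length).any fun v =>
      decide (u ≠ v) && dn (ℓ a) (G a) (k a) (X a) u v)
    (((hG.comp PT.id.fst).length.range (PB.length (hG.comp PT.id.fst))).any
      (g := fun (p : α × ℕ) v => decide (p.2 ≠ v) && dn (ℓ p.1) (G p.1) (k p.1) (X p.1) p.2 v)
      ((qu.decide_ne qv).and
        (algpt2_dn (hℓ.comp q) (hb.comp q) (hG.comp q) (hk.comp q) (hX.comp q) qu qv)))

theorem algpt2_inG (hG : PT G) (hS : PT S) : PT fun a => inG (G a) (S a) := by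
  have q : PT fun p : α × ℕ => p.1 := PT.id.fst
  have qv : PT fun p : α × ℕ => p.2 := PT.id.snd
  have h1 := algpt2_ap (hS.comp q) qv
  exact (hG.length.range (PB.length hG)).all
    (g := fun a v => decide (ap (S a) v < (G a).length) && decide (ap (S a) (ap (S a) v) = v) &&
      decide (ap (S a) v ≠ v) && adj (G a) v (ap (S a) v))
    ((((h1.decide_lt (hG.comp q).length).and ((algpt2_ap (hS.comp q) h1).decide_eq qv)).and
      (h1.decide_ne qv)).and (algpt2_adj (hG.comp q) qv h1))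

theorem algpt2_rho (hℓ : PT ℓ) (hb : PB fun a => 2 ^ ℓ a) (hG : PT G) (hk' : PT k') (hk : PT k)
    (hX : PT X) : PT fun a => rho (ℓ a) (G a) (k' a) (k a) (X a) := by
  have q : PT fun p : α × List ℕ => p.1 := PT.id.fst
  have qS : PT fun p : α × List ℕ => p.2 := PT.id.snd
  exact (hX.map (g := fun a S => (wtL (ℓ a) (G a) (k' a) S : ℚ) / (wtL (ℓ a) (G a) (k a) S : ℚ))
    ((pt_wtL (hℓ.comp q) (hb.comp q) (hG.comp q) (hk'.comp q) qS).ratNatCast.ratDiv
      (pt_wtL (hℓ.comp q) (hb.comp q) (hG.comp q) (hk.comp q) qS).ratNatCast)).ratSum.ratDiv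
    (pt_pw 300 hℓ hb).ratNatCast

theorem algpt2_alp (hℓ : PT ℓ) (hb : PB fun a => 2 ^ ℓ a) (hG : PT G) (hk : PT k)
    (hX : PT X) : PT fun a => alp (ℓ a) (G a) (k a) (X a) := by
  have q : PT fun p : α × List ℕ => p.1 := PT.id.fst
  have qS : PT fun p : α × List ℕ => p.2 := PT.id.snd
  exact (hX.map (g := fun a S => if inG (G a) S then 1 / (wtL (ℓ a) (G a) (k a) S : ℚ) else 0)
    (PT.ite (algpt2_inG (hG.comp q) qS).decide_eq_true
      ((PT.const 1).ratDiv
        (pt_wtL (hℓ.comp q) (hb.comp q) (hG.comp q) (hk.comp q) qS).ratNatCast)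
      (PT.const 0))).ratSum.ratDiv (pt_pw 300 hℓ hb).ratNatCast

theorem algpt2_upd {st : α → St} (hℓ : PT ℓ) (hb : PB fun a => 2 ^ ℓ a) (hG : PT G) (hst : PT st)
    (hX : PT X) : PT fun a => upd (ℓ a) (G a) (st a) (X a) := by
  have q : PT fun p : α × ℕ => p.1 := PT.id.fst
  have h1 := hst.fst
  have h2 := hst.snd.fst
  have h3 := hst.snd.snd.fst
  have h4 := hst.snd.snd.snd.fst
  have h6 := hst.snd.snd.snd.snd.snd
  have hr := h4.ratDiv (algpt2_rho hℓ hb hG h2 h3 hX)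
  exact PT.ite (algpt2_anyDn hℓ hb hG h3 hX).decide_eq_true
    ((h1.append (((pt_pw 628 hℓ hb).range (pb_pw 628 hb)).map
      (g := fun a i => sub (ℓ a) (G a) (st a).2.2.1 (X a) (i + 1))
      (algpt2_sub (hℓ.comp q) (hb.comp q) (hG.comp q) (h3.comp q) (hX.comp q)
        (PT.id.snd.add (PT.const 1))))).pair
      (h3.pair ((algpt2_sub hℓ hb hG h3 hX (pt_pw 628 hℓ hb)).pair
        (hr.pair ((PT.const false).pair h6)))))
    (h1.pair (h2.pair (h3.pair (h4.pair ((PT.const true).pair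
      (hr.ratMul (algpt2_alp hℓ hb hG h3 hX)))))))

theorem algpt2_outer {st : α → St} {ω : α → List Bool} (hℓ : PT ℓ) (hb : PB fun a => 2 ^ ℓ a)
    (hG : PT G) (hst : PT st) (hω : PT ω) : PT fun a => outer (ℓ a) (G a) (st a) (ω a) :=
  PT.ite hst.snd.snd.snd.snd.fst.decide_eq_true hst
    (algpt2_upd hℓ hb hG hst (pt_sample hℓ hb hG hst.fst hω))

theorem algpt2_df {n : α → ℕ} (hn : PT n) (hnb : PB n) : PT fun a => df (n a) :=
  (hn.div (PT.const 2)).prod_range (g := fun _ j => 2 * j + 1) (hnb.div _)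
    (((PT.const 2).mul PT.id.snd).add (PT.const 1))

theorem algpt2_k0 {n : α → ℕ} (hℓ : PT ℓ) (hb : PB fun a => 2 ^ ℓ a) (hn : PT n) (hnb : PB n) :
    PT fun a => k0 (ℓ a) (n a) :=
  algpt2_mat (F := fun a _ _ => pK (ℓ a)) hn hnb
    (pt_pw 639 (hℓ.comp PT.id.fst.fst) (hb.comp PT.id.fst.fst))

theorem algpt2_pD (hℓ : PT ℓ) (hb : PB fun a => 2 ^ ℓ a) : PT fun a => pD (ℓ a) :=
  (((pt_pw 630 hℓ hb).add (PT.const 1)).pow (pt_pw 639 hℓ hb) (pb_pw 639 hb)).mul
    ((pt_pw 630 hℓ hb).pow (pt_pw 639 hℓ hb) (pb_pw 639 hb))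

theorem algpt2_st0 {n : α → ℕ} (hℓ : PT ℓ) (hb : PB fun a => 2 ^ ℓ a) (hn : PT n) (hnb : PB n) :
    PT fun a => st0 (ℓ a) (n a) := by
  have h := algpt2_k0 hℓ hb hn hnb
  exact (h.cons (PT.const [])).pair (h.pair (h.pair
    (((((pt_pw 630 hℓ hb).mul (algpt2_pD hℓ hb)).pow (hn.div (PT.const 2)) (hnb.div _)).mul
      (algpt2_df hn hnb)).ratNatCast.pair ((PT.const false).pair (PT.const 0)))))

theorem algpt2_med {l : α → List ℚ} (hl : PT l) : PT fun a => med (l a) := by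
  have q : PT fun p : α × ℚ => p.1 := PT.id.fst
  have h1 : PT fun p : α × ℚ => (l p.1).countP fun y => decide (y ≤ p.2) :=
    (hl.comp q).countP (g := fun (p : α × ℚ) y => decide (y ≤ p.2))
      (PT.id.snd.rat_decide_le PT.id.fst.snd)
  exact ((hl.filter
    (g := fun a z => decide ((l a).length < 2 * (l a).countP fun y => decide (y ≤ z)))
    ((hl.comp q).length.decide_lt ((PT.const 2).mul h1))).argmin_rat (f := fun _ z => z)
      PT.id.snd).optionGetD (PT.const 0)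

end Blocks

/-! ### the size of the state -/

/-- bound on the bit size of the weight of a pair -/
def algpt2E (ℓ : ℕ) : ℕ := pM ℓ * (4 * pK ℓ + 1) + 1

/-- bound on the height of the estimates -/
def algpt2R (ℓ n : ℕ) : ℕ := pN ℓ * (2 * (algpt2E ℓ * n + 2) + 1) + 1 + (pN ℓ + 1)

theorem algpt2_lamN_le (ℓ : ℕ) (g : Bool) (k : ℕ) : lamN ℓ g k ≤ 2 ^ algpt2E ℓ := by
  have h1 : pM ℓ + 1 ≤ 2 ^ pM ℓ := Nat.lt_two_pow_self
  have h0 : pM ℓ ≤ 2 ^ pM ℓ := by omega
  have hp : 0 < 2 ^ pM ℓ := Nat.two_pow_pos _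
  have h2 : pD ℓ ≤ (2 ^ pM ℓ) ^ (4 * pK ℓ + 1) := by
    calc pD ℓ ≤ (2 ^ pM ℓ) ^ pK ℓ * (2 ^ pM ℓ) ^ pK ℓ :=
          Nat.mul_le_mul (Nat.pow_le_pow_left h1 _) (Nat.pow_le_pow_left h0 _)
      _ = (2 ^ pM ℓ) ^ (pK ℓ + pK ℓ) := (pow_add _ _ _).symm
      _ ≤ _ := Nat.pow_le_pow_right hp (by omega)
  have h3 : omN ℓ k ≤ (2 ^ pM ℓ) ^ (4 * pK ℓ + 1) := by
    calc omN ℓ k ≤ (2 ^ pM ℓ) ^ 1 * (2 ^ pM ℓ) ^ min k (2 * pK ℓ) * (2 ^ pM ℓ) ^ (2 * pK ℓ - k) :=
          Nat.mul_le_mul (Nat.mul_le_mul (by rw [pow_one]; exact h0) (Nat.pow_le_pow_left h1 _))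
            (Nat.pow_le_pow_left h0 _)
      _ = (2 ^ pM ℓ) ^ (1 + min k (2 * pK ℓ) + (2 * pK ℓ - k)) := by rw [pow_add, pow_add]
      _ ≤ _ := Nat.pow_le_pow_right hp (by omega)
  have h4 : (if g then pD ℓ else 0) ≤ pD ℓ := by
    split_ifs
    · exact le_rfl
    · exact Nat.zero_le _
  rw [algpt2E, pow_succ, pow_mul]
  unfold lamN
  omega

theorem algpt2_wtL_le (ℓ : ℕ) (G : List (List Bool)) (k : KM) (S : List ℕ) :
    wtL ℓ G k S ≤ 2 ^ (algpt2E ℓ * G.length) := by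
  unfold wtL
  rw [pow_mul]
  refine (Finset.prod_le_pow_card _ _ (2 ^ algpt2E ℓ) fun v _ => ?_).trans (by rw [card_range])
  split_ifs
  · exact algpt2_lamN_le _ _ _
  · exact Nat.two_pow_pos _

theorem algpt2_ht_nat {n k : ℕ} (h : n < 2 ^ k) : ht (n : ℚ) ≤ k + 1 := by
  have := Nat.size_le.2 h
  simp only [ht, Rat.num_natCast, Int.natAbs_natCast, Rat.den_natCast, Nat.size_one]
  omega

theorem algpt2_ht_wtL (ℓ : ℕ) (G : List (List Bool)) (k : KM) (S : List ℕ) :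
    ht (wtL ℓ G k S : ℚ) ≤ algpt2E ℓ * G.length + 2 :=
  algpt2_ht_nat ((algpt2_wtL_le ℓ G k S).trans_lt
    (Nat.pow_lt_pow_right (by norm_num) (Nat.lt_succ_self _)))

theorem algpt2_ht_zero : ht 0 = 1 := by simp [ht]

theorem algpt2_ht_one : ht 1 = 1 := by simp [ht]

theorem algpt2_ht_sum (l : List ℚ) (M : ℕ) (h : ∀ x ∈ l, ht x ≤ M) :
    ht l.sum ≤ l.length * (M + 1) + 1 := by
  induction l with
  | nil => simp [algpt2_ht_zero]
  | cons x l ih =>
    have h1 := h x (by simp)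
    have h2 := ih fun y hy => h y (by simp [hy])
    have h3 := ht_add_le x l.sum
    rw [List.sum_cons, List.length_cons, Nat.succ_mul]
    omega

theorem algpt2_ht_avg (ℓ n : ℕ) {X : List (List ℕ)} (hX : X.length = pN ℓ) (F : List ℕ → ℚ)
    (hF : ∀ S, ht (F S) ≤ 2 * (algpt2E ℓ * n + 2)) :
    ht ((X.map F).sum / (pN ℓ : ℚ)) ≤ algpt2R ℓ n := by
  have h1 := algpt2_ht_sum (X.map F) _ fun x hx => by
    obtain ⟨S, -, rfl⟩ := List.mem_map.1 hx
    exact hF S
  rw [List.length_map, hX] at h1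
  have h2 := algpt2_ht_nat (Nat.lt_two_pow_self (n := pN ℓ))
  exact (ht_div_le _ _).trans (Nat.add_le_add h1 h2)

theorem algpt2_ht_rho (ℓ : ℕ) (G : List (List Bool)) (k' k : KM) {X : List (List ℕ)}
    (hX : X.length = pN ℓ) : ht (rho ℓ G k' k X) ≤ algpt2R ℓ G.length :=
  algpt2_ht_avg ℓ G.length hX _ fun S => by
    have h1 := algpt2_ht_wtL ℓ G k' S
    have h2 := algpt2_ht_wtL ℓ G k S
    have h3 := ht_div_le (wtL ℓ G k' S : ℚ) (wtL ℓ G k S : ℚ)
    omega

theorem algpt2_ht_alp (ℓ : ℕ) (G : List (List Bool)) (k : KM) {X : List (List ℕ)}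
    (hX : X.length = pN ℓ) : ht (alp ℓ G k X) ≤ algpt2R ℓ G.length :=
  algpt2_ht_avg ℓ G.length hX _ fun S => by
    have h2 := algpt2_ht_wtL ℓ G k S
    have h3 := ht_div_le 1 (wtL ℓ G k S : ℚ)
    rw [algpt2_ht_one] at h3
    split_ifs
    · omega
    · rw [algpt2_ht_zero]; omega

/-- a matrix of format at most `n × n` with entries at most `B` -/
def algpt2Ok (n B : ℕ) (k : KM) : Prop :=
  k.length ≤ n ∧ ∀ row ∈ k, row.length ≤ n ∧ ∀ x ∈ row, x ≤ B

theorem algpt2Ok.mono {n B B' : ℕ} {k : KM} (h : algpt2Ok n B k) (hB : B ≤ B') :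
    algpt2Ok n B' k :=
  ⟨h.1, fun row hr => ⟨(h.2 row hr).1, fun x hx => ((h.2 row hr).2 x hx).trans hB⟩⟩

theorem algpt2Ok.ent {n B : ℕ} {k : KM} (h : algpt2Ok n B k) (u v : ℕ) : ent2 k u v ≤ B := by
  unfold ent2
  rcases lt_or_ge u k.length with hu | hu
  · rw [List.getD_eq_getElem _ _ hu]
    rcases lt_or_ge v (k[u]).length with hv | hv
    · rw [List.getD_eq_getElem _ _ hv]
      exact (h.2 _ (List.getElem_mem _)).2 _ (List.getElem_mem _)
    · rw [List.getD_eq_default _ _ hv]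
      exact Nat.zero_le _
  · rw [List.getD_eq_default _ _ hu, List.getD_nil]
    exact Nat.zero_le _

theorem algpt2Ok.sz_le {n B : ℕ} {k : KM} (h : algpt2Ok n B k) :
    sz k ≤ ((6 * B + 2) * n + 2) * n + 1 := by
  refine (sz_list_le _ ((6 * B + 2) * n + 1) fun row hr => ?_).trans
    (Nat.add_le_add_right (Nat.mul_le_mul_left _ h.1) 1)
  refine (sz_list_le _ (6 * B + 1) fun x hx => ?_).trans
    (Nat.add_le_add_right (Nat.mul_le_mul_left _ (h.2 row hr).1) 1)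
  have h3 := (h.2 row hr).2 x hx
  have h4 := sz_nat_le_self x
  omega

theorem algpt2Ok_mat {n B : ℕ} {F : ℕ → ℕ → ℕ} (h : ∀ u v, F u v ≤ B) : algpt2Ok n B (mat n F) := by
  refine ⟨by simp [mat], fun row hr => ?_⟩
  obtain ⟨u, -, rfl⟩ := List.mem_map.1 hr
  refine ⟨by simp, fun x hx => ?_⟩
  obtain ⟨v, -, rfl⟩ := List.mem_map.1 hx
  exact h u v

theorem algpt2Ok_sub (ℓ : ℕ) (G : List (List Bool)) {k : KM} {B : ℕ} (h : algpt2Ok G.length B k)
    (X : List (List ℕ)) (i : ℕ) : algpt2Ok G.length (B + i) (sub ℓ G k X i) := by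
  refine algpt2Ok_mat fun u v => ?_
  have := h.ent u v
  split_ifs <;> omega

/-- the invariant after `i` outer steps -/
structure algpt2Inv (ℓ n H i : ℕ) (st : St) : Prop where
  len : st.1.length ≤ 1 + i * pu ℓ
  sch : ∀ k ∈ st.1, algpt2Ok n (pK ℓ + i * pu ℓ) k
  old : algpt2Ok n (pK ℓ + i * pu ℓ) st.2.1
  cur : algpt2Ok n (pK ℓ + i * pu ℓ) st.2.2.1
  par : ht st.2.2.2.1 ≤ H + i * algpt2R ℓ n
  ans : ht st.2.2.2.2.2 ≤ H + (i + 1) * algpt2R ℓ n

theorem algpt2Inv.mono {ℓ n H i j : ℕ} {st : St} (h : algpt2Inv ℓ n H i st) (hij : i ≤ j) :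
    algpt2Inv ℓ n H j st := by
  have h1 : i * pu ℓ ≤ j * pu ℓ := Nat.mul_le_mul_right _ hij
  have h2 : i * algpt2R ℓ n ≤ j * algpt2R ℓ n := Nat.mul_le_mul_right _ hij
  have h3 : (i + 1) * algpt2R ℓ n ≤ (j + 1) * algpt2R ℓ n := Nat.mul_le_mul_right _ (by omega)
  exact ⟨h.len.trans (Nat.add_le_add_left h1 _), fun k hk => (h.sch k hk).mono
    (Nat.add_le_add_left h1 _), h.old.mono (Nat.add_le_add_left h1 _),
    h.cur.mono (Nat.add_le_add_left h1 _), h.par.trans (Nat.add_le_add_left h2 _),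
    h.ans.trans (Nat.add_le_add_left h3 _)⟩

theorem algpt2Inv.upd {ℓ H i : ℕ} {G : List (List Bool)} {st : St}
    (h : algpt2Inv ℓ G.length H i st) {X : List (List ℕ)} (hX : X.length = pN ℓ) :
    algpt2Inv ℓ G.length H (i + 1) (upd ℓ G st X) := by
  have h' := h.mono (Nat.le_succ i)
  have hr : ht (st.2.2.2.1 / rho ℓ G st.2.1 st.2.2.1 X) ≤ H + (i + 1) * algpt2R ℓ G.length := by
    have h1 := ht_div_le st.2.2.2.1 (rho ℓ G st.2.1 st.2.2.1 X)
    have h2 := algpt2_ht_rho ℓ G st.2.1 st.2.2.1 hX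
    have h3 := h.par
    rw [Nat.succ_mul]
    omega
  unfold R304.upd
  split_ifs
  · refine ⟨?_, ?_, h'.cur, ?_, hr, h'.ans⟩
    · have := h.len
      simp only [List.length_append, List.length_map, List.length_range]
      rw [Nat.succ_mul]
      omega
    · intro k hk
      rcases List.mem_append.1 hk with hk | hk
      · exact h'.sch k hk
      · obtain ⟨j, hj, rfl⟩ := List.mem_map.1 hk
        have hj' := List.mem_range.1 hj
        refine (algpt2Ok_sub ℓ G h.cur X (j + 1)).mono ?_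
        rw [Nat.succ_mul]
        omega
    · refine (algpt2Ok_sub ℓ G h.cur X (pu ℓ)).mono ?_
      rw [Nat.succ_mul]
      omega
  · refine ⟨h'.len, h'.sch, h'.old, h'.cur, h'.par, ?_⟩
    have h1 := ht_mul_le (st.2.2.2.1 / rho ℓ G st.2.1 st.2.2.1 X) (alp ℓ G st.2.2.1 X)
    have h2 := algpt2_ht_alp ℓ G st.2.2.1 hX
    change ht (_ * _) ≤ _
    rw [Nat.succ_mul (i + 1)]
    omega

theorem algpt2Inv.outer {ℓ H i : ℕ} {G : List (List Bool)} {st : St}
    (h : algpt2Inv ℓ G.length H i st) (ω : List Bool) :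
    algpt2Inv ℓ G.length H (i + 1) (outer ℓ G st ω) := by
  unfold R304.outer
  split_ifs
  · exact h.mono (Nat.le_succ i)
  · exact h.upd (length_sample _ _ _ _)

theorem algpt2Inv.foldl {ℓ H i : ℕ} {G : List (List Bool)} (l : List (List Bool)) {st : St}
    (h : algpt2Inv ℓ G.length H i st) :
    algpt2Inv ℓ G.length H (i + l.length) (l.foldl (R304.outer ℓ G) st) := by
  induction l generalizing st i with
  | nil => exact h
  | cons x l ih =>
    rw [List.foldl_cons, List.length_cons, ← add_assoc, add_right_comm]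
    exact ih (h.outer x)

theorem algpt2Inv_st0 (ℓ n : ℕ) : algpt2Inv ℓ n (ht (st0 ℓ n).2.2.2.1) 0 (st0 ℓ n) := by
  have h : algpt2Ok n (pK ℓ + 0 * pu ℓ) (k0 ℓ n) := algpt2Ok_mat fun _ _ => Nat.le_add_right _ _
  refine ⟨Nat.le_add_right 1 _, fun k hk => ?_, h, h, Nat.le_add_right _ _, ?_⟩
  · rw [List.mem_singleton.1 hk]
    exact h
  · change ht 0 ≤ _
    rw [algpt2_ht_zero]
    exact (one_le_ht _).trans (Nat.le_add_right _ _)

/-- bound on the size of the state -/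
def algpt2B (ℓ n H i : ℕ) : ℕ :=
  ((((6 * (pK ℓ + i * pu ℓ) + 2) * n + 2) * n + 1 + 1) * (1 + i * pu ℓ) + 1) +
    2 * (((6 * (pK ℓ + i * pu ℓ) + 2) * n + 2) * n + 1) +
    (12 * (H + i * algpt2R ℓ n) + 12) + (12 * (H + (i + 1) * algpt2R ℓ n) + 12) + 10

theorem algpt2Inv.sz_le {ℓ n H i : ℕ} {st : St} (h : algpt2Inv ℓ n H i st) :
    sz st ≤ algpt2B ℓ n H i := by
  have h1 := (sz_list_le _ _ fun k hk => (h.sch k hk).sz_le).trans
    (Nat.add_le_add_right (Nat.mul_le_mul_left _ h.len) 1)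
  have h2 := h.old.sz_le
  have h3 := h.cur.sz_le
  have h4 := (sz_le_ht _).trans (Nat.add_le_add_right (Nat.mul_le_mul_left 12 h.par) 12)
  have h5 := (sz_le_ht _).trans (Nat.add_le_add_right (Nat.mul_le_mul_left 12 h.ans) 12)
  rw [sz_prod st, sz_prod st.2, sz_prod st.2.2, sz_prod st.2.2.2, sz_prod st.2.2.2.2, sz_bool]
  unfold algpt2B
  omega

theorem algpt2_pb_B {ℓ n H i : α → ℕ} (hb : PB fun a => 2 ^ ℓ a) (hn : PB n) (hH : PB H)
    (hi : PB i) : PB fun a => algpt2B (ℓ a) (n a) (H a) (i a) := by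
  have hM := pb_pw 630 hb
  have hK := pb_pw 639 hb
  have hN := pb_pw 300 hb
  have hu := pb_pw 628 hb
  have hE : PB fun a => algpt2E (ℓ a) :=
    (hM.mul (((PB.const 4).mul hK).add (PB.const 1))).add (PB.const 1)
  have hR : PB fun a => algpt2R (ℓ a) (n a) :=
    ((hN.mul (((PB.const 2).mul ((hE.mul hn).add (PB.const 2))).add (PB.const 1))).add
      (PB.const 1)).add (hN.add (PB.const 1))
  have hm : PB fun a => ((6 * (pK (ℓ a) + i a * pu (ℓ a)) + 2) * n a + 2) * n a + 1 :=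
    ((((((PB.const 6).mul (hK.add (hi.mul hu))).add (PB.const 2)).mul hn).add (PB.const 2)).mul
      hn).add (PB.const 1)
  exact ((((((hm.add (PB.const 1)).mul ((PB.const 1).add (hi.mul hu))).add (PB.const 1)).add
    ((PB.const 2).mul hm)).add (((PB.const 12).mul (hH.add (hi.mul hR))).add (PB.const 12))).add
    (((PB.const 12).mul (hH.add ((hi.add (PB.const 1)).mul hR))).add (PB.const 12))).add
    (PB.const 10)

theorem pt_est {ℓ : α → ℕ} {G : α → List (List Bool)} {ω : α → List Bool}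
    (hℓ : PT ℓ) (hb : PB fun a => 2 ^ ℓ a) (hG : PT G) (hω : PT ω) :
    PT fun a => est (ℓ a) (G a) (ω a) := by
  have q : PT fun p : α × St × List Bool => p.1 := PT.id.fst
  have h0 := algpt2_st0 hℓ hb hG.length (PB.length hG)
  refine (PT.foldl (f := fun a => outer (ℓ a) (G a))
    (l := fun a => chunks (pJ (ℓ a)) (rS (ℓ a)) (ω a)) (ini := fun a => st0 (ℓ a) (G a).length)
    (fun a => algpt2B (ℓ a) (G a).length (ht (st0 (ℓ a) (G a).length).2.2.2.1) (pJ (ℓ a)))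
    (algpt2_outer (hℓ.comp q) (hb.comp q) (hG.comp q) PT.id.snd.fst PT.id.snd.snd)
    ((pt_pw 11 hℓ hb).chunks (pb_pw 11 hb) (pt_rS hℓ hb).1 hω) h0
    (algpt2_pb_B hb (PB.length hG) (PB.ht h0.snd.snd.snd.fst) (pb_pw 11 hb))
    fun a i => ?_).snd.snd.snd.snd.snd
  refine (((algpt2Inv_st0 (ℓ a) (G a).length).foldl _).mono ?_).sz_le
  rw [List.length_take, length_chunks, zero_add]
  exact min_le_right _ _

theorem pt_best {ℓ t : α → ℕ} {G : α → List (List Bool)} {ω : α → List Bool}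
    (hℓ : PT ℓ) (hb : PB fun a => 2 ^ ℓ a) (hG : PT G) (ht : PT t) (ht' : PB t) (hω : PT ω) :
    PT fun a => best (ℓ a) (G a) (t a) (ω a) := by
  have q : PT fun p : α × List Bool => p.1 := PT.id.fst
  exact algpt2_med ((ht.chunks ht' (pt_rTot hℓ hb).1 hω).map (g := fun a w => est (ℓ a) (G a) w)
    (pt_est (hℓ.comp q) (hb.comp q) (hG.comp q) PT.id.snd))

end Crest.Agent.R304
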