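import Crest.Agent.R304.Dev

/-! Row 304: context independence of the increments. -/

set_option autoImplicit false

namespace Crest.Agent.R304

open Finset

variable {n : ℕ} {lam : Fin n → Fin n → ℝ} {f : PM n → ℝ}

open Classical in
/-- the weighted mean minimises the weighted sum of squares -/
theorem mn_min {u : PM n → ℝ} (hu : ∀ S, 0 ≤ u S) (g : List (Fin n)) (t : ℝ) :
    ∑ S ∈ univ.filter (Pre g), u S * (f (shift g S) - f S - mn f u g) ^ 2 ≤
      ∑ S ∈ univ.filter (Pre g), u S * (f (shift g S) - f S - t) ^ 2 := by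
  set s := univ.filter (Pre (n := n) g) with hs
  set W := ∑ S ∈ s, u S with hW
  set D := ∑ S ∈ s, u S * (f (shift g S) - f S) with hD
  have hm : mn f u g = D / W := rfl
  have key : ∀ c : ℝ, ∑ S ∈ s, u S * (f (shift g S) - f S - c) ^ 2 =
      ∑ S ∈ s, u S * (f (shift g S) - f S) ^ 2 - 2 * c * D + c ^ 2 * W := fun c => by
    rw [hD, hW, mul_sum, mul_sum, ← sum_sub_distrib, ← sum_add_distrib]
    exact sum_congr rfl fun S _ => by ring
  have hW0 : 0 ≤ W := sum_nonneg fun S _ => hu S
  rcases hW0.eq_or_lt with h0 | h0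
  · have : ∀ S ∈ s, u S = 0 := (sum_eq_zero_iff_of_nonneg fun S _ => hu S).1 h0.symm
    rw [sum_eq_zero fun S hS => by rw [this S hS, zero_mul],
      sum_eq_zero fun S hS => by rw [this S hS, zero_mul]]
  · rw [key, key, hm]
    have e : D = D / W * W := by field_simp
    set μ := D / W
    rw [e]
    nlinarith [mul_nonneg hW0 (sq_nonneg (t - μ))]

theorem ci_seg_getElem? {α : Type} (Y S : α → α) (a : α) (m i : ℕ) :
    (seg Y S a m)[i]? = if i < m then some (walk Y S a i) else none := by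
  unfold seg
  split_ifs with h
  · simp [h]
  · simp [h]

theorem ci_seg_eq_iff (Y S S0 : PM n) (a : Fin n) (m : ℕ) :
    seg Y S a m = seg Y S0 a m ↔ Pre (seg Y S0 a m) S := by
  constructor
  · intro h
    rw [← h]
    intro i b c hi h1 h2
    rw [ci_seg_getElem?] at h1 h2
    split_ifs at h1 h2
    rw [← Option.some.inj h1, ← Option.some.inj h2, walk_succ, if_neg (by omega)]
  · intro h
    have : ∀ i, i < m → walk Y S a i = walk Y S0 a i := by
      intro i
      induction i with
      | zero => intro _; rfl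
      | succ i ih =>
        intro hi
        rw [walk_succ, ih (by omega)]
        split_ifs with he
        · rw [walk_succ, if_pos he]
        · exact h i _ _ (by omega) (by rw [ci_seg_getElem?, if_pos (by omega)])
            (by rw [ci_seg_getElem?, if_pos hi])
    exact List.map_congr_left fun i hi => this i (List.mem_range.1 hi)

theorem ci_getD (Y S : PM n) (a : Fin n) (k : ℕ) :
    (seg Y S a (k + 1)).getD k a = walk Y S a k := by
  rw [List.getD_eq_getElem?_getD, ci_seg_getElem?, if_pos (by omega)]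
  rfl

theorem ci_group (Y : PM n) (a : Fin n) (m : ℕ) (cond : List (Fin n) → Prop) [DecidablePred cond]
    (u : List (Fin n) → PM n → ℝ) (hu : ∀ g S, 0 ≤ u g S) (c : List (Fin n) → ℝ)
    (hc : ∀ g, 0 ≤ c g) (t : List (Fin n) → ℝ) :
    ∑ S : PM n, (if cond (seg Y S a m) then u (seg Y S a m) S * c (seg Y S a m) *
      (f (shift (seg Y S a m) S) - f S - mn f (u (seg Y S a m)) (seg Y S a m)) ^ 2 else 0) ≤
    ∑ S : PM n, (if cond (seg Y S a m) then u (seg Y S a m) S * c (seg Y S a m) *
      (f (shift (seg Y S a m) S) - f S - t (seg Y S a m)) ^ 2 else 0) := by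
  classical
  have hm : ∀ S ∈ (univ : Finset (PM n)),
      seg Y S a m ∈ univ.image fun S : PM n => seg Y S a m := fun S hS => mem_image_of_mem _ hS
  rw [← sum_fiberwise_of_maps_to hm, ← sum_fiberwise_of_maps_to hm]
  refine sum_le_sum fun g hg => ?_
  obtain ⟨S0, -, rfl⟩ := mem_image.1 hg
  have e : ∀ r : List (Fin n) → ℝ,
      ∑ S ∈ univ.filter (fun S : PM n => seg Y S a m = seg Y S0 a m),
        (if cond (seg Y S a m) then u (seg Y S a m) S * c (seg Y S a m) *
          (f (shift (seg Y S a m) S) - f S - r (seg Y S a m)) ^ 2 else 0) =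
      if cond (seg Y S0 a m) then c (seg Y S0 a m) * ∑ S ∈ univ.filter (Pre (seg Y S0 a m)),
        u (seg Y S0 a m) S * (f (shift (seg Y S0 a m) S) - f S - r (seg Y S0 a m)) ^ 2
      else 0 := fun r => by
    rw [sum_congr rfl (g := fun S => if cond (seg Y S0 a m) then u (seg Y S0 a m) S *
      c (seg Y S0 a m) * (f (shift (seg Y S0 a m) S) - f S - r (seg Y S0 a m)) ^ 2 else 0)
      fun S hS => by rw [(mem_filter.1 hS).2]]
    split_ifs
    · rw [mul_sum, filter_congr fun S _ => ci_seg_eq_iff Y S S0 a m]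
      exact sum_congr rfl fun S _ => by ring
    · simp
  rw [e fun g => mn f (u g) g, e t]
  split_ifs
  · exact mul_le_mul_of_nonneg_left (mn_min (hu _) _ _) (hc _)
  · exact le_rfl

theorem ci_mv (x : PM n × PM n) (a k : Fin n) :
    mv x (3, a, k) =
      (shift (seg x.2 x.1 a (k + 1)) x.1, shift (seg x.2 x.1 a (k + 1)) x.2) := by
  have h0 : (3 : Fin 4) ≠ 0 := by decide
  have h1 : (3 : Fin 4) ≠ 1 := by decide
  have h2 : (3 : Fin 4) ≠ 2 := by decide
  simp only [mv, h0, h1, h2, if_false]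

theorem ci_loc (hl : Pos lam) (F : PM n × PM n → ℝ) (x : PM n × PM n) :
    ∑ a : Fin n, ∑ k : Fin n, min (w2 lam x) (w2 lam (mv x (3, a, k))) *
      (F (mv x (3, a, k)) - F x) ^ 2 ≤ loc lam F x := by
  have hw : ∀ x : PM n × PM n, 0 ≤ w2 lam x := fun x =>
    (mul_pos (hl.wt_pos _) (hl.wt_pos _)).le
  rw [loc, Fintype.sum_prod_type, ← Fintype.sum_prod_type']
  exact single_le_sum (f := fun i : Fin 4 => ∑ y : Fin n × Fin n,
    min (w2 lam x) (w2 lam (mv x (i, y))) * (F (mv x (i, y)) - F x) ^ 2)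
    (fun i _ => sum_nonneg fun y _ => mul_nonneg (le_min (hw _) (hw _)) (sq_nonneg _))
    (mem_univ 3)

theorem ci_wt (hl : Pos lam) (S Y : PM n) (a : Fin n) (k : ℕ) (hk : k % 2 = 0)
    (h : (seg Y S a (k + 1)).Nodup) :
    wt lam (shift (seg Y S a (k + 1)) S) * wt lam (shift (seg Y S a (k + 1)) Y) *
        (lam (S a) a * lam (Y (walk Y S a k)) (walk Y S a k)) =
      wt lam S * wt lam Y * (lam (S a) (walk Y S a k) * lam (Y (walk Y S a k)) a) := by
  obtain ⟨R, h1, h2⟩ := run_walk S Y a (by omega) h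
  have := R.wt_col hl (by omega)
  rw [← h1, h2 k, h2 (k + 1), h2 0, walk_succ _ _ _ k, if_pos hk, walk_zero, walk_zero,
    hl.symm (walk Y S a k) (Y _), hl.symm a (Y _)] at this
  exact this

/-- the common frame of `sum_H1` and `sum_H2` -/
theorem ci_frame (hl : Pos lam) (u : PM n → Fin n → ℕ → List (Fin n) → PM n → ℝ)
    (hu : ∀ Y a k g S, 0 ≤ u Y a k g S) (c : PM n → Fin n → ℕ → List (Fin n) → ℝ)
    (hc : ∀ Y a k g, 0 ≤ c Y a k g)
    (hb : ∀ (S Y : PM n) (a : Fin n) (k : ℕ), (seg Y S a (k + 1)).Nodup → k % 2 = 0 →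
      u Y a k (seg Y S a (k + 1)) S * c Y a k (seg Y S a (k + 1)) ≤
        min (wt lam S * wt lam Y)
          (wt lam (shift (seg Y S a (k + 1)) S) * wt lam (shift (seg Y S a (k + 1)) Y))) :
    ∑ x : PM n × PM n, ∑ a : Fin n, ∑ k : Fin n,
      (if (seg x.2 x.1 a (k + 1)).Nodup ∧ (k : ℕ) % 2 = 0 then
        u x.2 a k (seg x.2 x.1 a (k + 1)) x.1 * c x.2 a k (seg x.2 x.1 a (k + 1)) *
          (f (shift (seg x.2 x.1 a (k + 1)) x.1) - f x.1 -
            mn f (u x.2 a k (seg x.2 x.1 a (k + 1))) (seg x.2 x.1 a (k + 1))) ^ 2 else 0) ≤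
      Dir lam (two f) := by
  have hre : ∀ G : PM n → PM n → Fin n → Fin n → ℝ,
      ∑ x : PM n × PM n, ∑ a, ∑ k, G x.1 x.2 a k = ∑ Y, ∑ a, ∑ k, ∑ S, G S Y a k := fun G => by
    rw [Fintype.sum_prod_type_right]
    refine sum_congr rfl fun Y _ => ?_
    rw [sum_comm]
    exact sum_congr rfl fun a _ => sum_comm
  have hw : ∀ x : PM n × PM n, 0 ≤ w2 lam x := fun x =>
    (mul_pos (hl.wt_pos _) (hl.wt_pos _)).le
  calc _ ≤ ∑ x : PM n × PM n, ∑ a : Fin n, ∑ k : Fin n,
      (if (seg x.2 x.1 a (k + 1)).Nodup ∧ (k : ℕ) % 2 = 0 then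
        u x.2 a k (seg x.2 x.1 a (k + 1)) x.1 * c x.2 a k (seg x.2 x.1 a (k + 1)) *
          (f (shift (seg x.2 x.1 a (k + 1)) x.1) - f x.1 -
            (f x.2 - f (shift (seg x.2 x.1 a (k + 1)) x.2))) ^ 2 else 0) := by
        rw [hre (fun S Y a k => if (seg Y S a (k + 1)).Nodup ∧ (k : ℕ) % 2 = 0 then
          u Y a k (seg Y S a (k + 1)) S * c Y a k (seg Y S a (k + 1)) *
            (f (shift (seg Y S a (k + 1)) S) - f S -
              mn f (u Y a k (seg Y S a (k + 1))) (seg Y S a (k + 1))) ^ 2 else 0),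
          hre (fun S Y a k => if (seg Y S a (k + 1)).Nodup ∧ (k : ℕ) % 2 = 0 then
          u Y a k (seg Y S a (k + 1)) S * c Y a k (seg Y S a (k + 1)) *
            (f (shift (seg Y S a (k + 1)) S) - f S -
              (f Y - f (shift (seg Y S a (k + 1)) Y))) ^ 2 else 0)]
        exact sum_le_sum fun Y _ => sum_le_sum fun a _ => sum_le_sum fun k _ =>
          ci_group Y a (k + 1) (fun g => g.Nodup ∧ (k : ℕ) % 2 = 0) (u Y a k) (hu Y a k)
            (c Y a k) (hc Y a k) (fun g => f Y - f (shift g Y))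
    _ ≤ _ := by
        refine sum_le_sum fun x _ => le_trans (sum_le_sum fun a _ => sum_le_sum fun k _ => ?_)
          (ci_loc hl (two f) x)
        split_ifs with h
        · rw [ci_mv]
          have := hb x.1 x.2 a k h.1 h.2
          have e : f (shift (seg x.2 x.1 a (k + 1)) x.1) - f x.1 -
              (f x.2 - f (shift (seg x.2 x.1 a (k + 1)) x.2)) =
              two f (shift (seg x.2 x.1 a (k + 1)) x.1, shift (seg x.2 x.1 a (k + 1)) x.2) -
                two f x := by
            simp only [two]; ring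
          rw [e]
          exact mul_le_mul_of_nonneg_right this (sq_nonneg _)
        · exact mul_nonneg (le_min (hw _) (hw _)) (sq_nonneg _)

theorem ci_nu_nonneg (hl : Pos lam) (x y : Fin n) (S : PM n) : 0 ≤ nu lam x y S :=
  mul_nonneg (hl.wt_pos S).le (le_min zero_le_one (div_pos (hl.pos _ _) (hl.pos _ _)).le)

/-- Fix `a, k` and group the pairs `(S, Y)` by `g = seg Y S a (k + 1)`.  For a duplicate free `g` of odd length with head `a` the fibre is
the product of `{S | Pre g S}` and `{Y | Y g[i] = g[i + 1] for even i}`, and `walk Y S a k` is the last entry `y` of `g`.  For fixed `Y` use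
`mn_min` with `t = f Y - f (shift g Y)`; the new square is `(two f (mv x (3, a, k)) - two f x) ^ 2`, and
`nu a y S * nu y a Y ≤ min (w2 x) (w2 (mv x (3, a, k)))` by `run_walk`, `Run.wt_col` and `min 1 s * min 1 t ≤ min 1 (s t)`. -/
theorem sum_H1 (hl : Pos lam) : ∑ x, H1 lam f x ≤ Dir lam (two f) := by
  have := ci_frame (f := f) hl (fun _ a k g => nu lam a (g.getD k a))
    (fun _ _ _ _ _ => ci_nu_nonneg hl _ _ _) (fun Y a k g => nu lam (g.getD k a) a Y)
    (fun _ _ _ _ => ci_nu_nonneg hl _ _ _) (fun S Y a k h hk => by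
      have e := ci_wt hl S Y a k hk h
      rw [ci_getD]
      simp only [nu]
      have p1 := hl.pos (S a) a
      have p2 := hl.pos (Y (walk Y S a k)) (walk Y S a k)
      have p3 := hl.pos (S a) (walk Y S a k)
      have p4 := hl.pos (Y (walk Y S a k)) a
      have pS := hl.wt_pos S
      have pY := hl.wt_pos Y
      set s := lam (S a) (walk Y S a k) / lam (S a) a with hs
      set t := lam (Y (walk Y S a k)) a / lam (Y (walk Y S a k)) (walk Y S a k) with ht
      have hs0 : 0 ≤ min 1 s := le_min zero_le_one (div_pos p3 p1).le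
      have ht0 : 0 ≤ min 1 t := le_min zero_le_one (div_pos p4 p2).le
      have e' : wt lam (shift (seg Y S a (k + 1)) S) * wt lam (shift (seg Y S a (k + 1)) Y) =
          wt lam S * wt lam Y * (s * t) := by
        rw [hs, ht]
        field_simp
        linarith
      have e2 : wt lam S * min 1 s * (wt lam Y * min 1 t) =
          wt lam S * wt lam Y * (min 1 s * min 1 t) := by ring
      rw [e', e2]
      refine le_min ?_ ?_
      · exact mul_le_of_le_one_right (mul_pos pS pY).le
          (mul_le_one₀ (min_le_left _ _) ht0 (min_le_left _ _))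
      · exact mul_le_mul_of_nonneg_left (mul_le_mul (min_le_right _ _) (min_le_right _ _) ht0
          (div_pos p3 p1).le) (mul_pos pS pY).le)
  simpa only [H1, ci_getD] using this

/-- The same, grouping by `(S a, g)`; the fibre is the product of `{S | Pre g S ∧ S a = v}` and `{Y | ... ∧ Y y = v}`, and the cycle swap
preserves `w2` (`Run.wt_col`). -/
theorem sum_H2 (hl : Pos lam) : ∑ x, H2 lam f x ≤ Dir lam (two f) := by
  have := ci_frame (f := f) hl (fun Y a k g => nuA lam (Y (g.getD k a)) a)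
    (fun _ _ _ _ S => by
      unfold nuA
      split_ifs
      · exact (hl.wt_pos S).le
      · exact le_rfl) (fun Y _ _ _ => wt lam Y)
    (fun Y _ _ _ => (hl.wt_pos Y).le) (fun S Y a k h hk => by
      have e := ci_wt hl S Y a k hk h
      rw [ci_getD]
      unfold nuA
      split_ifs with hc
      · rw [← hc] at e
        have p1 := hl.pos (S a) a
        have p3 := hl.pos (S a) (walk Y S a k)
        have e' : wt lam (shift (seg Y S a (k + 1)) S) * wt lam (shift (seg Y S a (k + 1)) Y) =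
            wt lam S * wt lam Y := by
          rw [mul_comm (lam (S a) (walk Y S a k))] at e
          exact mul_right_cancel₀ (mul_pos p1 p3).ne' e
        rw [e', min_self]
      · rw [zero_mul]
        exact le_min (mul_pos (hl.wt_pos _) (hl.wt_pos _)).le
          (mul_pos (hl.wt_pos _) (hl.wt_pos _)).le)
  refine le_trans (le_of_eq ?_) this
  refine sum_congr rfl fun x _ => sum_congr rfl fun a _ => sum_congr rfl fun k _ => ?_
  simp only [ci_getD]
  by_cases h1 : (seg x.2 x.1 a (k + 1)).Nodup ∧ (k : ℕ) % 2 = 0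
  · by_cases h2 : x.1 a = x.2 (walk x.2 x.1 a k)
    · rw [if_pos ⟨h1.1, h1.2, h2⟩, if_pos h1, ← h2]
      simp [nuA, w2]
    · rw [if_neg fun h => h2 h.2.2, if_pos h1]
      simp [nuA, h2]
  · rw [if_neg fun h => h1 ⟨h.1, h.2.1⟩, if_neg h1]

/-- iterated neighbourhood sums -/
noncomputable def ciE (lam : Fin n → Fin n → ℝ) (f : PM n → ℝ) : ℕ → PM n × PM n → ℝ
  | 0, x => HH lam f x
  | k + 1, x => HH lam f x + ∑ l, ciE lam f k (mv x l)

theorem ci_HH_nonneg (hl : Pos lam) (x : PM n × PM n) : 0 ≤ HH lam f x :=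
  add_nonneg (add_nonneg (H1_nonneg hl x) (H2_nonneg hl x)) (loc_nonneg hl _ x)

theorem ciE_nonneg (hl : Pos lam) (k : ℕ) (x : PM n × PM n) : 0 ≤ ciE lam f k x := by
  induction k generalizing x with
  | zero => exact ci_HH_nonneg hl x
  | succ k ih => exact add_nonneg (ci_HH_nonneg hl x) (sum_nonneg fun l _ => ih _)

theorem ciE_dom (hl : Pos lam) (k : ℕ) (x : PM n × PM n) (ls : List (Lab n))
    (h : ls.length ≤ k) : HH lam f (ls.foldl mv x) ≤ ciE lam f k x := by
  induction k generalizing x ls with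
  | zero =>
    rw [List.length_eq_zero_iff.1 (Nat.le_zero.1 h)]
    exact le_rfl
  | succ k ih =>
    cases ls with
    | nil => exact le_add_of_nonneg_right (sum_nonneg fun l _ => ciE_nonneg hl _ _)
    | cons l ls =>
      refine (ih (mv x l) ls (by simpa using h)).trans (le_add_of_nonneg_of_le
        (ci_HH_nonneg hl x) ?_)
      exact single_le_sum (f := fun l => ciE lam f k (mv x l)) (fun l _ => ciE_nonneg hl _ _)
        (mem_univ l)

theorem ciE_sum (hl : Pos lam) (k : ℕ) :
    ∑ x, ciE lam f k x ≤ (1 + 4 * (n : ℝ) ^ 2) ^ k * ∑ x, HH lam f x := by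
  have hH : 0 ≤ ∑ x, HH lam f x := sum_nonneg fun x _ => ci_HH_nonneg hl x
  induction k with
  | zero => simp [ciE]
  | succ k ih =>
    have e : ∑ x, ciE lam f (k + 1) x =
        ∑ x, HH lam f x + 4 * (n : ℝ) ^ 2 * ∑ x, ciE lam f k x := by
      simp only [ciE]
      rw [sum_add_distrib, sum_mv fun x _ => ciE lam f k x, mul_sum]
      congr 1
      refine sum_congr rfl fun x _ => ?_
      simp only [sum_const, card_univ, Fintype.card_prod, Fintype.card_fin, nsmul_eq_mul]
      push_cast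
      ring
    have h1 : (1 : ℝ) ≤ (1 + 4 * (n : ℝ) ^ 2) ^ k := one_le_pow₀ (by nlinarith [sq_nonneg (n : ℝ)])
    have h2 : (0 : ℝ) ≤ 4 * (n : ℝ) ^ 2 := by positivity
    rw [e, pow_succ (1 + 4 * (n : ℝ) ^ 2) k]
    nlinarith [mul_le_mul_of_nonneg_left ih h2, mul_le_mul_of_nonneg_right h1 hH]

/-- `E₀ = HH`, `E_{k+1} x = HH x + ∑ l, E_k (mv x l)`; `∑ x, E_k x ≤ (1 + 4 n²)^k ∑ x, HH x` by `sum_mv`; take
`E x = E₄ x + E₄ x.swap`. -/
theorem exists_dom (hl : Pos lam) (f : PM n → ℝ) :
    ∃ E : PM n × PM n → ℝ, (∀ x, Dom lam f x (E x)) ∧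
      ∑ x, E x ≤ 6 * (1 + 4 * (n : ℝ) ^ 2) ^ 4 * Dir lam (two f) := by
  refine ⟨fun x => ciE lam f 4 x + ciE lam f 4 x.swap, fun x ls h =>
    ⟨(ciE_dom hl 4 x ls h).trans (le_add_of_nonneg_right (ciE_nonneg hl _ _)),
      (ciE_dom hl 4 x.swap ls h).trans (le_add_of_nonneg_left (ciE_nonneg hl _ _))⟩, ?_⟩
  have h0 : ∑ x : PM n × PM n, ciE lam f 4 x.swap = ∑ x, ciE lam f 4 x :=
    (Equiv.prodComm _ _).sum_comp (ciE lam f 4)
  rw [sum_add_distrib, h0]
  have h1 := ciE_sum (f := f) hl 4
  have h2 : ∑ x, HH lam f x ≤ 3 * Dir lam (two f) := by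
    simp only [HH, sum_add_distrib]
    have := sum_H1 (f := f) hl
    have := sum_H2 (f := f) hl
    have : ∑ x, loc lam (two f) x = Dir lam (two f) := rfl
    linarith
  have h3 : (0 : ℝ) ≤ (1 + 4 * (n : ℝ) ^ 2) ^ 4 := by positivity
  nlinarith [mul_le_mul_of_nonneg_left h2 h3]

end Crest.Agent.R304
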