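import Crest.Agent.R304.PConc

/-! Row 304: elementary facts on product laws. -/

set_option autoImplicit false

namespace Crest.Agent.R304

open Finset

variable {Ω : Type} [Fintype Ω] {μ : Ω → ℝ} {N : ℕ}

theorem cheb_EX_prod (μ : Ω → ℝ) (g : Fin N → Ω → ℝ) :
    EX μ (fun x : Fin N → Ω => ∏ i, g i (x i)) = ∏ i, ∑ a, μ a * g i a := by
  rw [EX, Finset.prod_univ_sum, Fintype.piFinset_univ]
  refine Finset.sum_congr rfl fun x _ => ?_
  rw [Finset.prod_mul_distrib]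

theorem cheb_sum_prod (h1 : ∑ a, μ a = 1) : ∑ x : Fin N → Ω, ∏ i, μ (x i) = 1 := by
  have h := cheb_EX_prod (N := N) μ (fun _ _ => 1)
  simpa [EX, h1] using h

theorem EX_const (h1 : ∑ a, μ a = 1) (c : ℝ) : EX μ (fun _ : Fin N → Ω => c) = c := by
  rw [EX, ← Finset.sum_mul, cheb_sum_prod h1, one_mul]

theorem EX_mono (h0 : ∀ a, 0 ≤ μ a) {φ ψ : (Fin N → Ω) → ℝ} (h : ∀ x, φ x ≤ ψ x) : EX μ φ ≤ EX μ ψ :=
  Finset.sum_le_sum fun x _ =>
    mul_le_mul_of_nonneg_left (h x) (Finset.prod_nonneg fun i _ => h0 (x i))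

theorem cheb_EX_sum {κ : Type} (s : Finset κ) (φ : κ → (Fin N → Ω) → ℝ) :
    EX μ (fun x => ∑ k ∈ s, φ k x) = ∑ k ∈ s, EX μ (φ k) := by
  simp only [EX, Finset.mul_sum]
  exact Finset.sum_comm

theorem cheb_EX_mul (c : ℝ) (φ : (Fin N → Ω) → ℝ) : EX μ (fun x => c * φ x) = c * EX μ φ := by
  simp only [EX, Finset.mul_sum]
  refine Finset.sum_congr rfl fun x _ => ?_
  ring

theorem cheb_EX_sub (φ ψ : (Fin N → Ω) → ℝ) : EX μ (fun x => φ x - ψ x) = EX μ φ - EX μ ψ := by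
  simp only [EX, mul_sub, Finset.sum_sub_distrib]

theorem cheb_EX_cross {Z : Ω → ℝ} (hZ : ∑ a, μ a * Z a = 0) {i j : Fin N} (hij : i ≠ j) :
    EX μ (fun x : Fin N → Ω => Z (x i) * Z (x j)) = 0 := by
  have h := cheb_EX_prod μ (fun (k : Fin N) (a : Ω) =>
    (if k = i then Z a else 1) * (if k = j then Z a else 1))
  have h2 : (fun x : Fin N → Ω => ∏ k : Fin N,
      (if k = i then Z (x k) else 1) * (if k = j then Z (x k) else 1)) =
      fun x => Z (x i) * Z (x j) := by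
    funext x
    rw [Finset.prod_mul_distrib, Finset.prod_ite_eq', Finset.prod_ite_eq']
    simp
  rw [h2] at h
  rw [h]
  refine Finset.prod_eq_zero (Finset.mem_univ i) ?_
  simpa [hij] using hZ

theorem cheb_EX_sq (h0 : ∀ a, 0 ≤ μ a) (h1 : ∑ a, μ a = 1) {Z : Ω → ℝ} (hZ : ∑ a, μ a * Z a = 0)
    (hZ1 : ∀ a, |Z a| ≤ 1) : EX μ (fun x : Fin N → Ω => (∑ i, Z (x i)) ^ 2) ≤ N := by
  have h2 : (fun x : Fin N → Ω => (∑ i, Z (x i)) ^ 2) =
      fun x => ∑ i, ∑ j, Z (x i) * Z (x j) := by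
    funext x
    rw [sq, Finset.sum_mul_sum]
  rw [h2, cheb_EX_sum]
  calc ∑ i : Fin N, EX μ (fun x : Fin N → Ω => ∑ j, Z (x i) * Z (x j)) ≤ ∑ _i : Fin N, (1 : ℝ) := by
        refine Finset.sum_le_sum fun i _ => ?_
        rw [cheb_EX_sum, Finset.sum_eq_single i]
        · rw [← EX_const (N := N) h1 1]
          refine EX_mono h0 fun x => ?_
          have := hZ1 (x i)
          rw [← sq, ← sq_abs]
          nlinarith [abs_nonneg (Z (x i))]
        · intro j _ hj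
          exact cheb_EX_cross hZ hj.symm
        · intro h
          exact absurd (Finset.mem_univ i) h
    _ = N := by simp

open Classical in
/-- Chebyshev's inequality for the empirical mean -/
theorem EX_cheb (h0 : ∀ a, 0 ≤ μ a) (h1 : ∑ a, μ a = 1) (hN : 0 < N) {Y : Ω → ℝ}
    (hY : ∀ a, 0 ≤ Y a ∧ Y a ≤ 1) {t : ℝ} (ht : 0 < t) :
    EX μ (fun x : Fin N → Ω => if t ≤ |(∑ i, Y (x i)) / N - ∑ a, μ a * Y a| then 1 else 0) ≤
      1 / (N * t ^ 2) := by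
  set m := ∑ a, μ a * Y a with hm
  have hNr : (0 : ℝ) < N := by exact_mod_cast hN
  have hm0 : 0 ≤ m := Finset.sum_nonneg fun a _ => mul_nonneg (h0 a) (hY a).1
  have hm1 : m ≤ 1 := by
    rw [← h1]
    exact Finset.sum_le_sum fun a _ => mul_le_of_le_one_right (h0 a) (hY a).2
  have hZ : ∑ a, μ a * (Y a - m) = 0 := by
    simp only [mul_sub, Finset.sum_sub_distrib, ← Finset.sum_mul, h1]
    rw [hm]
    ring
  have hZ1 : ∀ a, |Y a - m| ≤ 1 := fun a => by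
    rw [abs_le]
    constructor <;> linarith [(hY a).1, (hY a).2]
  have h3 := cheb_EX_sq (N := N) h0 h1 hZ hZ1
  have hNt : 0 < (N * t) ^ 2 := by positivity
  calc _ ≤ EX μ (fun x : Fin N → Ω => (1 / (N * t) ^ 2) * (∑ i, (Y (x i) - m)) ^ 2) := by
        refine EX_mono h0 fun x => ?_
        split_ifs with hx
        · have h4 : ∑ i : Fin N, (Y (x i) - m) = N * ((∑ i, Y (x i)) / N - m) := by
            rw [Finset.sum_sub_distrib]
            simp only [Finset.sum_const, Finset.card_univ, Fintype.card_fin, nsmul_eq_mul]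
            field_simp
          rw [h4, one_div, ← div_eq_inv_mul, le_div_iff₀ hNt, one_mul, mul_pow, mul_pow,
            ← sq_abs ((∑ i, Y (x i)) / N - m)]
          gcongr
        · positivity
    _ = (1 / (N * t) ^ 2) * EX μ (fun x : Fin N → Ω => (∑ i, (Y (x i) - m)) ^ 2) := cheb_EX_mul _ _
    _ ≤ (1 / (N * t) ^ 2) * N := by gcongr
    _ = 1 / (N * t ^ 2) := by field_simp

open Classical in
/-- union bound -/
theorem EX_cheb_union {κ : Type} [Fintype κ] (h0 : ∀ a, 0 ≤ μ a) (h1 : ∑ a, μ a = 1) (hN : 0 < N)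
    {Y : κ → Ω → ℝ} (hY : ∀ k a, 0 ≤ Y k a ∧ Y k a ≤ 1) {t : ℝ} (ht : 0 < t) :
    EX μ (fun x : Fin N → Ω => if ∃ k, t ≤ |(∑ i, Y k (x i)) / N - ∑ a, μ a * Y k a| then 1 else 0) ≤
      Fintype.card κ / (N * t ^ 2) := by
  calc _ ≤ EX μ (fun x : Fin N → Ω => ∑ k : κ,
        if t ≤ |(∑ i, Y k (x i)) / N - ∑ a, μ a * Y k a| then 1 else 0) := by
        refine EX_mono h0 fun x => ?_
        split_ifs with hx
        · obtain ⟨k, hk⟩ := hx
          refine le_trans ?_ (Finset.single_le_sum (f := fun k : κ =>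
            if t ≤ |(∑ i, Y k (x i)) / N - ∑ a, μ a * Y k a| then (1 : ℝ) else 0)
            (fun k _ => by positivity) (Finset.mem_univ k))
          simp [hk]
        · exact Finset.sum_nonneg fun k _ => by positivity
    _ = ∑ k : κ, EX μ (fun x : Fin N → Ω =>
        if t ≤ |(∑ i, Y k (x i)) / N - ∑ a, μ a * Y k a| then 1 else 0) := cheb_EX_sum _ _
    _ ≤ ∑ _k : κ, 1 / (N * t ^ 2) := Finset.sum_le_sum fun k _ => EX_cheb h0 h1 hN (hY k) ht
    _ = Fintype.card κ / (N * t ^ 2) := by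
        simp only [Finset.sum_const, Finset.card_univ, nsmul_eq_mul]
        ring

theorem cheb_close_one {μ₀ : Ω → ℝ} (h0 : ∀ a, 0 ≤ μ₀ a) (h2 : ∑ a, μ a = 1) {ε : ℝ}
    (hε : 0 ≤ ε) (h : ∀ a, μ₀ a ≤ (1 + ε) * μ a) (hN : N * ε ≤ 1) {φ : (Fin N → Ω) → ℝ}
    (hφ : ∀ x, 0 ≤ φ x ∧ φ x ≤ 1) : EX μ₀ φ - EX μ φ ≤ 2 * N * ε := by
  have hμ : ∀ a, 0 ≤ μ a := fun a =>
    nonneg_of_mul_nonneg_right ((h0 a).trans (h a)) (by linarith)
  have hp : (1 + ε) ^ N ≤ 1 + 2 * N * ε := by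
    have h3 : (1 + ε) ^ N ≤ Real.exp (N * ε) := by
      rw [Real.exp_nat_mul]
      gcongr
      linarith [Real.add_one_le_exp ε]
    have h4 : 0 ≤ N * ε := by positivity
    have h5 := Real.abs_exp_sub_one_le (x := N * ε) (by rwa [abs_of_nonneg h4])
    rw [abs_of_nonneg h4] at h5
    linarith [le_abs_self (Real.exp (N * ε) - 1)]
  have h6 : EX μ₀ φ ≤ (1 + ε) ^ N * EX μ φ := by
    rw [EX, EX, Finset.mul_sum]
    refine Finset.sum_le_sum fun x _ => ?_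
    rw [← mul_assoc]
    refine mul_le_mul_of_nonneg_right ?_ (hφ x).1
    calc ∏ i, μ₀ (x i) ≤ ∏ i, (1 + ε) * μ (x i) :=
          Finset.prod_le_prod (fun i _ => h0 _) fun i _ => h _
      _ = (1 + ε) ^ N * ∏ i, μ (x i) := by
          rw [Finset.prod_mul_distrib, Finset.prod_const, Finset.card_univ, Fintype.card_fin]
  have h7 : 0 ≤ EX μ φ := by
    rw [← EX_const (N := N) h2 0]
    exact EX_mono hμ fun x => (hφ x).1
  have h8 : EX μ φ ≤ 1 := by
    rw [← EX_const (N := N) h2 1]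
    exact EX_mono hμ fun x => (hφ x).2
  have h9 : 0 ≤ 2 * N * ε := by positivity
  nlinarith [mul_le_mul_of_nonneg_right hp h7, mul_le_mul_of_nonneg_left h8 h9]

/-- If `μ₀ ≤ (1 + ε) μ` pointwise then the product laws are within `(1 + ε) ^ N - 1 ≤ 2 N ε` in total variation (apply the pointwise
bound to `φ` and to `1 - φ`). -/
theorem EX_close {μ₀ : Ω → ℝ} (h0 : ∀ a, 0 ≤ μ₀ a) (h1 : ∑ a, μ₀ a = 1) (h2 : ∑ a, μ a = 1) {ε : ℝ}
    (hε : 0 ≤ ε) (h : ∀ a, μ₀ a ≤ (1 + ε) * μ a) (hN : N * ε ≤ 1) {φ : (Fin N → Ω) → ℝ}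
    (hφ : ∀ x, 0 ≤ φ x ∧ φ x ≤ 1) : |EX μ₀ φ - EX μ φ| ≤ 2 * N * ε := by
  have h3 := cheb_close_one h0 h2 hε h hN hφ
  have h4 := cheb_close_one h0 h2 hε h hN (φ := fun x => 1 - φ x)
    (fun x => ⟨by linarith [(hφ x).2], by linarith [(hφ x).1]⟩)
  rw [cheb_EX_sub, cheb_EX_sub, EX_const h1, EX_const h2] at h4
  rw [abs_le]
  constructor <;> linarith

end Crest.Agent.R304
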