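import Crest.Agent.R304.Move
import Crest.Prelude.Def_Matchings
import Crest.Prelude.Def_MultiplicityCount

/-! Row 304: perfect matchings as edge sets and as involutions. -/

set_option autoImplicit false

namespace Crest.Agent.R304

open Finset Crest.Matchings

variable {n : ℕ}

/-- the pairs of a matching -/
def pairs (S : PM n) : Finset (Fin n × Fin n) := univ.filter fun q => q.1 < q.2 ∧ S q.1 = q.2

theorem pairs_injective : Function.Injective (pairs : PM n → Finset (Fin n × Fin n)) := by
  intro S T h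
  have key : ∀ (S T : PM n), pairs S = pairs T → ∀ v, v < S v → S v = T v := by
    intro S T h v hv
    have h1 : (v, S v) ∈ pairs S := by simp [pairs, hv]
    rw [h] at h1
    simp only [pairs, mem_filter, mem_univ, true_and] at h1
    exact h1.2.symm
  ext1 v
  rcases lt_or_gt_of_ne (S.ne' v) with hv | hv
  · have h1 := key S T h (S v) (by rw [S.inv']; exact hv)
    rw [S.inv'] at h1
    have h2 := congrArg T.toFun h1
    rw [T.inv'] at h2
    exact h2.symm
  · exact key S T h v hv

/-- a set of pairs `i < j` covering every vertex exactly once is the set of pairs of a matching -/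
theorem exists_pairs_iff (M : Finset (Fin n × Fin n)) :
    (∃ S : PM n, pairs S = M) ↔
      M ⊆ ltPairs n ∧ ∀ v : Fin n, (M.filter fun q => q.1 = v ∨ q.2 = v).card = 1 := by
  constructor
  · rintro ⟨S, rfl⟩
    refine ⟨fun q hq => ?_, fun v => ?_⟩
    · simp only [pairs, mem_filter, mem_univ, true_and] at hq
      simp [ltPairs, hq.1]
    · rw [card_eq_one]
      rcases lt_or_gt_of_ne (S.ne' v) with hv | hv
      · refine ⟨(S v, v), ?_⟩
        ext ⟨a, b⟩
        simp only [pairs, mem_filter, mem_univ, true_and, mem_singleton, Prod.mk.injEq]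
        constructor
        · rintro ⟨⟨h1, h2⟩, rfl | rfl⟩
          · exact absurd (h2 ▸ h1) (not_lt.mpr hv.le)
          · exact ⟨by rw [← h2, S.inv'], rfl⟩
        · rintro ⟨rfl, rfl⟩
          exact ⟨⟨hv, S.inv' _⟩, Or.inr rfl⟩
      · refine ⟨(v, S v), ?_⟩
        ext ⟨a, b⟩
        simp only [pairs, mem_filter, mem_univ, true_and, mem_singleton, Prod.mk.injEq]
        constructor
        · rintro ⟨⟨h1, h2⟩, rfl | rfl⟩
          · exact ⟨rfl, h2.symm⟩
          · have h3 : S.toFun b = a := by rw [← h2, S.inv']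
            rw [h3] at hv
            exact absurd h1 (not_lt.mpr hv.le)
        · rintro ⟨rfl, rfl⟩
          exact ⟨⟨hv, rfl⟩, Or.inl rfl⟩
  · rintro ⟨hM, hc⟩
    have hlt : ∀ q ∈ M, q.1 < q.2 := fun q hq => by simpa [ltPairs] using hM hq
    choose e he using fun v => card_eq_one.mp (hc v)
    have hmem : ∀ v, e v ∈ M ∧ ((e v).1 = v ∨ (e v).2 = v) := fun v => by
      have : e v ∈ M.filter fun q => q.1 = v ∨ q.2 = v := by rw [he v]; exact mem_singleton_self _
      exact mem_filter.mp this
    have huniq : ∀ v, ∀ q ∈ M, (q.1 = v ∨ q.2 = v) → e v = q := fun v q hq hv => by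
      have : q ∈ M.filter fun q => q.1 = v ∨ q.2 = v := mem_filter.mpr ⟨hq, hv⟩
      rw [he v] at this
      exact (mem_singleton.mp this).symm
    let f : Fin n → Fin n := fun v => if (e v).1 = v then (e v).2 else (e v).1
    have hf1 : ∀ q ∈ M, f q.1 = q.2 := fun q hq => by
      simp only [f, huniq q.1 q hq (Or.inl rfl), if_true]
    have hf2 : ∀ q ∈ M, f q.2 = q.1 := fun q hq => by
      simp only [f, huniq q.2 q hq (Or.inr rfl), if_neg (hlt q hq).ne]
    refine ⟨⟨f, fun v => ?_, fun v => ?_⟩, ?_⟩
    · obtain ⟨h1, h2 | h2⟩ := hmem v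
      · rw [← h2, hf1 _ h1, hf2 _ h1]
      · rw [← h2, hf2 _ h1, hf1 _ h1]
    · obtain ⟨h1, h2 | h2⟩ := hmem v
      · rw [← h2, hf1 _ h1]; exact (hlt _ h1).ne'
      · rw [← h2, hf2 _ h1]; exact (hlt _ h1).ne
    · ext ⟨a, b⟩
      simp only [pairs, mem_filter, mem_univ, true_and]
      constructor
      · rintro ⟨hab, hfa⟩
        obtain ⟨h1, h2 | h2⟩ := hmem a
        · have h3 := hf1 _ h1
          rw [h2, hfa] at h3
          have : e a = (a, b) := Prod.ext h2 h3.symm
          rwa [this] at h1
        · have h3 := hf2 _ h1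
          rw [h2, hfa] at h3
          have h4 := hlt _ h1
          rw [h2, ← h3] at h4
          exact absurd hab (not_lt.mpr h4.le)
      · intro h
        exact ⟨hlt _ h, hf1 _ h⟩

theorem prod_pairs {R : Type} [CommMonoid R] (lam : Fin n → Fin n → R) (S : PM n) :
    ∏ q ∈ pairs S, lam q.1 q.2 = wt lam S := by
  rw [wt]
  symm
  refine prod_bij (fun v _ => (v, S v)) ?_ ?_ ?_ ?_
  · intro v hv
    simpa [pairs] using hv
  · intro a _ b _ h
    exact (Prod.mk.inj h).1
  · rintro ⟨a, b⟩ hq
    simp only [pairs, mem_filter, mem_univ, true_and] at hq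
    exact ⟨a, by simp [hq.2, hq.1], by rw [hq.2]⟩
  · intro v _
    rfl

theorem mult_eq (w : Fin n → Fin n → ℕ) : multNumPerfectMatchings w = ∑ S : PM n, wt w S := by
  rw [multNumPerfectMatchings]
  symm
  refine sum_bij (fun S _ => pairs S) ?_ ?_ ?_ ?_
  · intro S _
    have h := (exists_pairs_iff (pairs S)).mp ⟨S, rfl⟩
    exact mem_filter.mpr ⟨mem_powerset.mpr h.1, h.2⟩
  · intro S _ T _ h
    exact pairs_injective h
  · intro M hM
    obtain ⟨h1, h2⟩ := mem_filter.mp hM
    obtain ⟨S, hS⟩ := (exists_pairs_iff M).mpr ⟨mem_powerset.mp h1, h2⟩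
    exact ⟨S, mem_univ _, hS⟩
  · intro S _
    exact (prod_pairs w S).symm

/-- `S ↦ univ.image fun v => s(v, S v)` is a bijection -/
theorem num_eq (G : SimpleGraph (Fin n)) [DecidableRel G.Adj] :
    numPerfectMatchings G = (univ.filter fun S : PM n => ∀ v, G.Adj v (S v)).card := by
  rw [numPerfectMatchings]
  symm
  have hfil : ∀ (S : PM n) (v : Fin n),
      (univ.image fun u => s(u, S u)).filter (fun e => v ∈ e) = {s(v, S v)} := by
    intro S v
    ext e
    simp only [mem_filter, mem_image, mem_univ, true_and, mem_singleton]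
    constructor
    · rintro ⟨⟨u, rfl⟩, hv⟩
      rcases Sym2.mem_iff.mp hv with rfl | rfl
      · rfl
      · rw [S.inv', Sym2.eq_swap]
    · rintro rfl
      exact ⟨⟨v, rfl⟩, Sym2.mem_mk_left _ _⟩
  refine card_bij (fun S _ => univ.image fun u => s(u, S u)) ?_ ?_ ?_
  · intro S hS
    refine mem_filter.mpr ⟨mem_powerset.mpr fun e he => ?_, fun v => by rw [hfil, card_singleton]⟩
    obtain ⟨u, _, rfl⟩ := mem_image.mp he
    exact SimpleGraph.mem_edgeFinset.mpr ((mem_filter.mp hS).2 u)
  · intro S _ T _ h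
    ext1 v
    have h1 := hfil S v
    rw [h, hfil T v] at h1
    exact (Sym2.congr_right.mp (singleton_injective h1)).symm
  · intro M hM
    obtain ⟨h1, hc⟩ := mem_filter.mp hM
    have hsub := mem_powerset.mp h1
    choose e he using fun v => card_eq_one.mp (hc v)
    have hmem : ∀ v, e v ∈ M ∧ v ∈ e v := fun v => by
      have : e v ∈ M.filter fun q => v ∈ q := by rw [he v]; exact mem_singleton_self _
      exact mem_filter.mp this
    have huniq : ∀ v, ∀ q ∈ M, v ∈ q → e v = q := fun v q hq hv => by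
      have : q ∈ M.filter fun q => v ∈ q := mem_filter.mpr ⟨hq, hv⟩
      rw [he v] at this
      exact (mem_singleton.mp this).symm
    choose f hf using fun v => Sym2.mem_iff_exists.mp (hmem v).2
    have hadj : ∀ v, G.Adj v (f v) := fun v => by
      have := SimpleGraph.mem_edgeFinset.mp (hsub (hmem v).1)
      rwa [hf v] at this
    have hinv : ∀ v, f (f v) = v := fun v => by
      have h2 : e (f v) = e v := huniq _ _ (hmem v).1 (by rw [hf v]; exact Sym2.mem_mk_right _ _)
      rw [hf (f v), hf v, Sym2.eq_swap (a := v)] at h2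
      exact Sym2.congr_right.mp h2
    refine ⟨⟨f, hinv, fun v => (hadj v).ne'⟩, mem_filter.mpr ⟨mem_univ _, hadj⟩, ?_⟩
    ext q
    simp only [mem_image, mem_univ, true_and]
    constructor
    · rintro ⟨u, rfl⟩
      rw [← hf u]; exact (hmem u).1
    · intro hq
      induction q using Sym2.ind with
      | _ a b => exact ⟨a, by rw [← hf a]; exact huniq a _ hq (Sym2.mem_mk_left _ _)⟩

end Crest.Agent.R304
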