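import Crest.Agent.R304.Run

/-! Row 304: the cycle through a vertex as a proper run. -/

set_option autoImplicit false

namespace Crest.Agent.R304

open Finset

variable {n : ℕ} {lam : Fin n → Fin n → ℝ} {f : PM n → ℝ} {S Y : PM n} {p : ℕ → Fin n} {m : ℕ}

lemma cycle_ev (S Y : PM n) (v : Fin n) {i : ℕ} (h : i % 2 = 0) :
    S (walk S Y v i) = walk S Y v (i + 1) := by
  rw [walk_succ, if_pos h]

lemma cycle_od (S Y : PM n) (v : Fin n) {i : ℕ} (h : i % 2 = 1) :
    Y (walk S Y v i) = walk S Y v (i + 1) := by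
  rw [walk_succ, if_neg (by omega)]

lemma cycle_fwd (S Y : PM n) (v : Fin n) {i j : ℕ} (hp : i % 2 = j % 2)
    (h : walk S Y v i = walk S Y v j) (k : ℕ) : walk S Y v (i + k) = walk S Y v (j + k) := by
  induction k with
  | zero => exact h
  | succ k ih =>
    rw [← add_assoc, ← add_assoc]
    rcases Nat.mod_two_eq_zero_or_one (i + k) with h1 | h1
    · rw [← cycle_ev S Y v h1, ← cycle_ev S Y v (by omega : (j + k) % 2 = 0), ih]
    · rw [← cycle_od S Y v h1, ← cycle_od S Y v (by omega : (j + k) % 2 = 1), ih]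

lemma cycle_back (S Y : PM n) (v : Fin n) {i j : ℕ} (hp : i % 2 = j % 2) (k : ℕ)
    (h : walk S Y v (i + k) = walk S Y v (j + k)) : walk S Y v i = walk S Y v j := by
  induction k with
  | zero => exact h
  | succ k ih =>
    apply ih
    rw [← add_assoc, ← add_assoc] at h
    rcases Nat.mod_two_eq_zero_or_one (i + k) with h1 | h1
    · rw [← cycle_ev S Y v h1, ← cycle_ev S Y v (by omega : (j + k) % 2 = 0)] at h
      exact S.inj h
    · rw [← cycle_od S Y v h1, ← cycle_od S Y v (by omega : (j + k) % 2 = 1)] at h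
      exact Y.inj h

lemma cycle_odd (S Y : PM n) (v : Fin n) (t : ℕ) :
    ∀ i, walk S Y v i ≠ walk S Y v (i + 2 * t + 1) := by
  induction t with
  | zero =>
    intro i h
    rcases Nat.mod_two_eq_zero_or_one i with h1 | h1
    · exact S.ne _ ((cycle_ev S Y v h1).trans h.symm)
    · exact Y.ne _ ((cycle_od S Y v h1).trans h.symm)
  | succ t ih =>
    intro i h
    apply ih (i + 1)
    rw [show i + 2 * (t + 1) + 1 = (i + 1 + 2 * t + 1) + 1 by ring] at h
    rcases Nat.mod_two_eq_zero_or_one i with h1 | h1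
    · rw [← cycle_ev S Y v h1, h, ← cycle_ev S Y v (by omega : (i + 1 + 2 * t + 1) % 2 = 0), S.inv]
    · rw [← cycle_od S Y v h1, h, ← cycle_od S Y v (by omega : (i + 1 + 2 * t + 1) % 2 = 1), Y.inv]

lemma cycle_period (S Y : PM n) (v : Fin n) :
    ∃ m, 0 < m ∧ m % 2 = 0 ∧ walk S Y v 0 = walk S Y v m := by
  obtain ⟨a, b, hab, h⟩ := Finite.exists_ne_map_eq_of_infinite fun k : ℕ => walk S Y v (2 * k)
  wlog hlt : a < b generalizing a b
  · exact this b a hab.symm h.symm (by omega)
  refine ⟨2 * (b - a), by omega, by omega, cycle_back S Y v (by omega) (2 * a) ?_⟩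
  rw [zero_add, show 2 * (b - a) + 2 * a = 2 * b by omega]
  exact h

/-- The walk `w = walk S Y v` is periodic: let `m > 0` be the least even number with `w m = v`; then `w` is injective on
`[0, m)` (for a coincidence `w i = w j` with `j - i` minimal: even difference contradicts the choice of `m` after walking back, odd
difference gives `w (i + 1) = w (j - 1)` or a fixed point), `w (s + m) = w s`, and its values form the component `Conn S Y v`.  Let `j < m`
minimise `lam (w j) (w (j + 1))` and `p s = w (s + j)`: a proper whole cycle run in the frame `(S, Y)` or `(Y, S)`. -/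
theorem exists_cycle_run (hl : Pos lam) (S Y : PM n) (v : Fin n) :
    ∃ (p : ℕ → Fin n) (m : ℕ), (Run S Y p m ∨ Run Y S p m) ∧ m % 2 = 0 ∧ p m = p 0 ∧ Proper lam p m ∧
      ∀ u, Conn S Y v u ↔ ∃ s, 1 ≤ s ∧ s ≤ m ∧ p s = u := by
  classical
  have hex := cycle_period S Y v
  obtain ⟨m, ⟨hm0, hm2, hm⟩, hmin⟩ : ∃ m, (0 < m ∧ m % 2 = 0 ∧ walk S Y v 0 = walk S Y v m) ∧
      ∀ d < m, ¬ (0 < d ∧ d % 2 = 0 ∧ walk S Y v 0 = walk S Y v d) :=
    ⟨Nat.find hex, Nat.find_spec hex, fun d hd => Nat.find_min hex hd⟩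
  set w := walk S Y v with hw
  have hper : ∀ s, w (s + m) = w s := fun s => by
    have := cycle_fwd S Y v (by omega) hm s
    rw [zero_add, add_comm] at this
    exact this.symm
  have hmul : ∀ k s, w (s + m * k) = w s := fun k s => by
    induction k with
    | zero => rfl
    | succ k ih => rw [mul_add, mul_one, ← add_assoc, hper, ih]
  have hmod : ∀ a b, a % m = b % m → w a = w b := fun a b h => by
    rw [← Nat.mod_add_div a m, ← Nat.mod_add_div b m, hmul, hmul, h]
  have hinj : ∀ a d, 0 < d → d < m → w a ≠ w (a + d) := fun a d h0 hd h => by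
    rcases Nat.mod_two_eq_zero_or_one d with h1 | h1
    · refine hmin d hd ⟨h0, h1, cycle_back S Y v (by omega) a ?_⟩
      rw [zero_add, add_comm]; exact h
    · refine cycle_odd S Y v (d / 2) a ?_
      rw [show a + 2 * (d / 2) + 1 = a + d by omega]; exact h
  have hconn : ∀ u, Conn S Y v u ↔ ∃ t, w t = u := fun u => by
    constructor
    · intro h
      induction h with
      | refl => exact ⟨0, rfl⟩
      | tail _ hb ih =>
        obtain ⟨t, rfl⟩ := ih
        have e : w t = w (t + m - 1 + 1) := by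
          rw [show t + m - 1 + 1 = t + m by omega, hper]
        rcases Nat.mod_two_eq_zero_or_one t with h1 | h1 <;> rcases hb with rfl | rfl
        · exact ⟨t + 1, (cycle_ev S Y v h1).symm⟩
        · refine ⟨t + m - 1, ?_⟩
          rw [e, hw, ← cycle_od S Y v (by omega : (t + m - 1) % 2 = 1), Y.inv]
        · refine ⟨t + m - 1, ?_⟩
          rw [e, hw, ← cycle_ev S Y v (by omega : (t + m - 1) % 2 = 0), S.inv]
        · exact ⟨t + 1, (cycle_od S Y v h1).symm⟩
    · rintro ⟨t, rfl⟩
      induction t with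
      | zero => exact Relation.ReflTransGen.refl
      | succ t ih =>
        rcases Nat.mod_two_eq_zero_or_one t with h1 | h1
        · rw [hw, ← cycle_ev S Y v h1]; exact Conn.fst_iff.mpr ih
        · rw [hw, ← cycle_od S Y v h1]; exact Conn.snd_iff.mpr ih
  obtain ⟨j, hj, hjmin⟩ := exists_min_image (range m) (fun i => lam (w i) (w (i + 1)))
    ⟨0, mem_range.mpr hm0⟩
  rw [mem_range] at hj
  have hle : ∀ i, lam (w j) (w (j + 1)) ≤ lam (w i) (w (i + 1)) := fun i => by
    have h1 := hjmin (i % m) (mem_range.mpr (Nat.mod_lt i hm0))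
    rwa [hmod (i % m) i (Nat.mod_mod i m), hmod (i % m + 1) (i + 1) (Nat.mod_add_mod i m 1)] at h1
  have hI : ∀ a b, 1 ≤ a → a ≤ m → 1 ≤ b → b ≤ m → w (a + j) = w (b + j) → a = b := by
    intro a b ha1 ha2 hb1 hb2 h
    rcases lt_trichotomy a b with hab | hab | hab
    · exact absurd (by rwa [show a + j + (b - a) = b + j by omega])
        (hinj (a + j) (b - a) (by omega) (by omega))
    · exact hab
    · exact absurd (by rw [show b + j + (a - b) = a + j by omega]; exact h.symm)
        (hinj (b + j) (a - b) (by omega) (by omega))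
  refine ⟨fun s => w (s + j), m, ?_, hm2, ?_, fun i _ _ => ?_, fun u => ?_⟩
  · rcases Nat.mod_two_eq_zero_or_one j with h1 | h1
    · refine Or.inl ⟨hm0, hI, fun i _ hi => ?_, fun i _ hi => ?_⟩
      · rw [add_right_comm]; exact cycle_ev S Y v (by omega)
      · rw [add_right_comm]; exact cycle_od S Y v (by omega)
    · refine Or.inr ⟨hm0, hI, fun i _ hi => ?_, fun i _ hi => ?_⟩
      · rw [add_right_comm]; exact cycle_od S Y v (by omega)
      · rw [add_right_comm]; exact cycle_ev S Y v (by omega)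
  · show w (m + j) = w (0 + j)
    rw [add_comm, hper, zero_add]
  · show lam (w (0 + j)) (w (1 + j)) ≤ lam (w (i + j)) (w (i + 1 + j)) ∧
      lam (w (m + j)) (w (m + 1 + j)) ≤ lam (w (i + j)) (w (i + 1 + j))
    rw [zero_add, add_comm 1 j, add_comm m j, hper, show m + 1 + j = j + 1 + m by ring, hper,
      add_right_comm i 1 j]
    exact ⟨hle _, hle _⟩
  · rw [hconn]
    constructor
    · rintro ⟨t, rfl⟩
      refine ⟨(t + m - j - 1) % m + 1, by omega, Nat.mod_lt _ hm0, hmod _ _ ?_⟩
      rw [add_assoc, Nat.mod_add_mod, show t + m - j - 1 + (1 + j) = t + m by omega,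
        Nat.add_mod_right]
    · rintro ⟨s, -, -, h⟩
      exact ⟨s + j, h⟩

end Crest.Agent.R304
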