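import Mathlib

/-!
Row 304, approximate counting: perfect matchings of the complete graph on `Fin n` (fixed point free
involutions), their weights, and the moves on pairs of matchings.  Definitions and the most basic facts.
-/

set_option autoImplicit false

namespace Crest.Agent.R304

open Finset

/-! ### generic list operations (used both on `Fin n` and on `ℕ`) -/

/-- the map reversing the list `g` and fixing everything else -/
def rv {α : Type} [DecidableEq α] (g : List α) (v : α) : α :=
  if v ∈ g then g.reverse.getD (g.idxOf v) v else v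

/-- the alternating walk from `x`: first `Y`, then `S`, then `Y`, ... -/
def walk {α : Type} (Y S : α → α) (x : α) : ℕ → α
  | 0 => x
  | i + 1 => if i % 2 = 0 then Y (walk Y S x i) else S (walk Y S x i)

theorem walk_zero {α : Type} (Y S : α → α) (x : α) : walk Y S x 0 = x := walk.eq_1 Y S x
theorem walk_succ {α : Type} (Y S : α → α) (x : α) (i : ℕ) :
    walk Y S x (i + 1) = if i % 2 = 0 then Y (walk Y S x i) else S (walk Y S x i) := walk.eq_2 Y S x i
theorem walk_eq_def_true : @walk.eq_def = @walk.eq_def := rfl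

/-- the first `m` vertices of the alternating walk -/
def seg {α : Type} (Y S : α → α) (x : α) (m : ℕ) : List α := (List.range m).map (walk Y S x)

theorem rv_of_not_mem {α : Type} [DecidableEq α] {g : List α} {v : α} (h : v ∉ g) : rv g v = v := by
  simp [rv, h]

theorem rv_getElem {α : Type} [DecidableEq α] {g : List α} (hg : g.Nodup) {i : ℕ} (hi : i < g.length) :
    rv g g[i] = g[g.length - 1 - i] := by
  have h1 : g[i] ∈ g := List.getElem_mem _
  rw [rv, if_pos h1, hg.idxOf_getElem i hi, List.getD_eq_getElem _ _ (by simpa using hi),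
    List.getElem_reverse]

theorem rv_rv {α : Type} [DecidableEq α] {g : List α} (hg : g.Nodup) (v : α) : rv g (rv g v) = v := by
  by_cases h : v ∈ g
  · obtain ⟨i, hi, rfl⟩ := List.getElem_of_mem h
    rw [rv_getElem hg hi, rv_getElem hg (by omega)]
    congr 1
    omega
  · rw [rv_of_not_mem h, rv_of_not_mem h]

/-! ### perfect matchings -/

/-- perfect matchings of the complete graph: fixed point free involutions -/
structure PM (n : ℕ) : Type where
  /-- the partner -/
  toFun : Fin n → Fin n
  inv' : ∀ v, toFun (toFun v) = v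
  ne' : ∀ v, toFun v ≠ v

variable {n : ℕ}

instance : CoeFun (PM n) fun _ => Fin n → Fin n := ⟨PM.toFun⟩

@[ext] theorem PM.ext {S T : PM n} (h : ∀ v, S v = T v) : S = T := by
  cases S; cases T; congr; exact funext h

theorem PM.toFun_injective : Function.Injective (PM.toFun : PM n → Fin n → Fin n) :=
  fun _ _ h => PM.ext (congrFun h)

noncomputable instance : Fintype (PM n) := Fintype.ofInjective _ PM.toFun_injective
instance : DecidableEq (PM n) := PM.toFun_injective.decidableEq

@[simp] theorem PM.inv (S : PM n) (v : Fin n) : S (S v) = v := S.inv' v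
theorem PM.ne (S : PM n) (v : Fin n) : S v ≠ v := S.ne' v
theorem PM.eq_iff (S : PM n) {u v : Fin n} : S u = v ↔ S v = u :=
  ⟨fun h => by rw [← h, S.inv], fun h => by rw [← h, S.inv]⟩
theorem PM.inj (S : PM n) {u v : Fin n} (h : S u = S v) : u = v := by
  rw [← S.inv u, h, S.inv]

/-- the product of the edge weights -/
def wt {R : Type} [CommMonoid R] (lam : Fin n → Fin n → R) (S : PM n) : R :=
  ∏ v ∈ univ.filter (fun v => v < S v), lam v (S v)

/-- positive symmetric weights -/
structure Pos (lam : Fin n → Fin n → ℝ) : Prop where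
  pos : ∀ u v, 0 < lam u v
  symm : ∀ u v, lam u v = lam v u

/-- the partition function -/
noncomputable def Zf (lam : Fin n → Fin n → ℝ) : ℝ := ∑ S : PM n, wt lam S

/-- the Gibbs law -/
noncomputable def mu (lam : Fin n → Fin n → ℝ) (S : PM n) : ℝ := wt lam S / Zf lam

/-- the total weight of the matchings containing the pair `u v` -/
noncomputable def Ze (lam : Fin n → Fin n → ℝ) (u v : Fin n) : ℝ :=
  ∑ S ∈ univ.filter (fun S : PM n => S u = v), wt lam S

/-- every pair has marginal probability at least `1 / K` -/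
def Bal (lam : Fin n → Fin n → ℝ) (K : ℝ) : Prop := ∀ u v, u ≠ v → Zf lam ≤ K * Ze lam u v

/-- quasi-ultrametric weights: a chord is not much lighter than the lightest edge of a chain -/
def QU (lam : Fin n → Fin n → ℝ) (K : ℝ) : Prop :=
  ∀ (p : ℕ → Fin n) (k : ℕ) (t : ℝ), k ≤ n + 1 → p 0 ≠ p k →
    (∀ i < k, p i ≠ p (i + 1) ∧ t ≤ lam (p i) (p (i + 1))) → t ≤ K * lam (p 0) (p k)

/-- conjugation by the reversal of `g` -/
def shift (g : List (Fin n)) (S : PM n) : PM n :=
  if h : g.Nodup then
    ⟨fun v => rv g (S (rv g v)), fun v => by simp only [rv_rv h, S.inv], fun v e => by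
      have h1 := congrArg (rv g) e
      rw [rv_rv h] at h1
      exact S.ne _ h1⟩
  else S

theorem shift_apply {g : List (Fin n)} (h : g.Nodup) (S : PM n) (v : Fin n) :
    shift g S v = rv g (S (rv g v)) := by
  simp only [shift, dif_pos h]

theorem shift_of_not {g : List (Fin n)} (h : ¬ g.Nodup) (S : PM n) : shift g S = S := by
  simp only [shift, dif_neg h]

theorem shift_shift (g : List (Fin n)) (S : PM n) : shift g (shift g S) = S := by
  by_cases h : g.Nodup
  · ext v
    rw [shift_apply h, shift_apply h, rv_rv h, rv_rv h]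
  · rw [shift_of_not h, shift_of_not h]

/-! ### moves on pairs -/

/-- labels of the moves -/
abbrev Lab (n : ℕ) : Type := Fin 4 × Fin n × Fin n

/-- The moves: exchange the two matchings; conjugate the first or the second one by a transposition;
conjugate both by the reversal of a segment of an alternating walk. -/
def mv (x : PM n × PM n) (l : Lab n) : PM n × PM n :=
  if l.1 = 0 then (x.2, x.1)
  else if l.1 = 1 then (shift [l.2.1, l.2.2] x.1, x.2)
  else if l.1 = 2 then (x.1, shift [l.2.1, l.2.2] x.2)
  else (shift (seg x.2 x.1 l.2.1 (l.2.2 + 1)) x.1, shift (seg x.2 x.1 l.2.1 (l.2.2 + 1)) x.2)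

/-- the label of the reverse move -/
def rl (x : PM n × PM n) (l : Lab n) : Lab n :=
  if l.1 = 3 ∧ (seg x.2 x.1 l.2.1 (l.2.2 + 1)).Nodup then (3, walk x.2 x.1 l.2.1 l.2.2, l.2.2) else l

/-- weight of a pair -/
def w2 {R : Type} [CommMonoid R] (lam : Fin n → Fin n → R) (x : PM n × PM n) : R :=
  wt lam x.1 * wt lam x.2

/-- the local energy of `F` at `x` -/
noncomputable def loc (lam : Fin n → Fin n → ℝ) (F : PM n × PM n → ℝ) (x : PM n × PM n) : ℝ :=
  ∑ l : Lab n, min (w2 lam x) (w2 lam (mv x l)) * (F (mv x l) - F x) ^ 2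

/-- the Metropolis energy -/
noncomputable def Dir (lam : Fin n → Fin n → ℝ) (F : PM n × PM n → ℝ) : ℝ := ∑ x, loc lam F x

/-- the additive observable -/
def two (f : PM n → ℝ) (x : PM n × PM n) : ℝ := f x.1 + f x.2

/-! ### runs -/

/-- the list `p 1, ..., p m` -/
def lst {α : Type} (p : ℕ → α) (m : ℕ) : List α := (List.range m).map fun s => p (s + 1)

/-- `p 0, ..., p (m + 1)` is an alternating walk whose first edge is in `S`; the inner vertices
`p 1, ..., p m` are distinct -/
structure Run (S Y : PM n) (p : ℕ → Fin n) (m : ℕ) : Prop where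
  pos : 1 ≤ m
  inj : ∀ i j, 1 ≤ i → i ≤ m → 1 ≤ j → j ≤ m → p i = p j → i = j
  ev : ∀ i ≤ m, i % 2 = 0 → S (p i) = p (i + 1)
  od : ∀ i ≤ m, i % 2 = 1 → Y (p i) = p (i + 1)

/-- the inner edges are at least as heavy as the two outer edges -/
def Proper (lam : Fin n → Fin n → ℝ) (p : ℕ → Fin n) (m : ℕ) : Prop :=
  ∀ i, 1 ≤ i → i < m →
    lam (p 0) (p 1) ≤ lam (p i) (p (i + 1)) ∧ lam (p m) (p (m + 1)) ≤ lam (p i) (p (i + 1))

/-- `S` contains the pairs `g[1] g[2]`, `g[3] g[4]`, ... -/
def Pre (g : List (Fin n)) (S : PM n) : Prop :=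
  ∀ i a b, i % 2 = 1 → g[i]? = some a → g[i + 1]? = some b → S a = b

open Classical in
/-- the mean increment of `f` under `shift g` for the weights `u` -/
noncomputable def mn (f : PM n → ℝ) (u : PM n → ℝ) (g : List (Fin n)) : ℝ :=
  (∑ S ∈ univ.filter (Pre g), u S * (f (shift g S) - f S)) / ∑ S ∈ univ.filter (Pre g), u S

/-- weights for an odd list from `x` to `y` -/
noncomputable def nu (lam : Fin n → Fin n → ℝ) (x y : Fin n) (S : PM n) : ℝ :=
  wt lam S * min 1 (lam (S x) y / lam (S x) x)

/-- weights for an even list starting with `v, x` -/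
noncomputable def nuA (lam : Fin n → Fin n → ℝ) (v x : Fin n) (S : PM n) : ℝ :=
  if S x = v then wt lam S else 0

/-- The context free increment of a run: for odd `m` of shifting the first matching along the run, for
even `m` of closing the run to a cycle in the second matching. -/
noncomputable def gam (lam : Fin n → Fin n → ℝ) (f : PM n → ℝ) (p : ℕ → Fin n) (m : ℕ) : ℝ :=
  if m % 2 = 1 then mn f (nu lam (p 1) (p m)) (lst p m)
  else mn f (nuA lam (p 1) (p 2)) (lst (fun s => p (s + 1)) (m - 1))

/-- deviations from the context free increments of odd lists -/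
noncomputable def H1 (lam : Fin n → Fin n → ℝ) (f : PM n → ℝ) (x : PM n × PM n) : ℝ :=
  ∑ a : Fin n, ∑ k : Fin n, if (seg x.2 x.1 a (k + 1)).Nodup ∧ (k : ℕ) % 2 = 0 then
    nu lam a (walk x.2 x.1 a k) x.1 * nu lam (walk x.2 x.1 a k) a x.2 *
      (f (shift (seg x.2 x.1 a (k + 1)) x.1) - f x.1 -
        mn f (nu lam a (walk x.2 x.1 a k)) (seg x.2 x.1 a (k + 1))) ^ 2 else 0

/-- deviations from the context free increments of even lists (cycles) -/
noncomputable def H2 (lam : Fin n → Fin n → ℝ) (f : PM n → ℝ) (x : PM n × PM n) : ℝ :=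
  ∑ a : Fin n, ∑ k : Fin n,
    if (seg x.2 x.1 a (k + 1)).Nodup ∧ (k : ℕ) % 2 = 0 ∧ x.1 a = x.2 (walk x.2 x.1 a k) then
      w2 lam x * (f (shift (seg x.2 x.1 a (k + 1)) x.1) - f x.1 -
        mn f (nuA lam (x.1 a) a) (seg x.2 x.1 a (k + 1))) ^ 2 else 0

/-- the energy density -/
noncomputable def HH (lam : Fin n → Fin n → ℝ) (f : PM n → ℝ) (x : PM n × PM n) : ℝ :=
  H1 lam f x + H2 lam f x + loc lam (two f) x

/-- the energy density is at most `E` within four moves of `x` and of its mirror image -/
def Dom (lam : Fin n → Fin n → ℝ) (f : PM n → ℝ) (x : PM n × PM n) (E : ℝ) : Prop :=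
  ∀ ls : List (Lab n), ls.length ≤ 4 →
    HH lam f (ls.foldl mv x) ≤ E ∧ HH lam f (ls.foldl mv x.swap) ≤ E

/-- the component of `u` in the union of two matchings -/
def Conn (S Y : PM n) (u v : Fin n) : Prop := Relation.ReflTransGen (fun a b => b = S a ∨ b = Y a) u v

theorem Conn.fst_iff {S Y : PM n} {u v : Fin n} : Conn S Y u (S v) ↔ Conn S Y u v :=
  ⟨fun h => h.tail (Or.inl (S.inv v).symm), fun h => h.tail (Or.inl rfl)⟩

theorem Conn.snd_iff {S Y : PM n} {u v : Fin n} : Conn S Y u (Y v) ↔ Conn S Y u v :=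
  ⟨fun h => h.tail (Or.inr (Y.inv v).symm), fun h => h.tail (Or.inr rfl)⟩

open Classical in
/-- `S` with the cycle through `v` replaced by the edges of `Y` -/
noncomputable def cyc (S Y : PM n) (v : Fin n) : PM n :=
  ⟨fun u => if Conn S Y v u then Y u else S u, fun u => by
    by_cases h : Conn S Y v u
    · simp [h, Conn.snd_iff]
    · simp [h, Conn.fst_iff], fun u => by
    by_cases h : Conn S Y v u
    · simpa [h] using Y.ne u
    · simpa [h] using S.ne u⟩

end Crest.Agent.R304
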