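import Crest.Agent.Lib.Matching.MaxWeight

/-! Row 304: the deterministic algorithm, given a maximum weight matching routine `mwm`. -/

set_option autoImplicit false

namespace Crest.Agent.R304

open Finset Crest.Agent.Lib.PT Crest.Agent.Lib.Matching

/-- the multiplicity of the pair `u v` -/
def wm (L : List (ℕ × ℕ × ℕ)) (u v : ℕ) : ℕ :=
  ((L.filter fun e => decide (e.1 = min u v ∧ e.2.1 = max u v)).map fun e => e.2.2).sum

/-- the number of previous matchings containing the pair -/
def cm (Ms : List (List ℕ × ℕ)) (u v : ℕ) : ℕ :=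
  Ms.countP fun M => decide (M.1.getD (min u v) 0 = max u v)

/-- the rounded logarithmic weight -/
def am (n : ℕ) (L : List (ℕ × ℕ × ℕ)) (Ms : List (List ℕ × ℕ)) (u v : ℕ) : ℕ :=
  Nat.log 2 (wm L u v * (min Ms.length n + n) / (cm Ms u v + 1))

/-- a bound on `am` -/
def bm (n : ℕ) (L : List (ℕ × ℕ × ℕ)) : ℕ := Nat.size ((L.map fun e => e.2.2).sum * (2 * n))

/-- the weight matrix -/
def gm (n : ℕ) (L : List (ℕ × ℕ × ℕ)) (Ms : List (List ℕ × ℕ)) : List (List ℕ) :=
  (List.range n).map fun u => (List.range n).map fun v =>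
    if 0 < wm L u v then n * bm n L + 1 + am n L Ms u v else 0

/-- the matching played in a round -/
def play (mwm : List (List ℕ) → List ℕ) (n : ℕ) (L : List (ℕ × ℕ × ℕ)) (Ms : List (List ℕ × ℕ)) : List ℕ :=
  (List.range n).map fun v => min ((mwm (gm n L Ms)).getD v 0) n

/-- its value -/
def val (n : ℕ) (L : List (ℕ × ℕ × ℕ)) (Ms : List (List ℕ × ℕ)) (M : List ℕ) : ℕ :=
  ∑ v ∈ range n, if v < M.getD v 0 then am n L Ms v (M.getD v 0) else 0

def round (mwm : List (List ℕ) → List ℕ) (n : ℕ) (L : List (ℕ × ℕ × ℕ)) (Ms : List (List ℕ × ℕ)) :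
    List (List ℕ × ℕ) :=
  Ms ++ [(play mwm n L Ms, val n L Ms (play mwm n L Ms))]

def rounds (mwm : List (List ℕ) → List ℕ) (n : ℕ) (L : List (ℕ × ℕ × ℕ)) : List (List ℕ × ℕ) :=
  (round mwm n L)^[n] []

def det' (mwm : List (List ℕ) → List ℕ) (n : ℕ) (L : List (ℕ × ℕ × ℕ)) : ℕ :=
  if (rounds mwm n L).all fun M => (List.range n).all fun v => decide (0 < wm L v (M.1.getD v 0)) then
    2 ^ (((rounds mwm n L).map fun M => M.2).foldr min (n * bm n L) - 3 * n)
  else 0

def det (mwm : List (List ℕ) → List ℕ) (n : ℕ) (L : List (ℕ × ℕ × ℕ)) : ℕ :=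
  if 2 * L.length < n then 0 else det' mwm (min n (2 * L.length)) L

theorem am_le (n : ℕ) (L : List (ℕ × ℕ × ℕ)) (Ms : List (List ℕ × ℕ)) (u v : ℕ) : am n L Ms u v ≤ bm n L := by
  have h1 : wm L u v ≤ (L.map fun e => e.2.2).sum :=
    (List.filter_sublist.map _).sum_le_sum fun _ _ => Nat.zero_le _
  have h2 : wm L u v * (min Ms.length n + n) / (cm Ms u v + 1) ≤
      (L.map fun e => e.2.2).sum * (2 * n) :=
    (Nat.div_le_self _ _).trans (Nat.mul_le_mul h1 (by omega))
  unfold am bm
  rw [log2_eq_size_sub_one]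
  exact (Nat.sub_le _ _).trans (Nat.size_le_size h2)

lemma detalg_ent (n : ℕ) (L : List (ℕ × ℕ × ℕ)) (Ms : List (List ℕ × ℕ)) (u v : ℕ) :
    ent (gm n L Ms) u v =
      if u < n ∧ v < n then (if 0 < wm L u v then n * bm n L + 1 + am n L Ms u v else 0) else 0 := by
  unfold ent gm
  by_cases hu : u < n
  · by_cases hv : v < n
    · simp [List.getD_eq_getElem?_getD, hu, hv]
    · simp [List.getD_eq_getElem?_getD, hu, hv]
  · simp [List.getD_eq_getElem?_getD, hu]

theorem symm_gm (n : ℕ) (L : List (ℕ × ℕ × ℕ)) (Ms : List (List ℕ × ℕ)) : Symm (gm n L Ms) := by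
  intro u _ v _
  have h1 : wm L u v = wm L v u := by unfold wm; rw [min_comm, max_comm]
  have h2 : cm Ms u v = cm Ms v u := by unfold cm; rw [min_comm, max_comm]
  have h3 : am n L Ms u v = am n L Ms v u := by unfold am; rw [h1, h2]
  rw [detalg_ent, detalg_ent, h1, h3]
  exact if_congr and_comm rfl rfl

lemma detalg_val_le (n : ℕ) (L : List (ℕ × ℕ × ℕ)) (Ms : List (List ℕ × ℕ)) (M : List ℕ) :
    val n L Ms M ≤ n * bm n L := by
  unfold val
  refine (sum_le_card_nsmul _ _ (bm n L) fun v _ => ?_).trans (by simp)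
  split_ifs
  · exact am_le _ _ _ _ _
  · exact Nat.zero_le _

lemma detalg_foldr_le (l : List ℕ) (b : ℕ) : l.foldr min b ≤ b := by
  induction l with
  | nil => exact le_rfl
  | cons x l ih => exact (min_le_right _ _).trans ih

section pt

variable {α : Type} [Enc α] {n u v : α → ℕ} {L : α → List (ℕ × ℕ × ℕ)} {Ms : α → List (List ℕ × ℕ)}

@[fun_prop] lemma detalg_pt_wm (hL : PT L) (hu : PT u) (hv : PT v) :
    PT fun a => wm (L a) (u a) (v a) := by
  unfold wm
  fun_prop

@[fun_prop] lemma detalg_pt_cm (hM : PT Ms) (hu : PT u) (hv : PT v) :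
    PT fun a => cm (Ms a) (u a) (v a) := by
  unfold cm
  fun_prop

@[fun_prop] lemma detalg_pt_am (hn : PT n) (hL : PT L) (hM : PT Ms) (hu : PT u) (hv : PT v) :
    PT fun a => am (n a) (L a) (Ms a) (u a) (v a) := by
  unfold am
  fun_prop

@[fun_prop] lemma detalg_pt_bm (hn : PT n) (hL : PT L) : PT fun a => bm (n a) (L a) := by
  unfold bm
  fun_prop

@[fun_prop] lemma detalg_pb_bm (hn : PT n) (hL : PT L) : PB fun a => bm (n a) (L a) := by
  unfold bm
  fun_prop

@[fun_prop] lemma detalg_pt_gm (hn : PT n) (hb : PB n) (hL : PT L) (hM : PT Ms) :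
    PT fun a => gm (n a) (L a) (Ms a) := by
  unfold gm
  fun_prop

@[fun_prop] lemma detalg_pt_val {M : α → List ℕ} (hn : PT n) (hb : PB n) (hL : PT L) (hM : PT Ms)
    (hM' : PT M) : PT fun a => val (n a) (L a) (Ms a) (M a) := by
  unfold val
  fun_prop

variable {mwm : List (List ℕ) → List ℕ}
    (hm : ∀ {ι : Type} [Enc ι] (g : ι → List (List ℕ)) (B : ι → ℕ), PT g → PB B →
      (∀ i u v, ent (g i) u v ≤ B i) → (∀ i, Symm (g i)) → PT (fun i => mwm (g i)))

include hm

lemma detalg_pt_play (hn : PT n) (hb : PB n) (hL : PT L) (hM : PT Ms) :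
    PT fun a => play mwm (n a) (L a) (Ms a) := by
  have h := hm (fun a => gm (n a) (L a) (Ms a))
    (fun a => n a * bm (n a) (L a) + 1 + bm (n a) (L a)) (by fun_prop) (by fun_prop)
    (fun a u v => by
      have := am_le (n a) (L a) (Ms a) u v
      rw [detalg_ent]
      split_ifs <;> omega) fun a => symm_gm _ _ _
  unfold play
  exact (hn.range hb).map (g := fun a v => min ((mwm (gm (n a) (L a) (Ms a))).getD v 0) (n a))
    ((PT.getD (n := fun p : α × ℕ => p.2) PT.id.snd (h.comp PT.id.fst) (PT.const 0)).min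
      (hn.comp PT.id.fst))

lemma detalg_pt_round (hn : PT n) (hb : PB n) (hL : PT L) (hM : PT Ms) :
    PT fun a => round mwm (n a) (L a) (Ms a) := by
  have h := detalg_pt_play hm hn hb hL hM
  exact hM.append ((h.pair (detalg_pt_val hn hb hL hM h)).cons (PT.const []))

lemma detalg_pt_rounds (hn : PT n) (hb : PB n) (hL : PT L) :
    PT fun a => rounds mwm (n a) (L a) := by
  refine PT.iterate_add (f := fun a => round mwm (n a) (L a)) (ini := fun _ => [])
    (fun a => (sz (n a) + 1) * n a + sz (n a * bm (n a) (L a)) + 5)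
    (detalg_pt_round hm (hn.comp PT.id.fst) (hb.comp PT.id.fst) (hL.comp PT.id.fst) PT.id.snd)
    hn hb (PT.const _) (by fun_prop) fun a x => ?_
  have h1 := sz_list_le (play mwm (n a) (L a) x) (sz (n a)) fun y hy => by
    obtain ⟨v, -, rfl⟩ := List.mem_map.1 hy
    exact sz_nat_mono (min_le_right _ _)
  have h2 : (play mwm (n a) (L a) x).length = n a := by simp [play]
  have h3 := sz_nat_mono (detalg_val_le (n a) (L a) x (play mwm (n a) (L a) x))
  rw [h2] at h1
  refine (sz_append_le _ _).trans ?_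
  simp only [sz_cons, sz_pair, sz_nil]
  omega

lemma detalg_pt_det' (hn : PT n) (hb : PB n) (hL : PT L) : PT fun a => det' mwm (n a) (L a) := by
  have h := detalg_pt_rounds hm hn hb hL
  have h1 : PT fun a => ((rounds mwm (n a) (L a)).map fun M => M.2).foldr min (n a * bm (n a) (L a)) :=
    PT.foldr_select (f := fun _ => min) (by fun_prop) (h.map (g := fun _ M => M.2) (by fun_prop))
      (by fun_prop) fun _ x y => min_choice x y
  have h2 : PB fun a =>
      ((rounds mwm (n a) (L a)).map fun M => M.2).foldr min (n a * bm (n a) (L a)) - 3 * n a :=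
    (hb.mul (detalg_pb_bm hn hL)).of_le fun a => (Nat.sub_le _ _).trans (detalg_foldr_le _ _)
  unfold det'
  refine PT.ite (PT.decide_eq_true (h.all ?_)) ((PT.const 2).pow (h1.sub (by fun_prop)) h2)
    (PT.const 0)
  fun_prop

end pt

/-- `min n (2 * L.length)` and `bm` are polynomially bounded; every round appends a list of `n` numbers `≤ n` and a number `≤ n * bm n L`
(`PT.iterate_add` or `PT.iterate_inv_add`); apply `hm` with the index type `α × List (List ℕ × ℕ)`. -/
theorem pt_det {mwm : List (List ℕ) → List ℕ}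
    (hm : ∀ {ι : Type} [Enc ι] (g : ι → List (List ℕ)) (B : ι → ℕ), PT g → PB B →
      (∀ i u v, ent (g i) u v ≤ B i) → (∀ i, Symm (g i)) → PT (fun i => mwm (g i))) :
    PT fun p : ℕ × List (ℕ × ℕ × ℕ) => det mwm p.1 p.2 := by
  unfold det
  exact PT.ite (by fun_prop) (PT.const 0)
    (detalg_pt_det' hm (n := fun p : ℕ × List (ℕ × ℕ × ℕ) => min p.1 (2 * p.2.length))
      (by fun_prop) (PB.min_right _ (by fun_prop)) PT.id.snd)

end Crest.Agent.R304
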