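import Crest.Agent.R304.DetMath

/-! Row 304: the regret bound of the Laplace estimator. -/

set_option autoImplicit false

namespace Crest.Agent.R304

open Finset Crest.Matchings

variable {n : ℕ}

/-- the number of `i < t` such that `M i` contains the pair `u v` -/
def cntM (M : ℕ → PM n) (t : ℕ) (u v : Fin n) : ℕ := ((range t).filter fun i => M i u = v).card

theorem detlower_cnt_le (M : ℕ → PM n) (t : ℕ) (u v : Fin n) : cntM M t u v ≤ t :=
  (card_filter_le _ _).trans (card_range t).le

theorem detlower_cnt_succ (M : ℕ → PM n) (t : ℕ) (u v : Fin n) :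
    cntM M (t + 1) u v = cntM M t u v + if M t u = v then 1 else 0 := by
  simp only [cntM, card_filter, sum_range_succ]

theorem detlower_sum (S : PM n) (f : Fin n → Fin n → ℝ) :
    ∑ v ∈ univ.filter (fun v => v < S v), f v (S v) =
      ∑ q ∈ ltPairs n, if S q.1 = q.2 then f q.1 q.2 else 0 := by
  rw [ltPairs, sum_filter, sum_filter, Fintype.sum_prod_type]
  refine sum_congr rfl fun v _ => ?_
  rw [sum_eq_single (S v)]
  · simp
  · intro u _ hu
    simp [Ne.symm hu]
  · simp

theorem detlower_step {a c t : ℕ} (ha : 0 < a) (hc : c ≤ t) (ht : t < n) :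
    (Nat.log 2 (a * (t + n) / (c + 1)) : ℝ) * Real.log 2 ≤
      Real.log a + Real.log (2 * n) - Real.log ((c : ℝ) + 1) := by
  have h1 : a * (t + n) / (c + 1) ≠ 0 :=
    (Nat.div_pos (by nlinarith) (Nat.succ_pos c)).ne'
  have h2 : ((2 ^ Nat.log 2 (a * (t + n) / (c + 1)) : ℕ) : ℝ) ≤ ((a * (t + n) / (c + 1) : ℕ) : ℝ) := by
    exact_mod_cast Nat.pow_log_le_self 2 h1
  have h3 := h2.trans Nat.cast_div_le
  push_cast at h3
  have ha' : (0 : ℝ) < a := by exact_mod_cast ha
  have ht' : (t : ℝ) < n := by exact_mod_cast ht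
  have ht0 : (0 : ℝ) ≤ t := Nat.cast_nonneg t
  have hn : (0 : ℝ) < 2 * n := by linarith
  rw [← Real.log_pow, ← Real.log_mul ha'.ne' hn.ne', ← Real.log_div (by positivity) (by positivity)]
  refine Real.log_le_log (by positivity) (h3.trans ?_)
  gcongr
  linarith

theorem detlower_tele (M : ℕ → PM n) (u v : Fin n) (A : ℝ) (T : ℕ) :
    (∑ t ∈ range T, if M t u = v then (A - Real.log ((cntM M t u v : ℝ) + 1)) else 0) =
      cntM M T u v * A - Real.log ((cntM M T u v).factorial) := by
  induction T with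
  | zero => simp [cntM]
  | succ T ih =>
    rw [sum_range_succ, ih, detlower_cnt_succ]
    split_ifs
    · rw [Nat.factorial_succ]
      push_cast
      rw [Real.log_mul (by positivity) (by positivity)]
      ring
    · simp

theorem detlower_pt (c : ℕ) {x : ℝ} (hx : 0 < x) (L : ℝ) :
    (c : ℝ) * (L + Real.log (2 * x)) - Real.log (c.factorial) ≤
      x * (Real.negMulLog (c / x) + c / x * L) + (1 + Real.log 2) * c := by
  rcases Nat.eq_zero_or_pos c with rfl | hc
  · simp
  have hc' : (0 : ℝ) < c := by exact_mod_cast hc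
  have h1 := Real.log_le_log (by positivity) (Real.pow_div_factorial_le_exp (c : ℝ) hc'.le c)
  rw [Real.log_exp, Real.log_div (by positivity) (by positivity), Real.log_pow] at h1
  rw [Real.negMulLog, Real.log_div hc'.ne' hx.ne', Real.log_mul (by norm_num) hx.ne']
  have e : x * (-(c / x) * (Real.log c - Real.log x) + c / x * L) =
      -c * (Real.log c - Real.log x) + c * L := by field_simp
  rw [e]
  linarith

/-- Let `m = n / 2`, `c e = cntM M n e`, `x e = c e / n`.  `∏ t < n, 2 ^ V t ≤ ∏ t < n, ∏ e ∈ M t, w e (t + n) / (cntM M t e + 1) ≤ (2 n) ^ (m n) ∏ e, w e ^ c e / (c e)!`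
(induction on the number of rounds), `log c! ≥ c log c - c`, `∑ c e = m n`; so the average of `V t log 2` is at most
`∑ (negMulLog x + x log w) + m (1 + log 2) ≤ log N + n + m (1 + log 2) ≤ log N + 3 n log 2` by `gibbs_lower` for the empirical law. -/
theorem det_lower (hn : 0 < n) {w : Fin n → Fin n → ℕ} (M : ℕ → PM n) (hM : ∀ t < n, ∀ v, 0 < w v (M t v)) :
    ∃ t < n, 2 ^ (∑ v ∈ univ.filter (fun v => v < M t v),
        Nat.log 2 (w v (M t v) * (t + n) / (cntM M t v (M t v) + 1))) ≤
      (∑ S : PM n, wt w S) * 2 ^ (3 * n) := by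
  have hn' : (0 : ℝ) < n := by exact_mod_cast hn
  set V : ℕ → ℕ := fun t => ∑ v ∈ univ.filter (fun v => v < M t v),
    Nat.log 2 (w v (M t v) * (t + n) / (cntM M t v (M t v) + 1)) with hV
  set N : ℕ := ∑ S : PM n, wt w S with hN
  have hNpos : 0 < N := by
    refine lt_of_lt_of_le ?_ (single_le_sum (f := fun S : PM n => wt w S)
      (fun _ _ => Nat.zero_le _) (mem_univ (M 0)))
    exact prod_pos fun v _ => hM 0 hn v
  have h1 : ∀ t ∈ range n, (V t : ℝ) * Real.log 2 ≤ ∑ q ∈ ltPairs n,
      if M t q.1 = q.2 then (Real.log (w q.1 q.2) + Real.log (2 * n) -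
        Real.log ((cntM M t q.1 q.2 : ℝ) + 1)) else 0 := by
    intro t ht
    have ht' := mem_range.1 ht
    rw [← detlower_sum (M t) (fun u v => Real.log (w u v) + Real.log (2 * n) -
      Real.log ((cntM M t u v : ℝ) + 1)), hV]
    push_cast
    rw [sum_mul]
    exact sum_le_sum fun v _ => detlower_step (hM t ht' v) (detlower_cnt_le M t _ _) ht'
  have h2 := sum_le_sum h1
  rw [sum_comm] at h2
  simp only [detlower_tele] at h2
  -- the empirical law
  set p : PM n → ℝ := fun S => ∑ t ∈ range n, if M t = S then (1 / n : ℝ) else 0 with hp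
  have hmarg : ∀ q : Fin n × Fin n, ∑ S ∈ univ.filter (fun S : PM n => S q.1 = q.2), p S =
      cntM M n q.1 q.2 / n := fun q => by
    rw [hp, sum_comm]
    simp only [sum_ite_eq, mem_filter, mem_univ, true_and]
    rw [← sum_filter, sum_const, nsmul_eq_mul, cntM, mul_one_div]
  have h3 := gibbs_lower hn (w := w) (p := p)
    (fun S => sum_nonneg fun t _ => by split_ifs <;> positivity)
    (by
      rw [hp, sum_comm]
      simp only [sum_ite_eq, mem_univ, if_true, sum_const, card_range, nsmul_eq_mul]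
      field_simp)
    (fun S hS => by
      obtain ⟨t, ht, h⟩ := exists_ne_zero_of_sum_ne_zero hS
      have : M t = S := by
        by_contra hc
        exact h (if_neg hc)
      exact this ▸ hM t (mem_range.1 ht))
  simp only [hmarg] at h3
  have h4 : ∑ q ∈ ltPairs n, (cntM M n q.1 q.2 : ℝ) = n * (n / 2) := by
    have e1 : ∀ q : Fin n × Fin n, (cntM M n q.1 q.2 : ℝ) =
        ∑ t ∈ range n, if M t q.1 = q.2 then (1 : ℝ) else 0 := fun q => by simp [cntM]
    simp only [e1]
    rw [sum_comm, sum_congr rfl (g := fun _ => (n : ℝ) / 2) fun t _ => ?_]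
    · simp
    · rw [← detlower_sum (M t) (fun _ _ => (1 : ℝ))]
      have : (2 : ℝ) * ((univ.filter fun v => v < M t v).card : ℕ) = n := by
        exact_mod_cast card_low (M t)
      simp only [sum_const, nsmul_eq_mul, mul_one]
      linarith
  have h5 : ∑ q ∈ ltPairs n, ((cntM M n q.1 q.2 : ℝ) * (Real.log (w q.1 q.2) + Real.log (2 * n)) -
      Real.log ((cntM M n q.1 q.2).factorial)) ≤
      ∑ q ∈ ltPairs n, (n * (Real.negMulLog (cntM M n q.1 q.2 / n) +
        cntM M n q.1 q.2 / n * Real.log (w q.1 q.2)) + (1 + Real.log 2) * cntM M n q.1 q.2) :=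
    sum_le_sum fun q _ => detlower_pt _ hn' _
  rw [sum_add_distrib, ← mul_sum, ← mul_sum, h4] at h5
  have hl2 := Real.log_two_gt_d9
  have h6 : ∑ t ∈ range n, (V t : ℝ) * Real.log 2 ≤
      ∑ _t ∈ range n, (Real.log N + 3 * n * Real.log 2) := by
    rw [sum_const, card_range, nsmul_eq_mul]
    refine h2.trans (h5.trans ?_)
    have h7 := mul_le_mul_of_nonneg_left h3 hn'.le
    have h8 : 0 ≤ (n : ℝ) * n * (5 / 2 * Real.log 2 - 3 / 2) :=
      mul_nonneg (by positivity) (by linarith)
    nlinarith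
  obtain ⟨t, ht, h7⟩ := exists_le_of_sum_le ⟨0, mem_range.2 hn⟩ h6
  refine ⟨t, mem_range.1 ht, ?_⟩
  have h8 : (2 : ℝ) ^ V t ≤ N * 2 ^ (3 * n) := by
    have hN' : (0 : ℝ) < N := by exact_mod_cast hNpos
    rw [← Real.log_le_log_iff (by positivity) (by positivity),
      Real.log_mul hN'.ne' (by positivity), Real.log_pow, Real.log_pow]
    push_cast
    exact h7
  exact_mod_cast h8

end Crest.Agent.R304
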