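import Crest.Agent.R304.Poly

/-! Row 304: uncrossing tight odd cuts. -/

set_option autoImplicit false

namespace Crest.Agent.R304

open Finset

variable {V E : Type} [DecidableEq V] [Fintype E] [DecidableEq E]

/-- any two members are nested or disjoint -/
def Laminar (L : Finset (Finset V)) : Prop := ∀ S ∈ L, ∀ T ∈ L, S ⊆ T ∨ T ⊆ S ∨ Disjoint S T

/-- Induction on `|W|`.  If all members are singletons, `|L| ≤ |W|`.  Otherwise take a minimal member `T`
with `|T| ≥ 3` and `u ≠ v` in `T`; every member that is not a singleton contains `T` or is disjoint from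
it, so `R ↦ R \ {u, v}` maps `L \ {{u}, {v}, T}` injectively to a laminar family of odd subsets of
`W \ {u, v}` (nonempty). -/
theorem Laminar.card_le {L : Finset (Finset V)} (h : Laminar L) {W : Finset V} (hW : W.Nonempty)
    (hL : ∀ S ∈ L, S ⊆ W ∧ Odd S.card) : 2 * L.card + 1 ≤ 3 * W.card := by
  induction hn : W.card using Nat.strong_induction_on generalizing W L with
  | _ n ih =>
  subst hn
  by_cases h1 : ∀ S ∈ L, S.card = 1
  · have h2 : L ⊆ W.image fun v => ({v} : Finset V) := fun S hS => by
      obtain ⟨v, rfl⟩ := card_eq_one.1 (h1 S hS)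
      exact mem_image.2 ⟨v, (hL _ hS).1 (mem_singleton_self v), rfl⟩
    have h3 := (card_le_card h2).trans card_image_le
    have h4 := hW.card_pos
    omega
  push Not at h1
  obtain ⟨T, hT, hmin⟩ := exists_min_image (L.filter fun S => S.card ≠ 1) card
    (let ⟨S, hS, hS'⟩ := h1; ⟨S, mem_filter.2 ⟨hS, hS'⟩⟩)
  obtain ⟨hTL, hT1⟩ := mem_filter.1 hT
  have hT3 : 2 < T.card := by obtain ⟨k, hk⟩ := (hL T hTL).2; omega
  obtain ⟨u, v, w, hu, hv, hw, huv, huw, hvw⟩ := two_lt_card_iff.1 hT3
  have hbig : ∀ R ∈ L, R.card ≠ 1 → ∀ y ∈ T, y ∈ R → T ⊆ R := by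
    intro R hR hR1 y hyT hyR
    rcases h R hR T hTL with h2 | h2 | h2
    · rw [eq_of_subset_of_card_le h2 (hmin R (mem_filter.2 ⟨hR, hR1⟩))]
    · exact h2
    · exact absurd hyT (disjoint_left.1 h2 hyR)
  set L' := ((L.erase {u}).erase {v}).erase T with hL'
  have hmem : ∀ R ∈ L', R ∈ L ∧ R ≠ T ∧ (T ⊆ R ∨ (u ∉ R ∧ v ∉ R)) := by
    intro R hR
    simp only [hL', mem_erase] at hR
    obtain ⟨a1, a2, a3, a4⟩ := hR
    refine ⟨a4, a1, ?_⟩
    by_cases hR1 : R.card = 1
    · obtain ⟨y, rfl⟩ := card_eq_one.1 hR1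
      right
      simp only [mem_singleton]
      exact ⟨fun h => a3 (by rw [h]), fun h => a2 (by rw [h])⟩
    · by_cases hu' : u ∈ R
      · exact Or.inl (hbig R a4 hR1 u hu hu')
      · by_cases hv' : v ∈ R
        · exact Or.inl (hbig R a4 hR1 v hv hv')
        · exact Or.inr ⟨hu', hv'⟩
  have hc : ∀ R : Finset V, u ∈ R → v ∈ R → (R \ {u, v}).card + 2 = R.card := by
    intro R a1 a2
    rw [← card_pair huv, card_sdiff_add_card_eq_card]
    intro y hy
    rcases mem_insert.1 hy with rfl | hy
    · exact a1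
    · rw [mem_singleton.1 hy]; exact a2
  have he : ∀ R : Finset V, u ∉ R → v ∉ R → R \ {u, v} = R := by
    intro R a1 a2
    ext y
    simp only [mem_sdiff, mem_insert, mem_singleton, and_iff_left_iff_imp]
    rintro hy (rfl | rfl)
    · exact a1 hy
    · exact a2 hy
  have hmix : ∀ R ∈ L', ∀ R' ∈ L', T ⊆ R → u ∉ R' → v ∉ R' → R \ {u, v} ≠ R' \ {u, v} := by
    intro R hR R' hR' a1 a2 a3 a4
    rw [he R' a2 a3] at a4
    have b1 := hc R (a1 hu) (a1 hv)
    have b2 : T.card < R.card := card_lt_card (a1.ssubset_of_ne (hmem R hR).2.1.symm)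
    rw [a4] at b1
    refine a2 (hbig R' (hmem R' hR').1 (by omega) w hw ?_ hu)
    rw [← a4]
    simp only [mem_sdiff, mem_insert, mem_singleton]
    exact ⟨a1 hw, fun h => h.elim (fun h => huw h.symm) (fun h => hvw h.symm)⟩
  have hinj : Set.InjOn (fun R => R \ {u, v}) (L' : Set (Finset V)) := by
    intro R hR R' hR' hRR
    simp only at hRR
    rcases (hmem R hR).2.2 with a | a <;> rcases (hmem R' hR').2.2 with b | b
    · ext y
      have := congrArg (y ∈ ·) hRR
      simp only [mem_sdiff, mem_insert, mem_singleton, eq_iff_iff] at this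
      by_cases hy : y = u ∨ y = v
      · rcases hy with rfl | rfl
        · exact iff_of_true (a hu) (b hu)
        · exact iff_of_true (a hv) (b hv)
      · tauto
    · exact absurd hRR (hmix R hR R' hR' a b.1 b.2)
    · exact absurd hRR.symm (hmix R' hR' R hR b a.1 a.2)
    · rwa [he R a.1 a.2, he R' b.1 b.2] at hRR
  have hWc := hc W ((hL T hTL).1 hu) ((hL T hTL).1 hv)
  have key := ih _ (by omega) (L := L'.image fun R => R \ {u, v}) (W := W \ {u, v}) ?_ ?_ ?_ rfl
  · rw [card_image_of_injOn hinj] at key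
    have c1 := pred_card_le_card_erase (s := L) (a := {u})
    have c2 := pred_card_le_card_erase (s := L.erase {u}) (a := {v})
    have c3 := pred_card_le_card_erase (s := (L.erase {u}).erase {v}) (a := T)
    rw [← hL'] at c3
    omega
  · intro S hS S' hS'
    obtain ⟨R, hR, rfl⟩ := mem_image.1 hS
    obtain ⟨R', hR', rfl⟩ := mem_image.1 hS'
    rcases h R (hmem R hR).1 R' (hmem R' hR').1 with a | a | a
    · exact Or.inl (sdiff_subset_sdiff a Subset.rfl)
    · exact Or.inr (Or.inl (sdiff_subset_sdiff a Subset.rfl))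
    · exact Or.inr (Or.inr (a.mono sdiff_subset sdiff_subset))
  · refine ⟨w, ?_⟩
    simp only [mem_sdiff, mem_insert, mem_singleton]
    exact ⟨(hL T hTL).1 hw, fun h => h.elim (fun h => huw h.symm) (fun h => hvw h.symm)⟩
  · intro S hS
    obtain ⟨R, hR, rfl⟩ := mem_image.1 hS
    refine ⟨sdiff_subset_sdiff (hL R (hmem R hR).1).1 Subset.rfl, ?_⟩
    have ho := (hL R (hmem R hR).1).2
    rcases (hmem R hR).2.2 with a | a
    · have := hc R (a hu) (a hv)
      rw [Nat.odd_iff] at ho ⊢
      omega
    · rwa [he R a.1 a.2]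

/-- indicator of a cut -/
def laminar_ind (ends : E → V × V) (S : Finset V) (e : E) : ℝ := if e ∈ cut ends S then 1 else 0

theorem laminar_sum (ends : E → V × V) (S : Finset V) (x : E → ℝ) :
    ∑ e ∈ cut ends S, x e = ∑ e, laminar_ind ends S e * x e := by
  simp [laminar_ind]

theorem laminar_cutVec (ends : E → V × V) (S : Finset V) (x : E → ℝ) (e : E) :
    cutVec ends x S e = if 0 < x e then laminar_ind ends S e else 0 := by
  unfold cutVec laminar_ind
  by_cases h1 : e ∈ cut ends S <;> by_cases h2 : 0 < x e <;> simp [h1, h2]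

theorem laminar_uncross {ends : E → V × V} {U : Finset V} {x : E → ℝ} (h : InQ ends U x)
    {S T A B : Finset V} (hS : S ∈ Tight ends U x) (hT : T ∈ Tight ends U x) (hA : A ⊆ U)
    (hB : B ⊆ U) (hA' : Odd A.card) (hB' : Odd B.card)
    (hle : ∀ e, laminar_ind ends A e + laminar_ind ends B e ≤
      laminar_ind ends S e + laminar_ind ends T e) :
    A ∈ Tight ends U x ∧ B ∈ Tight ends U x ∧
      cutVec ends x S = cutVec ends x A + cutVec ends x B - cutVec ends x T := by
  have a1 := h.odd A hA hA'
  have a2 := h.odd B hB hB'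
  have a3 := hS.2.2
  have a4 := hT.2.2
  have hnn : ∀ e ∈ (univ : Finset E), 0 ≤ (laminar_ind ends S e + laminar_ind ends T e -
      (laminar_ind ends A e + laminar_ind ends B e)) * x e :=
    fun e _ => mul_nonneg (sub_nonneg.2 (hle e)) (h.nonneg e)
  have hs : ∑ e, (laminar_ind ends S e + laminar_ind ends T e -
      (laminar_ind ends A e + laminar_ind ends B e)) * x e =
      2 - (∑ e ∈ cut ends A, x e + ∑ e ∈ cut ends B, x e) := by
    simp only [sub_mul, add_mul, sum_sub_distrib, sum_add_distrib, ← laminar_sum, a3, a4]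
    norm_num
  have h0 := sum_nonneg hnn
  refine ⟨⟨hA, hA', by linarith⟩, ⟨hB, hB', by linarith⟩, funext fun e => ?_⟩
  have h1 := (sum_eq_zero_iff_of_nonneg hnn).1 (by linarith) e (mem_univ e)
  simp only [Pi.sub_apply, Pi.add_apply, laminar_cutVec]
  split_ifs with hx
  · have := (mul_eq_zero.1 h1).resolve_right hx.ne'
    linarith
  · simp

theorem laminar_ind_inter (ends : E → V × V) (S T : Finset V) (e : E) :
    laminar_ind ends (S ∩ T) e + laminar_ind ends (S ∪ T) e ≤
      laminar_ind ends S e + laminar_ind ends T e := by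
  simp only [laminar_ind, cut, mem_filter, mem_univ, true_and, mem_inter, mem_union]
  by_cases h1 : (ends e).1 ∈ S <;> by_cases h2 : (ends e).2 ∈ S <;>
    by_cases h3 : (ends e).1 ∈ T <;> by_cases h4 : (ends e).2 ∈ T <;> simp [h1, h2, h3, h4]

theorem laminar_ind_sdiff (ends : E → V × V) (S T : Finset V) (e : E) :
    laminar_ind ends (S \ T) e + laminar_ind ends (T \ S) e ≤
      laminar_ind ends S e + laminar_ind ends T e := by
  simp only [laminar_ind, cut, mem_filter, mem_univ, true_and, mem_sdiff]
  by_cases h1 : (ends e).1 ∈ S <;> by_cases h2 : (ends e).2 ∈ S <;>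
    by_cases h3 : (ends e).1 ∈ T <;> by_cases h4 : (ends e).2 ∈ T <;> simp [h1, h2, h3, h4]

/-- nested or disjoint -/
def laminar_nd (S T : Finset V) : Prop := S ⊆ T ∨ T ⊆ S ∨ Disjoint S T

theorem laminar_nd_four {S T R : Finset V} (hST : ¬ laminar_nd S T) (hRT : laminar_nd R T)
    (hSR : laminar_nd S R) : laminar_nd (S ∩ T) R ∧ laminar_nd (S ∪ T) R ∧
      laminar_nd (S \ T) R ∧ laminar_nd (T \ S) R := by
  simp only [laminar_nd, subset_iff, disjoint_left, mem_inter, mem_union, mem_sdiff] at *
  rcases hRT with a | a | a <;> rcases hSR with b | b | b <;> grind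

theorem laminar_span {ends : E → V × V} {U W : Finset V} {x : E → ℝ} (h : InQ ends U x)
    (hWU : W ⊆ U) {L : Finset (Finset V)} (hL : Laminar L)
    (hLT : ∀ T ∈ L, T ⊆ W ∧ T ∈ Tight ends U x)
    (hmax : ∀ S, S ⊆ W → S ∈ Tight ends U x → (∀ T ∈ L, laminar_nd S T) → S ∈ L)
    (P : Submodule ℝ (E → ℝ)) (hP : ∀ T ∈ L, cutVec ends x T ∈ P) (S : Finset V) (hSW : S ⊆ W)
    (hS : S ∈ Tight ends U x) : cutVec ends x S ∈ P := by
  classical
  induction hn : (L.filter fun T => ¬ laminar_nd S T).card using Nat.strong_induction_on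
    generalizing S with
  | _ n ih =>
  subst hn
  by_cases h1 : ∀ T ∈ L, laminar_nd S T
  · exact hP S (hmax S hSW hS h1)
  push Not at h1
  obtain ⟨T, hT, hST⟩ := h1
  obtain ⟨hTW, hTt⟩ := hLT T hT
  have hlt : ∀ A, A ⊆ W → A ∈ Tight ends U x → laminar_nd A T →
      (∀ R ∈ L, laminar_nd S R → laminar_nd A R) → cutVec ends x A ∈ P := by
    intro A a1 a2 a3 a4
    refine ih _ (card_lt_card ⟨fun R hR => ?_, fun hc => ?_⟩) A a1 a2 rfl
    · rw [mem_filter] at hR ⊢
      exact ⟨hR.1, fun h => hR.2 (a4 R hR.1 h)⟩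
    · exact (mem_filter.1 (hc (mem_filter.2 ⟨hT, hST⟩))).2 a3
  have h4 := fun R hR h => laminar_nd_four (R := R) hST (hL R hR T hT) h
  have o1 := hS.2.1
  have o2 := hTt.2.1
  have c1 := card_union_add_card_inter S T
  have c2 := card_sdiff_add_card_inter S T
  have c3 := card_sdiff_add_card_inter T S
  rw [inter_comm T S] at c3
  by_cases ho : Odd (S ∩ T).card
  · obtain ⟨a1, a2, a3⟩ := laminar_uncross h hS hTt ((inter_subset_left.trans hSW).trans hWU)
      ((union_subset hSW hTW).trans hWU) ho (by rw [Nat.odd_iff] at *; omega)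
      (laminar_ind_inter ends S T)
    rw [a3]
    exact P.sub_mem (P.add_mem
      (hlt _ (inter_subset_left.trans hSW) a1 (Or.inl inter_subset_right)
        fun R hR h => (h4 R hR h).1)
      (hlt _ (union_subset hSW hTW) a2 (Or.inr (Or.inl subset_union_right))
        fun R hR h => (h4 R hR h).2.1)) (hP T hT)
  · obtain ⟨a1, a2, a3⟩ := laminar_uncross h hS hTt ((sdiff_subset.trans hSW).trans hWU)
      ((sdiff_subset.trans hTW).trans hWU) (by rw [Nat.odd_iff] at *; omega)
      (by rw [Nat.odd_iff] at *; omega) (laminar_ind_sdiff ends S T)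
    rw [a3]
    exact P.sub_mem (P.add_mem
      (hlt _ (sdiff_subset.trans hSW) a1 (Or.inr (Or.inr sdiff_disjoint))
        fun R hR h => (h4 R hR h).2.2.1)
      (hlt _ (sdiff_subset.trans hTW) a2 (Or.inl sdiff_subset)
        fun R hR h => (h4 R hR h).2.2.2)) (hP T hT)

/-- Fix `r ∈ U`.  `|U|` is even (`InQ.odd` for `U`), and `cutVec (U \ S) = cutVec S`, so only tight sets
avoiding `r` matter.  Let `L` be a laminar family of tight subsets of `U.erase r` of maximal size.  Claim: all
tight `S ⊆ U.erase r` have `cutVec S` in the span of `cutVec '' L`.  Otherwise take a counterexample `S`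
crossing (neither nested nor disjoint) the fewest members of `L`; it crosses some `T ∈ L` by maximality.
If `|S ∩ T|` is odd then `S ∩ T`, `S ∪ T` are odd and edgewise
`1_cut(S ∩ T) + 1_cut(S ∪ T) ≤ 1_cut S + 1_cut T`; otherwise `S \ T`, `T \ S` are odd with the same
inequality.  Summing against `x` shows that both new sets are tight and that equality holds on the support,
so one of the two new sets is a counterexample, and it crosses fewer members of `L` (a member crossing it
crosses `S`, and `T` does not cross it).  Finish with `Laminar.card_le` for `W = U.erase r` and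
`finrank_span_finset_le_card`. -/
theorem InQ.rank_tight {ends : E → V × V} {U : Finset V} {x : E → ℝ} (h : InQ ends U x)
    (hU : U.Nonempty) :
    2 * Module.finrank ℝ (Submodule.span ℝ (cutVec ends x '' Tight ends U x)) + 4 ≤ 3 * U.card := by
  classical
  obtain ⟨r, hr⟩ := hU
  have hev : ¬ Odd U.card := by
    intro ho
    have h1 := h.odd U Subset.rfl ho
    rw [sum_eq_zero] at h1
    · norm_num at h1
    · intro e he
      by_contra h0
      have := h.supp e h0
      simp [cut, this.1, this.2.1] at he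
  have hcard := card_erase_add_one hr
  obtain ⟨L, hL, hmax⟩ := exists_max_image ((U.erase r).powerset.powerset.filter
    fun L => Laminar L ∧ ∀ T ∈ L, T ∈ Tight ends U x) card
    ⟨∅, mem_filter.2 ⟨by simp, by simp [Laminar], by simp⟩⟩
  obtain ⟨hL1, hL2, hL3⟩ := mem_filter.1 hL
  have hL4 : ∀ T ∈ L, T ⊆ U.erase r := fun T hT => mem_powerset.1 (mem_powerset.1 hL1 hT)
  have hc := hL2.card_le (W := U.erase r) (card_pos.1 (by rw [Nat.odd_iff] at hev; omega))
    fun T hT => ⟨hL4 T hT, (hL3 T hT).2.1⟩
  have key := laminar_span h (erase_subset r U) hL2 (fun T hT => ⟨hL4 T hT, hL3 T hT⟩)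
    (fun S a1 a2 a3 => by
      by_contra hS
      have := hmax (insert S L) (mem_filter.2 ⟨?_, ?_, ?_⟩)
      · rw [card_insert_of_notMem hS] at this
        omega
      · exact mem_powerset.2 (insert_subset (mem_powerset.2 a1) (mem_powerset.1 hL1))
      · intro A hA B hB
        rcases mem_insert.1 hA with rfl | hA' <;> rcases mem_insert.1 hB with rfl | hB'
        · exact Or.inl Subset.rfl
        · exact a3 B hB'
        · rcases a3 A hA' with a | a | a
          · exact Or.inr (Or.inl a)
          · exact Or.inl a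
          · exact Or.inr (Or.inr a.symm)
        · exact hL2 A hA' B hB'
      · intro T hT
        rcases mem_insert.1 hT with rfl | hT'
        · exact a2
        · exact hL3 T hT')
    (Submodule.span ℝ (L.image (cutVec ends x) : Set (E → ℝ)))
    (fun T hT => Submodule.subset_span (mem_coe.2 (mem_image_of_mem _ hT)))
  have hle : Submodule.span ℝ (cutVec ends x '' Tight ends U x) ≤
      Submodule.span ℝ (L.image (cutVec ends x) : Set (E → ℝ)) := by
    rw [Submodule.span_le]
    rintro _ ⟨S, hS, rfl⟩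
    by_cases hrS : r ∈ S
    · have hcut : ∀ e, x e ≠ 0 → laminar_ind ends (U \ S) e = laminar_ind ends S e := by
        intro e he
        obtain ⟨a1, a2, -⟩ := h.supp e he
        simp only [laminar_ind, cut, mem_filter, mem_univ, true_and, mem_sdiff, a1, a2, not_iff_not]
      have hv : cutVec ends x S = cutVec ends x (U \ S) := by
        funext e
        rw [laminar_cutVec, laminar_cutVec]
        split_ifs with hx
        · exact (hcut e hx.ne').symm
        · rfl
      rw [hv]
      refine key _ (fun y hy => mem_erase.2 ⟨fun hyr => (mem_sdiff.1 hy).2 (hyr ▸ hrS),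
        (mem_sdiff.1 hy).1⟩) ⟨sdiff_subset, ?_, ?_⟩
      · have c := card_sdiff_add_card_eq_card hS.1
        have o := hS.2.1
        rw [Nat.odd_iff] at *
        omega
      · rw [← hS.2.2, laminar_sum, laminar_sum]
        refine sum_congr rfl fun e _ => ?_
        by_cases he : x e = 0
        · simp [he]
        · rw [hcut e he]
    · exact key S (fun y hy => mem_erase.2 ⟨fun hyr => hrS (hyr ▸ hy), hS.1 hy⟩) hS
  have h1 := Submodule.finrank_mono hle
  have h2 := finrank_span_finset_le_card (R := ℝ) (L.image (cutVec ends x))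
  have h3 : (L.image (cutVec ends x)).card ≤ L.card := card_image_le
  unfold Set.finrank at h2
  omega

end Crest.Agent.R304
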