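import Crest.Agent.R304.Edmonds
import Crest.Agent.R304.Laminar
import Crest.Prelude.Def_MatchingPolytope

/-! Row 304: the dimension of the faces of the perfect matching polytope. -/

set_option autoImplicit false

namespace Crest.Agent.R304

open Finset Crest.Matchings

section aux

variable {V E : Type} [DecidableEq V] [Fintype E] [DecidableEq E]

omit [DecidableEq E] in
lemma face_mem_cut {ends : E → V × V} {S : Finset V} {e : E} :
    e ∈ cut ends S ↔ ¬ ((ends e).1 ∈ S ↔ (ends e).2 ∈ S) := by
  simp only [cut, mem_filter, mem_univ, true_and]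

omit [DecidableEq E] in
lemma face_mem_cut_single {ends : E → V × V} {e : E} (he : (ends e).1 ≠ (ends e).2) {w : V} :
    e ∈ cut ends {w} ↔ (ends e).1 = w ∨ (ends e).2 = w := by
  rw [face_mem_cut, mem_singleton, mem_singleton]
  by_cases h1 : (ends e).1 = w <;> by_cases h2 : (ends e).2 = w
  · exact absurd (h1.trans h2.symm) he
  all_goals simp [h1, h2]

omit [DecidableEq E] in
lemma face_mem_frac {x : E → ℝ} {e : E} : e ∈ frac x ↔ 0 < x e ∧ x e < 1 := by
  simp only [frac, mem_filter, mem_univ, true_and]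

omit [DecidableEq E] in
/-- double counting -/
lemma face_card {ends : E → V × V} {U : Finset V} {x : E → ℝ} (h : InQ ends U x) :
    2 * ∑ e, x e = U.card := by
  classical
  have h1 : (U.card : ℝ) = ∑ w ∈ U, ∑ e, if e ∈ cut ends {w} then x e else 0 := by
    rw [card_eq_sum_ones, Nat.cast_sum]
    refine sum_congr rfl fun w hw => ?_
    rw [sum_ite_mem, univ_inter, h.deg w hw, Nat.cast_one]
  rw [h1, sum_comm, mul_sum]
  refine sum_congr rfl fun e _ => ?_
  by_cases hx : x e = 0
  · simp [hx]
  obtain ⟨ha, hb, hab⟩ := h.supp e hx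
  rw [← sum_filter]
  have : U.filter (fun w => e ∈ cut ends {w}) = {(ends e).1, (ends e).2} := by
    ext w
    rw [mem_filter, face_mem_cut_single hab, mem_insert, mem_singleton]
    constructor
    · rintro ⟨-, h | h⟩
      · exact Or.inl h.symm
      · exact Or.inr h.symm
    · rintro (rfl | rfl)
      · exact ⟨ha, Or.inl rfl⟩
      · exact ⟨hb, Or.inr rfl⟩
  rw [this, sum_pair hab]; ring

omit [Fintype E] in
/-- two coordinates in a set of total weight one -/
lemma face_pair {x : E → ℝ} (h0 : ∀ e, 0 ≤ x e) {C : Finset E} (hC : ∑ e ∈ C, x e = 1) {e e' : E}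
    (he : e ∈ C) (he' : e' ∈ C) (hne : e ≠ e') : x e + x e' ≤ 1 := by
  rw [← hC, ← sum_pair hne]
  refine sum_le_sum_of_subset_of_nonneg ?_ fun i _ _ => h0 i
  intro i hi
  rw [mem_insert, mem_singleton] at hi
  rcases hi with rfl | rfl
  exacts [he, he']

omit [DecidableEq E] in
lemma face_le_one {ends : E → V × V} {U : Finset V} {x : E → ℝ} (h : InQ ends U x) (e : E) :
    x e ≤ 1 := by
  by_cases hx : x e = 0
  · rw [hx]; exact zero_le_one
  obtain ⟨ha, -, hab⟩ := h.supp e hx
  rw [← h.deg _ ha]
  exact single_le_sum (fun i _ => h.nonneg i) ((face_mem_cut_single hab).mpr (Or.inl rfl))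

omit [DecidableEq E] in
lemma face_not_frac {ends : E → V × V} {U : Finset V} {x : E → ℝ} (h : InQ ends U x) {e : E}
    (he : e ∉ frac x) : x e = 0 ∨ x e = 1 := by
  rw [face_mem_frac, not_and_or, not_lt, not_lt] at he
  rcases he with he | he
  · exact Or.inl (le_antisymm he (h.nonneg e))
  · exact Or.inr (le_antisymm (face_le_one h e) he)

/-- the space of vectors vanishing outside `F` and orthogonal to `s` -/
lemma face_dim (F : Finset E) (s : Set (E → ℝ)) (D : Submodule ℝ (E → ℝ))
    (hD : ∀ h : E → ℝ, (∀ e, e ∉ F → h e = 0) → (∀ c ∈ s, ∑ e, h e * c e = 0) → h ∈ D) :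
    F.card ≤ Module.finrank ℝ D + Module.finrank ℝ (Submodule.span ℝ s) := by
  set T := Submodule.span ℝ s
  let ψ : (E → ℝ) →ₗ[ℝ] ({e // e ∉ F} → ℝ) × Module.Dual ℝ T :=
    (LinearMap.funLeft ℝ ℝ (Subtype.val : {e // e ∉ F} → E)).prod
      (T.dualRestrict ∘ₗ dotProductBilin ℝ ℝ)
  have h1 := ψ.finrank_range_add_finrank_ker
  have h2 : Module.finrank ℝ (LinearMap.range ψ)
      ≤ Fintype.card {e // e ∉ F} + Module.finrank ℝ T := by
    refine (Submodule.finrank_le _).trans (le_of_eq ?_)
    rw [Module.finrank_prod, Module.finrank_fintype_fun_eq_card, Subspace.dual_finrank_eq]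
  have h3 : Module.finrank ℝ (LinearMap.ker ψ) ≤ Module.finrank ℝ D := by
    refine Submodule.finrank_mono fun h hh => ?_
    rw [LinearMap.mem_ker, Prod.ext_iff] at hh
    refine hD h (fun e he => congrFun hh.1 ⟨e, he⟩) fun c hc => ?_
    exact LinearMap.congr_fun hh.2 ⟨c, Submodule.subset_span hc⟩
  rw [Module.finrank_fintype_fun_eq_card] at h1
  have h4 : Fintype.card {e // e ∉ F} = Fintype.card E - F.card := by
    rw [Fintype.card_subtype_compl, Fintype.card_coe]
  have h5 : F.card ≤ Fintype.card E := card_le_univ F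
  omega

/-- directions orthogonal to all tight cuts and supported on the fractional part are feasible -/
lemma face_feasible [Fintype V] {ends : E → V × V} (hends : ∀ e, (ends e).1 ≠ (ends e).2)
    {x : E → ℝ} (hx : InQ ends univ x) {h : E → ℝ} (h0 : ∀ e, e ∉ frac x → h e = 0)
    (ht : ∀ S ∈ Tight ends univ x, ∑ e ∈ cut ends S, h e = 0) :
    ∃ ε : ℝ, 0 < ε ∧ ∀ t : ℝ, |t| < ε → InQ ends univ (x + t • h) := by
  have hsum : ∀ (t : ℝ) (S : Finset V), ∑ e ∈ cut ends S, (x + t • h) e
      = ∑ e ∈ cut ends S, x e + t * ∑ e ∈ cut ends S, h e := by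
    intro t S
    simp only [Pi.add_apply, Pi.smul_apply, smul_eq_mul, sum_add_distrib, mul_sum]
  have hev : ∀ a b c : ℝ, c < a → ∀ᶠ t in nhds (0 : ℝ), c ≤ a + t * b := by
    intro a b c hc
    have hcont : Continuous fun t : ℝ => a + t * b := by fun_prop
    have := (hcont.tendsto 0).eventually (lt_mem_nhds (show c < a + 0 * b by simpa using hc))
    exact this.mono fun t ht => ht.le
  have h1 : ∀ᶠ t in nhds (0 : ℝ), ∀ e, 0 ≤ (x + t • h) e := by
    rw [Filter.eventually_all]
    intro e
    by_cases he : e ∈ frac x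
    · exact hev (x e) (h e) 0 (face_mem_frac.mp he).1
    · exact Filter.Eventually.of_forall fun t => by simpa [h0 e he] using hx.nonneg e
  have h2 : ∀ᶠ t in nhds (0 : ℝ), ∀ S : Finset V, Odd S.card →
      1 ≤ ∑ e ∈ cut ends S, (x + t • h) e := by
    rw [Filter.eventually_all]
    intro S
    by_cases hS : Odd S.card
    · rcases (hx.odd S (subset_univ S) hS).eq_or_lt with h3 | h3
      · refine Filter.Eventually.of_forall fun t _ => ?_
        rw [hsum, ht S ⟨subset_univ S, hS, h3.symm⟩, ← h3]; simp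
      · refine (hev _ (∑ e ∈ cut ends S, h e) 1 h3).mono fun t h4 _ => ?_
        rwa [hsum]
    · exact Filter.Eventually.of_forall fun t h4 => absurd h4 hS
  obtain ⟨ε, hε, h3⟩ := Metric.eventually_nhds_iff.mp (h1.and h2)
  refine ⟨ε, hε, fun t htε => ?_⟩
  have h4 := h3 (y := t) (by simpa using htε)
  refine ⟨h4.1, fun e _ => ⟨mem_univ _, mem_univ _, hends e⟩, fun w hw => ?_,
    fun S _ hS => h4.2 S hS⟩
  rw [hsum, ht {w} ⟨subset_univ _, by simp, hx.deg w hw⟩, hx.deg w hw]; simp

/-- the fractional part of a point satisfying Edmonds' constraints -/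
lemma face_frac [Fintype V] {ends : E → V × V} (hends : ∀ e, (ends e).1 ≠ (ends e).2)
    {x : E → ℝ} (hx : InQ ends univ x) :
    ∃ U : Finset V, (∀ e ∈ frac x, (ends e).1 ∈ U ∧ (ends e).2 ∈ U) ∧
      InQ ends U (fun e => if e ∈ frac x then x e else 0) ∧
      ∀ S ∈ Tight ends univ x, (∀ e ∈ cut ends S, e ∉ frac x) ∨
        S ∩ U ∈ Tight ends U (fun e => if e ∈ frac x then x e else 0) := by
  set U : Finset V := univ.filter fun w => ∃ e ∈ frac x, e ∈ cut ends {w} with hU
  have hmem : ∀ w, w ∈ U ↔ ∃ e ∈ frac x, e ∈ cut ends {w} := fun w => by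
    simp only [hU, mem_filter, mem_univ, true_and]
  have hin : ∀ e ∈ frac x, (ends e).1 ∈ U ∧ (ends e).2 ∈ U := fun e he =>
    ⟨(hmem _).mpr ⟨e, he, (face_mem_cut_single (hends e)).mpr (Or.inl rfl)⟩,
      (hmem _).mpr ⟨e, he, (face_mem_cut_single (hends e)).mpr (Or.inr rfl)⟩⟩
  -- an edge of weight one has no end in `U`
  have hone : ∀ e, x e = 1 → (ends e).1 ∉ U ∧ (ends e).2 ∉ U := by
    have key : ∀ e w, x e = 1 → e ∈ cut ends {w} → w ∉ U := by
      intro e w he hw hwU
      obtain ⟨e', he', hw'⟩ := (hmem w).mp hwU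
      obtain ⟨h1, h2⟩ := face_mem_frac.mp he'
      have hne : e ≠ e' := by rintro rfl; exact h2.ne he
      have := face_pair hx.nonneg (hx.deg w (mem_univ w)) hw hw' hne
      linarith
    exact fun e he => ⟨key e _ he ((face_mem_cut_single (hends e)).mpr (Or.inl rfl)),
      key e _ he ((face_mem_cut_single (hends e)).mpr (Or.inr rfl))⟩
  have hcut : ∀ S ⊆ U, ∑ e ∈ cut ends S, (if e ∈ frac x then x e else 0)
      = ∑ e ∈ cut ends S, x e := by
    intro S hS
    refine sum_congr rfl fun e he => ?_
    by_cases hf : e ∈ frac x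
    · rw [if_pos hf]
    rw [if_neg hf]
    rcases face_not_frac hx hf with h1 | h1
    · exact h1.symm
    · obtain ⟨h2, h3⟩ := hone e h1
      exact absurd (iff_of_false (fun h => h2 (hS h)) (fun h => h3 (hS h))) (face_mem_cut.mp he)
  refine ⟨U, hin, ⟨fun e => ?_, fun e he => ?_, fun w hw => ?_, fun S hS ho => ?_⟩, fun S hS => ?_⟩
  · split_ifs
    exacts [hx.nonneg e, le_rfl]
  · have hf : e ∈ frac x := by
      by_contra hf
      exact he (if_neg hf)
    exact ⟨(hin e hf).1, (hin e hf).2, hends e⟩
  · rw [hcut {w} (singleton_subset_iff.mpr hw), hx.deg w (mem_univ w)]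
  · rw [hcut S hS]; exact hx.odd S (subset_univ S) ho
  obtain ⟨-, ho, hS1⟩ := hS
  by_cases hc : ∃ e ∈ cut ends S, x e = 1
  · left
    obtain ⟨e₀, he₀, h1⟩ := hc
    intro e he hf
    obtain ⟨h2, h3⟩ := face_mem_frac.mp hf
    have hne : e₀ ≠ e := by rintro rfl; exact h3.ne h1
    have := face_pair hx.nonneg hS1 he₀ he hne
    linarith
  right
  have hc' : ∀ e, x e = 1 → ((ends e).1 ∈ S ↔ (ends e).2 ∈ S) := fun e he => by
    by_contra h
    exact hc ⟨e, face_mem_cut.mpr h, he⟩
  refine ⟨inter_subset_right, ?_, ?_⟩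
  · have heven : ¬ Odd (S \ U).card := by
      intro hodd
      have h1 := hx.odd _ (subset_univ _) hodd
      have h2 : ∑ e ∈ cut ends (S \ U), x e = 0 := by
        refine sum_eq_zero fun e he => ?_
        rw [face_mem_cut, mem_sdiff, mem_sdiff] at he
        by_cases hf : e ∈ frac x
        · exact absurd (iff_of_false (fun h => h.2 (hin e hf).1) (fun h => h.2 (hin e hf).2)) he
        rcases face_not_frac hx hf with h3 | h3
        · exact h3
        · obtain ⟨h4, h5⟩ := hone e h3
          have h6 := hc' e h3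
          exact absurd (by tauto) he
      linarith
    have h1 := card_sdiff_add_card_inter S U
    rw [← h1, Nat.odd_add] at ho
    by_contra h2
    exact heven (ho.mpr (Nat.not_odd_iff_even.mp h2))
  · rw [← hS1]
    have e1 : ∀ T : Finset V, ∑ e ∈ cut ends T, (if e ∈ frac x then x e else 0)
        = ∑ e ∈ frac x, if e ∈ cut ends T then x e else 0 := by
      intro T
      rw [sum_ite_mem, sum_ite_mem, inter_comm]
    have e2 : ∑ e ∈ cut ends S, x e = ∑ e ∈ cut ends S, (if e ∈ frac x then x e else 0) := by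
      refine sum_congr rfl fun e he => ?_
      by_cases hf : e ∈ frac x
      · rw [if_pos hf]
      rw [if_neg hf]
      rcases face_not_frac hx hf with h1 | h1
      · exact h1
      · exact absurd ⟨e, he, h1⟩ hc
    rw [e2, e1, e1]
    refine sum_congr rfl fun e he => ?_
    have : e ∈ cut ends (S ∩ U) ↔ e ∈ cut ends S := by
      simp only [face_mem_cut, mem_inter, (hin e he).1, (hin e he).2, and_true]
    simp only [this]

end aux

variable {v k : ℕ} {ends : Fin k → Fin v × Fin v}

theorem isPMOn_iff (hends : ∀ e, (ends e).1 ≠ (ends e).2) (M : Finset (Fin k)) :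
    IsPMOn ends univ M ↔ IsPerfectMatching ends M := by
  have h : ∀ w, M ∩ cut ends {w} = M.filter fun e => (ends e).1 = w ∨ (ends e).2 = w := by
    intro w
    ext e
    rw [mem_inter, mem_filter, face_mem_cut_single (hends e)]
  constructor
  · intro hM w
    rw [← h]; exact hM.2 w (mem_univ w)
  · intro hM
    refine ⟨fun e _ => ⟨mem_univ _, mem_univ _, hends e⟩, fun w _ => ?_⟩
    rw [h]; exact hM w

/-- the convex hull consists of the marginal vectors of laws -/
theorem mem_pmPolytope_iff (x : Fin k → ℝ) :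
    x ∈ pmPolytope ends ↔ ∃ p, IsMatchingLaw ends p ∧ marginal p = x := by
  constructor
  · intro hx
    refine convexHull_min (t := {x | ∃ p, IsMatchingLaw ends p ∧ marginal p = x}) ?_ ?_ hx
    · rintro _ ⟨M, hM, rfl⟩
      refine ⟨fun N => if N = M then 1 else 0, ⟨fun N => ?_, by simp, fun N hN => ?_⟩, ?_⟩
      · dsimp only
        split_ifs
        exacts [zero_le_one, le_rfl]
      · have : N = M := by
          by_contra h
          exact hN (if_neg h)
        rw [this]; exact hM
      · funext e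
        simp [marginal, pmIndicator]
    · rintro _ ⟨p, hp, rfl⟩ _ ⟨q, hq, rfl⟩ a b ha hb hab
      refine ⟨fun M => a * p M + b * q M, ⟨fun M => ?_, ?_, fun M hM => ?_⟩, ?_⟩
      · exact add_nonneg (mul_nonneg ha (hp.1 M)) (mul_nonneg hb (hq.1 M))
      · rw [sum_add_distrib, ← mul_sum, ← mul_sum, hp.2.1, hq.2.1]; linarith
      · by_cases h : p M = 0
        · refine hq.2.2 M fun h' => hM ?_
          simp [h, h']
        · exact hp.2.2 M h
      · funext e
        simp only [marginal, Pi.add_apply, Pi.smul_apply, smul_eq_mul, sum_add_distrib, mul_sum]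
  · rintro ⟨p, hp, rfl⟩
    have h1 : marginal p = ∑ M ∈ univ.filter (fun M => p M ≠ 0), p M • pmIndicator M := by
      rw [sum_filter_of_ne (p := fun M => p M ≠ 0)
        (fun M _ h (h0 : p M = 0) => h (by rw [h0, zero_smul]))]
      funext e
      simp only [marginal, Finset.sum_apply, Pi.smul_apply, smul_eq_mul, pmIndicator, sum_filter,
        mul_ite, mul_one, mul_zero]
    rw [h1]
    refine (convex_convexHull ℝ _).sum_mem (fun M _ => hp.1 M) ?_ fun M hM => ?_
    · rw [sum_filter_ne_zero, hp.2.1]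
    · exact subset_convexHull ℝ _ ⟨M, hp.2.2 M (mem_filter.mp hM).2, rfl⟩

/-- `InQ.exists_law`, `IsLawOn.inQ` -/
theorem mem_pmPolytope_iff_inQ (hends : ∀ e, (ends e).1 ≠ (ends e).2) (x : Fin k → ℝ) :
    x ∈ pmPolytope ends ↔ InQ ends univ x := by
  rw [mem_pmPolytope_iff]
  constructor
  · rintro ⟨p, hp, rfl⟩
    exact IsLawOn.inQ (p := p) ⟨hp.1, hp.2.1, fun M hM => (isPMOn_iff hends M).mpr (hp.2.2 M hM)⟩
  · intro h
    obtain ⟨p, hp, rfl⟩ := h.exists_law
    exact ⟨p, ⟨hp.1, hp.2.1, fun M hM => (isPMOn_iff hends M).mp (hp.2.2 M hM)⟩, rfl⟩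

/-- Let `x' = x` on `frac x` and `0` elsewhere, `U'` the set of ends of the edges of `frac x`.  A vertex on an edge
with `x e = 1` is on no other edge of the support.  So `InQ ends U' x'` (for `S ⊆ U'` the cut of `S` contains no
edge with `x e = 1`) and `|U'| = 2 ∑ e ∈ frac x, x e` (double counting).  Let `W` be the space of `h` vanishing
outside `frac x` with `∑ e, cutVec ends x' S e * h e = 0` for all `S ∈ Tight ends U' x'`; its dimension is at least
`|frac x| - rank` (`InQ.rank_tight`; e.g. `W` = kernel of a map from the functions supported on `frac x` to the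
dual of the span, or an orthogonal complement).  Every `h ∈ W` is in `pmDirections ends x`
(`mem_pmPolytope_iff_inQ`): for a tight odd `S ⊆ univ` either an edge with `x e = 1` crosses `S` and then no
edge of `frac x` does, or `S ∩ U'` is odd and tight for `x'` with the same fractional cut edges; the finitely
many non-tight constraints and `x e > 0` survive for small `|t|`. -/
theorem face_bound (hends : ∀ e, (ends e).1 ≠ (ends e).2) {x : Fin k → ℝ} (hx : x ∈ pmPolytope ends)
    (hf : (frac x).Nonempty) :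
    ((frac x).card : ℝ) + 2 ≤ pmFaceDim ends x + 3 * ∑ e ∈ frac x, x e := by
  have hQ := (mem_pmPolytope_iff_inQ hends x).mp hx
  obtain ⟨U, hin, hU, hT⟩ := face_frac hends hQ
  set x' : Fin k → ℝ := fun e => if e ∈ frac x then x e else 0 with hx'
  have hne : U.Nonempty := by
    obtain ⟨e, he⟩ := hf
    exact ⟨_, (hin e he).1⟩
  have h1 := hU.rank_tight hne
  have h2 := face_card hU
  have h3 : ∑ e, x' e = ∑ e ∈ frac x, x e := by
    rw [hx', sum_ite_mem, univ_inter]
  have h4 := face_dim (frac x) (cutVec ends x' '' Tight ends U x')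
    (Submodule.span ℝ (pmDirections ends x)) fun h h0 hc => by
      refine Submodule.subset_span ?_
      obtain ⟨ε, hε, h5⟩ := face_feasible hends hQ h0 fun S hS => by
        rcases hT S hS with h6 | h6
        · exact sum_eq_zero fun e he => h0 e (h6 e he)
        · rw [← hc _ ⟨_, h6, rfl⟩, ← univ_inter (cut ends S), ← sum_ite_mem]
          refine sum_congr rfl fun e _ => ?_
          by_cases he : e ∈ frac x
          · have h7 : e ∈ cut ends (S ∩ U) ↔ e ∈ cut ends S := by
              simp only [face_mem_cut, mem_inter, (hin e he).1, (hin e he).2, and_true]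
            have h8 : 0 < x' e := by
              rw [hx']; simp only [if_pos he]; exact (face_mem_frac.mp he).1
            simp only [cutVec, h7, h8, and_true, mul_ite, mul_one, mul_zero]
          · simp [h0 e he]
      exact ⟨ε, hε, fun t ht => (mem_pmPolytope_iff_inQ hends _).mpr (h5 t ht)⟩
  rw [h3] at h2
  have h1' : (2 : ℝ) * Module.finrank ℝ (Submodule.span ℝ (cutVec ends x' '' Tight ends U x')) + 4
      ≤ 3 * U.card := by exact_mod_cast h1
  have h4' : ((frac x).card : ℝ) ≤ pmFaceDim ends x
      + Module.finrank ℝ (Submodule.span ℝ (cutVec ends x' '' Tight ends U x')) := by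
    exact_mod_cast h4
  linarith

/-- double counting of the degree constraints -/
theorem sum_eq_half (hends : ∀ e, (ends e).1 ≠ (ends e).2) {x : Fin k → ℝ} (hx : x ∈ pmPolytope ends) :
    2 * ∑ e, x e = v := by
  rw [face_card ((mem_pmPolytope_iff_inQ hends x).mp hx), card_univ, Fintype.card_fin]

/-- The statement S0466: the support consists of `frac x` and of `m - ∑ e ∈ frac x, x e` edges with
`x e = 1` (all coordinates are at most `1`); if `frac x` is empty the support has `m ≤ 3 m - 2` edges. -/
theorem support_sub_faceDim (m : ℕ) (hm : 1 ≤ m) (k : ℕ)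
    (ends : Fin k → Fin (2 * m) × Fin (2 * m)) (hends : ∀ e, (ends e).1 ≠ (ends e).2)
    (x : Fin k → ℝ) (hx : x ∈ pmPolytope ends) :
    ((Finset.univ.filter fun e => 0 < x e).card : ℤ) - (pmFaceDim ends x : ℤ) ≤ 3 * (m : ℤ) - 2 := by
  have hQ := (mem_pmPolytope_iff_inQ hends x).mp hx
  have h1 := sum_eq_half hends hx
  set P := Finset.univ.filter fun e => 0 < x e with hP
  have hsub : frac x ⊆ P := fun e he => mem_filter.mpr ⟨mem_univ _, (face_mem_frac.mp he).1⟩
  have h2 : ∑ e, x e = ∑ e ∈ P, x e := by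
    refine (sum_subset (subset_univ P) fun e _ he => ?_).symm
    rw [hP, mem_filter, not_and] at he
    exact le_antisymm (not_lt.mp (he (mem_univ e))) (hQ.nonneg e)
  have h3 : ∑ e ∈ P \ frac x, x e = (P \ frac x).card := by
    rw [card_eq_sum_ones, Nat.cast_sum]
    refine sum_congr rfl fun e he => ?_
    rw [mem_sdiff] at he
    rcases face_not_frac hQ he.2 with h | h
    · exact absurd h (mem_filter.mp he.1).2.ne'
    · rw [h, Nat.cast_one]
  have h4 := sum_sdiff (f := x) hsub
  have h5 : ((P \ frac x).card : ℝ) + (frac x).card = P.card := by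
    exact_mod_cast card_sdiff_add_card_eq_card hsub
  have h6 : (0 : ℝ) ≤ (P \ frac x).card := Nat.cast_nonneg _
  have h7 : (0 : ℝ) ≤ pmFaceDim ends x := Nat.cast_nonneg _
  have h8 : (1 : ℝ) ≤ m := by exact_mod_cast hm
  push_cast at h1
  have h9 : (P.card : ℝ) - pmFaceDim ends x ≤ 3 * m - 2 := by
    rcases (frac x).eq_empty_or_nonempty with hf | hf
    · rw [hf] at h3 h4 h5 h6
      rw [sum_empty] at h4
      rw [card_empty, Nat.cast_zero] at h5
      linarith
    · have := face_bound hends hx hf
      linarith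
  exact_mod_cast h9

end Crest.Agent.R304
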