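import Crest.Agent.R304.EntSecond
import Crest.Agent.R304.Face

/-! Row 304: the entropy bound. -/

set_option autoImplicit false

namespace Crest.Agent.R304

open Finset Crest.Matchings

variable {ι E : Type} [Fintype ι] [Fintype E] {Ω : ι → Prop} {a : ι → E → ℝ}

theorem enttrace_quad (a : ι → E → ℝ) (μ : ι → ℝ) (u : E → ℝ) :
    ∑ e, ∑ f, u e * cov a μ e f * u f = ∑ i, μ i * (∑ e, u e * (a i e - mean a μ e)) ^ 2 := by
  simp only [cov, sq, mul_sum, sum_mul]
  rw [sum_comm]
  conv_rhs => rw [sum_comm]
  refine sum_congr rfl fun e _ => ?_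
  conv_rhs => rw [sum_comm]
  refine sum_congr rfl fun f _ => sum_congr rfl fun i _ => ?_
  ring

omit [Fintype E] in
theorem enttrace_diag (ha : ∀ i e, a i e = 0 ∨ a i e = 1) {μ : ι → ℝ} (h : ∑ i, μ i = 1) (e : E) :
    cov a μ e e = mean a μ e * (1 - mean a μ e) := by
  have h1 : ∀ i, μ i * ((a i e - mean a μ e) * (a i e - mean a μ e)) =
      (1 - 2 * mean a μ e) * (μ i * a i e) + mean a μ e ^ 2 * μ i := by
    intro i
    rcases ha i e with h | h <;> rw [h] <;> ring
  simp only [cov, h1, sum_add_distrib, ← mul_sum, h]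
  change (1 - 2 * mean a μ e) * mean a μ e + _ = _
  ring

theorem enttrace_orth {μ : ι → ℝ} (h : IsMax Ω a μ) {u : E → ℝ}
    (hu : ∑ e, ∑ f, u e * cov a μ e f * u f = 0) {g : E → ℝ} (hg : g ∈ dirs Ω a (mean a μ)) :
    ∑ e, u e * g e = 0 := by
  obtain ⟨ε, hε, hq⟩ := hg
  obtain ⟨q, hq1, hq2⟩ := hq (ε / 2) (by rw [abs_of_pos (by linarith)]; linarith)
  obtain ⟨q', hq1', hq2'⟩ := hq (-(ε / 2)) (by rw [abs_neg, abs_of_pos (by linarith)]; linarith)
  have hr : Law Ω (fun i => (q i + q' i) / 2) := by
    refine ⟨fun i => by linarith [hq1.1 i, hq1'.1 i], ?_, fun i hi => ?_⟩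
    · rw [← sum_div, sum_add_distrib, hq1.2.1, hq1'.2.1]; norm_num
    · by_cases h1 : q i = 0
      · exact hq1'.2.2 i (fun h2 => hi (by simp [h1, h2]))
      · exact hq1.2.2 i h1
  have hrm : mean a (fun i => (q i + q' i) / 2) = mean a μ := by
    funext e
    have h1 := congrFun hq2 e
    have h2 := congrFun hq2' e
    simp only [Pi.add_apply, Pi.smul_apply, smul_eq_mul] at h1 h2
    have h3 : mean a (fun i => (q i + q' i) / 2) e = (mean a q e + mean a q' e) / 2 := by
      simp only [mean]
      rw [← sum_add_distrib, sum_div]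
      exact sum_congr rfl fun i _ => by ring
    rw [h3, h1, h2]; ring
  rw [enttrace_quad, sum_eq_zero_iff_of_nonneg
    (fun i _ => mul_nonneg (h.1.1 i) (sq_nonneg _))] at hu
  have h0 : ∑ i, q i * ∑ e, u e * (a i e - mean a μ e) = 0 := by
    refine sum_eq_zero fun i _ => ?_
    by_cases h1 : q i = 0
    · rw [h1, zero_mul]
    · have h2 : μ i ≠ 0 := h.supp hr hrm (i := i) (by
        have := lt_of_le_of_ne (hq1.1 i) (Ne.symm h1)
        have := hq1'.1 i
        exact ne_of_gt (by linarith))
      rw [pow_eq_zero_iff two_ne_zero |>.1 ((mul_eq_zero.1 (hu i (mem_univ _))).resolve_left h2),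
        mul_zero]
  have h1 : ∑ i, q i * ∑ e, u e * (a i e - mean a μ e) = ε / 2 * ∑ e, u e * g e := by
    simp only [mul_sum]
    rw [sum_comm]
    refine sum_congr rfl fun e _ => ?_
    have h2 := congrFun hq2 e
    simp only [Pi.add_apply, Pi.smul_apply, smul_eq_mul] at h2
    have h3 : ∑ i, q i * (u e * (a i e - mean a μ e)) =
        u e * (mean a q e - (∑ i, q i) * mean a μ e) := by
      rw [show mean a q e = ∑ i, q i * a i e from rfl, sum_mul, ← sum_sub_distrib, mul_sum]
      exact sum_congr rfl fun i _ => by ring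
    rw [h3, h2, hq1.2.1]; ring
  rw [h1] at h0
  exact (mul_eq_zero.1 h0).resolve_left (by linarith)

omit [Fintype ι] in
/-- diagonalisation of a symmetric real matrix -/
theorem enttrace_spec [DecidableEq E] (S : E → E → ℝ) (hS : ∀ e f, S e f = S f e) :
    ∃ (q : E → E → ℝ) (σ : E → ℝ), (∀ j e, ∑ f, S e f * q j f = σ j * q j e) ∧
      (∀ j, ∑ e, q j e * q j e = 1) ∧ ∀ e f, ∑ j, q j e * q j f = if e = f then 1 else 0 := by
  have hA : (Matrix.of S).IsHermitian := by
    ext e f; simp [hS e f]
  refine ⟨fun j => ⇑(hA.eigenvectorBasis j), hA.eigenvalues, fun j e => ?_, fun j => ?_,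
    fun e f => ?_⟩
  · exact congrFun (hA.mulVec_eigenvectorBasis j) e
  · have := hA.eigenvectorBasis.inner_eq_one j
    rw [PiLp.inner_apply] at this
    simpa [sq] using this
  · have := hA.eigenvectorBasis.sum_inner_mul_inner (EuclideanSpace.single e 1)
      (EuclideanSpace.single f 1)
    simpa [EuclideanSpace.inner_single_left, EuclideanSpace.inner_single_right,
      Pi.single_apply, eq_comm] using this

/-- `Σ = cov a μ` is symmetric positive semidefinite with `Σ e e = x e (1 - x e)`.  Diagonalise it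
(`Matrix.IsHermitian.spectral_theorem` / `eigenvectorBasis`), apply `hso` to `u = q j / √(σ j)` for the
eigenvalues `σ j > 0` and sum: `rank Σ ≤ ∑ e ∈ frac x, Σ e e (1 / x e - c / (1 - x e)) = |frac x| - (1 + c) ∑ x e`.
Finally `finrank (span dirs) ≤ rank Σ`: if `Σ u = 0` then `i ↦ ⟨u, a i⟩` is constant on the support of `μ`, and for
`h ∈ dirs` the laws with means `x ± t h` are supported there (`IsMax.supp` for their average), so `⟨u, h⟩ = 0`;
thus the coordinates of `h` along the eigenvectors with `σ j = 0` vanish. -/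
theorem trace_bound (ha : ∀ i e, a i e = 0 ∨ a i e = 1) {c : ℝ} {μ : ι → ℝ} (h : IsMax Ω a μ)
    (hso : ∀ u : E → ℝ, ∑ e, ∑ f, u e * cov a μ e f * u f ≤
      ∑ e ∈ frac (mean a μ), (∑ f, cov a μ e f * u f) ^ 2 *
        (1 / mean a μ e - c / (1 - mean a μ e))) :
    (Module.finrank ℝ (Submodule.span ℝ (dirs Ω a (mean a μ))) : ℝ) ≤
      (frac (mean a μ)).card - (1 + c) * ∑ e ∈ frac (mean a μ), mean a μ e := by
  classical
  obtain ⟨q, σ, h1, h2, h3⟩ := enttrace_spec (cov a μ)
    (fun e f => sum_congr rfl fun i _ => by ring)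
  have hq : ∀ j, ∑ e, ∑ f, q j e * cov a μ e f * q j f = σ j := by
    intro j
    simp only [mul_assoc, ← mul_sum, h1]
    simp only [mul_left_comm _ (σ j), ← mul_sum, h2, mul_one]
  have hσ : ∀ j, 0 ≤ σ j := by
    intro j
    rw [← hq, enttrace_quad]
    exact sum_nonneg fun i _ => mul_nonneg (h.1.1 i) (sq_nonneg _)
  have hrank : Module.finrank ℝ (Submodule.span ℝ (dirs Ω a (mean a μ))) ≤
      (univ.filter fun j => σ j ≠ 0).card := by
    have hle : Submodule.span ℝ (dirs Ω a (mean a μ)) ≤
        Submodule.span ℝ (Set.range fun j : {j // σ j ≠ 0} => q j) := by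
      refine Submodule.span_le.2 fun g hg => ?_
      have e1 : g = ∑ j, (∑ f, q j f * g f) • q j := by
        funext e
        simp only [Finset.sum_apply, Pi.smul_apply, smul_eq_mul, sum_mul]
        rw [sum_comm]
        have : ∀ f, ∑ j, q j f * g f * q j e = (if e = f then 1 else 0) * g f := by
          intro f
          rw [← h3, sum_mul]
          exact sum_congr rfl fun j _ => by ring
        simp [this]
      rw [e1]
      refine Submodule.sum_mem _ fun j _ => ?_
      by_cases hj : σ j = 0
      · rw [enttrace_orth h ((hq j).trans hj) hg, zero_smul]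
        exact Submodule.zero_mem _
      · exact Submodule.smul_mem _ _ (Submodule.subset_span ⟨⟨j, hj⟩, rfl⟩)
    refine (Submodule.finrank_mono hle).trans ((finrank_range_le_card _).trans ?_)
    rw [Fintype.card_subtype]
  have hone : ∀ j, (if σ j ≠ 0 then (1 : ℝ) else 0) ≤
      ∑ e ∈ frac (mean a μ), σ j * (q j e * q j e) * (1 / mean a μ e - c / (1 - mean a μ e)) := by
    intro j
    split_ifs with hj
    · have h4 := hso (q j)
      rw [hq] at h4
      refine le_of_mul_le_mul_left ?_ (lt_of_le_of_ne (hσ j) (Ne.symm hj))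
      rw [mul_one, mul_sum]
      refine h4.trans (le_of_eq (sum_congr rfl fun e _ => ?_))
      rw [h1]; ring
    · simp [not_not.1 hj]
  have hdiag : ∀ e, ∑ j, σ j * (q j e * q j e) = cov a μ e e := by
    intro e
    have : ∀ j, σ j * (q j e * q j e) = ∑ f, cov a μ e f * (q j e * q j f) := by
      intro j
      rw [← mul_assoc, ← h1, sum_mul]
      exact sum_congr rfl fun f _ => by ring
    simp only [this]
    rw [sum_comm]
    simp only [← mul_sum, h3]
    simp
  calc (Module.finrank ℝ (Submodule.span ℝ (dirs Ω a (mean a μ))) : ℝ)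
      ≤ (univ.filter fun j => σ j ≠ 0).card := by exact_mod_cast hrank
    _ = ∑ j, (if σ j ≠ 0 then (1 : ℝ) else 0) := by rw [sum_boole]
    _ ≤ ∑ j, ∑ e ∈ frac (mean a μ),
        σ j * (q j e * q j e) * (1 / mean a μ e - c / (1 - mean a μ e)) :=
        sum_le_sum fun j _ => hone j
    _ = ∑ e ∈ frac (mean a μ), (1 - (1 + c) * mean a μ e) := by
        rw [sum_comm]
        refine sum_congr rfl fun e he => ?_
        rw [← sum_mul, hdiag, enttrace_diag ha h.1.2.1]
        simp only [frac, mem_filter, mem_univ, true_and] at he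
        have h5 : mean a μ e ≠ 0 := he.1.ne'
        have h6 : 1 - mean a μ e ≠ 0 := by linarith [he.2]
        field_simp
        ring
    _ = _ := by rw [sum_sub_distrib, ← mul_sum]; simp

/-- For `c' > c` take the minimiser `μ` of `gapFn a c'` (`exists_min_gapFn`).  If `frac (mean a μ)` is nonempty,
`second_order` and `trace_bound` contradict `hd`; otherwise `gapFn a c' μ = ent μ ≥ 0` (all means are `0` or `1`).
So `0 ≤ gapFn a c' q` for the maximiser `q` with the mean of `p`; let `c' → c`. -/
theorem entropy_bound (ha : ∀ i e, a i e = 0 ∨ a i e = 1) {c : ℝ}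
    (hd : ∀ p, Law Ω p → (frac (mean a p)).Nonempty →
      (frac (mean a p)).card - (1 + c) * ∑ e ∈ frac (mean a p), mean a p e ≤
        (Module.finrank ℝ (Submodule.span ℝ (dirs Ω a (mean a p))) : ℝ))
    {p : ι → ℝ} (hp : Law Ω p) : ∃ q, Law Ω q ∧ mean a q = mean a p ∧ 0 ≤ gapFn a c q := by
  obtain ⟨q, hq, hqm⟩ := hp.exists_isMax (a := a)
  refine ⟨q, hq.1, hqm, ?_⟩
  have key : ∀ c', c < c' → 0 ≤ gapFn a c' q := by
    intro c' hc'
    obtain ⟨μ, hμ, hmin⟩ := exists_min_gapFn (a := a) c' hp
    refine le_trans ?_ (hmin q hq)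
    rcases (frac (mean a μ)).eq_empty_or_nonempty with h0 | h0
    · have h1 : ∀ e, mean a μ e = 0 ∨ mean a μ e = 1 := by
        intro e
        have h2 : e ∉ frac (mean a μ) := by rw [h0]; exact notMem_empty e
        simp only [frac, mem_filter, mem_univ, true_and, not_and_or, not_lt] at h2
        have h3 : 0 ≤ mean a μ e := sum_nonneg fun i _ => mul_nonneg (hμ.1.1 i)
          (by rcases ha i e with h | h <;> rw [h] <;> norm_num)
        have h4 : mean a μ e ≤ 1 := by
          rw [← hμ.1.2.1]
          refine sum_le_sum fun i _ => ?_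
          have := hμ.1.1 i
          rcases ha i e with h | h <;> rw [h] <;> linarith
        exact h2.imp (fun h => le_antisymm h h3) (fun h => le_antisymm h4 h)
      have h2 : ∑ e, Real.negMulLog (mean a μ e) = 0 :=
        sum_eq_zero fun e _ => by rcases h1 e with h | h <;> simp [h]
      have h3 : ∑ e, Real.negMulLog (1 - mean a μ e) = 0 :=
        sum_eq_zero fun e _ => by rcases h1 e with h | h <;> simp [h]
      rw [gapFn, h2, h3, sub_zero, mul_zero, add_zero]
      refine sum_nonneg fun i _ => Real.negMulLog_nonneg (hμ.1.1 i) ?_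
      rw [← hμ.1.2.1]
      exact single_le_sum (fun j _ => hμ.1.1 j) (mem_univ i)
    · exfalso
      have h1 := trace_bound ha hμ (second_order ha hμ hmin)
      have h2 := hd μ hμ.1 h0
      have h3 : 0 < ∑ e ∈ frac (mean a μ), mean a μ e := by
        refine sum_pos (fun e he => ?_) h0
        simp only [frac, mem_filter, mem_univ, true_and] at he
        exact he.1
      nlinarith [mul_pos (sub_pos.2 hc') h3]
  have hcont : Continuous fun c' => gapFn a c' q := by
    unfold gapFn
    fun_prop
  have hlim : Filter.Tendsto (fun c' => gapFn a c' q) (nhdsWithin c (Set.Ioi c))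
      (nhds (gapFn a c q)) := (hcont.tendsto c).mono_left nhdsWithin_le_nhds
  exact ge_of_tendsto hlim (Filter.eventually_of_mem self_mem_nhdsWithin key)

/-- The statement S0465: `entropy_bound` for `ι = Finset (Fin k)`, `Ω = IsPerfectMatching ends`,
`a = pmIndicator`, `c = 2 - 2 / m`; `dirs = pmDirections` by `mem_pmPolytope_iff`; `hd` from `face_bound` and
`∑ e ∈ frac x, x e ≤ m` (`sum_eq_half`). -/
theorem matching_entropy (m : ℕ) (hm : 1 ≤ m) (k : ℕ)
    (ends : Fin k → Fin (2 * m) × Fin (2 * m)) (hends : ∀ e, (ends e).1 ≠ (ends e).2)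
    (p : Finset (Fin k) → ℝ) (hp : IsMatchingLaw ends p) :
    ∃ q : Finset (Fin k) → ℝ, IsMatchingLaw ends q ∧ (∀ e, marginal q e = marginal p e) ∧
      ∑ e, Real.negMulLog (marginal p e) - (2 - 2 / (m : ℝ)) * ∑ e, Real.negMulLog (1 - marginal p e)
        ≤ lawEntropy q := by
  have hmean : ∀ r : Finset (Fin k) → ℝ, mean pmIndicator r = marginal r := by
    intro r
    funext e
    simp only [mean, marginal, pmIndicator, sum_filter, mul_ite, mul_one, mul_zero]
  have hdirs : ∀ x, dirs (IsPerfectMatching ends) pmIndicator x = pmDirections ends x := by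
    intro x
    ext g
    simp only [dirs, pmDirections, Set.mem_ofPred_eq, mem_pmPolytope_iff, hmean]
    rfl
  have hm' : (0 : ℝ) < m := by exact_mod_cast hm
  obtain ⟨q, hq, hqm, hgap⟩ := entropy_bound (Ω := IsPerfectMatching ends) (a := pmIndicator)
    (c := 2 - 2 / (m : ℝ)) (fun M e => by unfold pmIndicator; split_ifs <;> simp)
    (fun r hr hf => by
      rw [hdirs]
      rw [hmean] at hf ⊢
      have hx : marginal r ∈ pmPolytope ends := (mem_pmPolytope_iff _).2 ⟨r, hr, rfl⟩
      have h1 := face_bound hends hx hf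
      have h2 := sum_eq_half hends hx
      have h3 : ∑ e ∈ frac (marginal r), marginal r e ≤ ∑ e, marginal r e :=
        sum_le_sum_of_subset_of_nonneg (subset_univ _)
          fun e _ _ => sum_nonneg fun M _ => hr.1 M
      have h4 : (∑ e ∈ frac (marginal r), marginal r e) / m ≤ 1 := by
        rw [div_le_one hm']
        push_cast at h2
        linarith
      have h5 : (1 + (2 - 2 / (m : ℝ))) * ∑ e ∈ frac (marginal r), marginal r e =
          3 * ∑ e ∈ frac (marginal r), marginal r e -
            2 * ((∑ e ∈ frac (marginal r), marginal r e) / m) := by ring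
      rw [h5]
      unfold pmFaceDim at h1
      linarith) (p := p) hp
  rw [hmean, hmean] at hqm
  refine ⟨q, hq, fun e => congrFun hqm e, ?_⟩
  rw [gapFn, hmean, hqm] at hgap
  change _ ≤ ent q
  linarith

end Crest.Agent.R304
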