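import Crest.Agent.R304.Count
import Crest.Agent.R304.EntTrace

/-! Row 304: the bounds behind the deterministic approximation. -/

set_option autoImplicit false

namespace Crest.Agent.R304

open Finset Crest.Matchings

variable {n : ℕ}

/-- With `z v u = if u = v then 1 else y v u`: `wt y S = ∏ v, z v (φ S v)` for the injective `φ S v = if v < S v then S v else v`, and
`∑ φ, ∏ v, z v (φ v) = ∏ v, ∑ u, z v u ≤ 2 ^ n` (`Finset.prod_univ_sum`). -/
theorem sum_wt_le {y : Fin n → Fin n → ℝ} (h0 : ∀ u v, 0 ≤ y u v) (h1 : ∀ v, ∑ u, y v u ≤ 1) :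
    ∑ S : PM n, wt y S ≤ 2 ^ n := by
  let z : Fin n → Fin n → ℝ := fun v u => if u = v then 1 else y v u
  let φ : PM n → Fin n → Fin n := fun S v => if v < S v then S v else v
  have hz : ∀ v u, 0 ≤ z v u := fun v u => by
    simp only [z]; split_ifs
    exacts [zero_le_one, h0 v u]
  have hw : ∀ S : PM n, wt y S = ∏ v, z v (φ S v) := by
    intro S
    rw [wt, prod_filter]
    refine prod_congr rfl fun v _ => ?_
    by_cases h : v < S v
    · simp only [z, φ, if_pos h, if_neg (S.ne v)]
    · simp only [z, φ, if_neg h, if_true]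
  have hφ : Function.Injective φ := by
    intro S T h
    have key : ∀ v, v < S v → T v = S v := by
      intro v hv
      have e := congrFun h v
      simp only [φ, if_pos hv] at e
      split_ifs at e with h2
      · exact e.symm
      · exact absurd e (S.ne v)
    refine PM.ext fun v => ?_
    rcases lt_or_gt_of_ne (S.ne v) with h2 | h2
    · have := key (S v) (by rwa [S.inv])
      rw [S.inv] at this
      exact (T.eq_iff.1 this).symm
    · exact (key v h2).symm
  calc ∑ S : PM n, wt y S = ∑ ψ ∈ univ.image φ, ∏ v, z v (ψ v) := by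
        rw [sum_image fun S _ T _ h => hφ h]
        exact sum_congr rfl fun S _ => hw S
    _ ≤ ∑ ψ : Fin n → Fin n, ∏ v, z v (ψ v) :=
        sum_le_sum_of_subset_of_nonneg (subset_univ _) fun ψ _ _ => prod_nonneg fun v _ => hz v _
    _ = ∏ v, ∑ u, z v u := by rw [prod_univ_sum, Fintype.piFinset_univ]
    _ ≤ ∏ _v : Fin n, (2 : ℝ) := by
        refine prod_le_prod (fun v _ => sum_nonneg fun u _ => hz v u) fun v _ => ?_
        have h2 : ∑ u, z v u ≤ ∑ u, ((if u = v then (1 : ℝ) else 0) + y v u) := by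
          refine sum_le_sum fun u _ => ?_
          have := h0 v u
          simp only [z]; split_ifs <;> linarith
        rw [sum_add_distrib, sum_ite_eq' univ v, if_pos (mem_univ v)] at h2
        linarith [h1 v]
    _ = 2 ^ n := by simp

/-- `y = (c + 1) / (t + n)`; `w / y < 2 ^ (log₂ ⌊w / y⌋ + 1)`, so `wt w S ≤ wt y S * 2 ^ (V + n)` -/
theorem det_upper {w c : Fin n → Fin n → ℕ} (hw : ∀ u v, w u v = w v u) {t V : ℕ}
    (hc : ∀ v, ∑ u, c v u ≤ t)
    (hV : ∀ S : PM n, (∀ v, 0 < w v (S v)) →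
      ∑ v ∈ univ.filter (fun v => v < S v), Nat.log 2 (w v (S v) * (t + n) / (c v (S v) + 1)) ≤ V) :
    ∑ S : PM n, wt w S ≤ 2 ^ (V + 2 * n) := by
  let y : Fin n → Fin n → ℝ := fun u v => ((c u v : ℝ) + 1) / ((t : ℝ) + n)
  have hpos : ∀ _v : Fin n, (0 : ℝ) < (t : ℝ) + n := fun v => by
    have : (0 : ℝ) < n := by exact_mod_cast v.pos
    positivity
  have hy0 : ∀ u v, 0 ≤ y u v := fun u v => by simp only [y]; positivity
  have hy1 : ∀ v, ∑ u, y v u ≤ 1 := by
    intro v
    simp only [y]
    rw [← sum_div, div_le_one (hpos v), sum_add_distrib]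
    have : ∑ u, (c v u : ℝ) ≤ t := by exact_mod_cast hc v
    simpa using this
  have key : ∀ S : PM n, ((wt w S : ℕ) : ℝ) ≤ wt y S * 2 ^ (V + n) := by
    intro S
    have hy : 0 ≤ wt y S := prod_nonneg fun v _ => hy0 _ _
    by_cases hS : ∀ v, 0 < w v (S v)
    · rw [wt_cast]
      calc wt (fun u v => (w u v : ℝ)) S
          ≤ ∏ v ∈ univ.filter (fun v => v < S v),
              y v (S v) * 2 ^ (Nat.log 2 (w v (S v) * (t + n) / (c v (S v) + 1)) + 1) := by
            refine prod_le_prod (fun v _ => Nat.cast_nonneg _) fun v _ => ?_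
            have h2 := Nat.lt_pow_succ_log_self (b := 2) (by norm_num)
              (w v (S v) * (t + n) / (c v (S v) + 1))
            rw [Nat.div_lt_iff_lt_mul (Nat.succ_pos _)] at h2
            have h3 : (w v (S v) : ℝ) * ((t : ℝ) + n) ≤
                2 ^ (Nat.log 2 (w v (S v) * (t + n) / (c v (S v) + 1)) + 1) *
                  ((c v (S v) : ℝ) + 1) := by exact_mod_cast h2.le
            simp only [y]
            rw [div_mul_eq_mul_div, le_div_iff₀ (hpos v), mul_comm ((c v (S v) : ℝ) + 1)]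
            exact h3
        _ = wt y S * 2 ^ (∑ v ∈ univ.filter (fun v => v < S v),
              Nat.log 2 (w v (S v) * (t + n) / (c v (S v) + 1)) +
              (univ.filter fun v => v < S v).card) := by
            rw [prod_mul_distrib, prod_pow_eq_pow_sum, sum_add_distrib, wt]
            simp
        _ ≤ _ := by
            refine mul_le_mul_of_nonneg_left (pow_le_pow_right₀ (by norm_num) ?_) hy
            have := hV S hS
            have := card_low S
            omega
    · push Not at hS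
      obtain ⟨v, hv⟩ := hS
      have h2 : wt w S = 0 := by
        rcases lt_or_gt_of_ne (S.ne v) with h2 | h2
        · refine prod_eq_zero (i := S v) (by simpa using h2) ?_
          rw [S.inv, hw]; omega
        · exact prod_eq_zero (i := v) (by simpa using h2) (by omega)
      rw [h2, Nat.cast_zero]
      positivity
  have h2 : ((∑ S : PM n, wt w S : ℕ) : ℝ) ≤ 2 ^ (V + 2 * n) := by
    rw [Nat.cast_sum]
    calc ∑ S : PM n, ((wt w S : ℕ) : ℝ) ≤ ∑ S : PM n, wt y S * 2 ^ (V + n) :=
          sum_le_sum fun S _ => key S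
      _ = (∑ S : PM n, wt y S) * 2 ^ (V + n) := by rw [sum_mul]
      _ ≤ 2 ^ n * 2 ^ (V + n) := mul_le_mul_of_nonneg_right (sum_wt_le hy0 hy1) (by positivity)
      _ = _ := by rw [← pow_add]; congr 1; omega
  exact_mod_cast h2

theorem detmath_gibbs {ι : Type} [Fintype ι] {r W : ι → ℝ} (h0 : ∀ i, 0 ≤ r i) (h1 : ∑ i, r i = 1)
    (hW : ∀ i, 0 ≤ W i) (hW' : ∀ i, r i ≠ 0 → 0 < W i) :
    ∑ i, (Real.negMulLog (r i) + r i * Real.log (W i)) ≤ Real.log (∑ i, W i) := by
  obtain ⟨i0, -, hi0⟩ : ∃ i ∈ (univ : Finset ι), r i ≠ 0 :=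
    exists_ne_zero_of_sum_ne_zero (by rw [h1]; exact one_ne_zero)
  have hZ : 0 < ∑ i, W i := (hW' i0 hi0).trans_le (single_le_sum (fun i _ => hW i) (mem_univ i0))
  generalize hZe : ∑ i, W i = Z at hZ
  have key : ∀ i, Real.negMulLog (r i) + r i * Real.log (W i) ≤
      r i * Real.log Z + (W i / Z - r i) := by
    intro i
    by_cases h : r i = 0
    · simp only [h, Real.negMulLog_zero, zero_mul, add_zero, sub_zero, zero_add]
      exact div_nonneg (hW i) hZ.le
    · have hr : 0 < r i := lt_of_le_of_ne (h0 i) (Ne.symm h)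
      have h2 := Real.log_le_sub_one_of_pos (div_pos (hW' i h) (mul_pos hr hZ))
      rw [Real.log_div (hW' i h).ne' (mul_pos hr hZ).ne', Real.log_mul h hZ.ne'] at h2
      have h3 := mul_le_mul_of_nonneg_left h2 hr.le
      have h4 : r i * (W i / (r i * Z) - 1) = W i / Z - r i := by field_simp
      rw [h4] at h3
      rw [Real.negMulLog]
      linarith
  refine (sum_le_sum fun i _ => key i).trans (le_of_eq ?_)
  rw [sum_add_distrib, sum_sub_distrib, ← sum_mul, ← sum_div, h1, hZe, div_self hZ.ne']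
  ring

/-- Gibbs' inequality and `matching_entropy`.  `n = 2 m` (`card_low`).  Enumerate `ltPairs n` by `Fin k` (`Finset.equivFin`) to get `ends`; `p` pushes forward to a law on edge
sets with the marginals `x`; let `q` be the law of `matching_entropy`; `0 ≤ negMulLog (1 - x) ≤ x` and `∑ x = m` give `lawEntropy q ≥ F - 2 m`; `q` is supported on
matchings all of whose pairs have `x > 0`, hence `w > 0`; `∑ q log (wt / q) ≤ log ∑ wt` (`exists_pairs_iff`, `prod_pairs`). -/
theorem gibbs_lower (hn : 0 < n) {w : Fin n → Fin n → ℕ} {p : PM n → ℝ} (h0 : ∀ S, 0 ≤ p S) (h1 : ∑ S, p S = 1)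
    (hp : ∀ S, p S ≠ 0 → ∀ v, 0 < w v (S v)) :
    ∑ q ∈ ltPairs n, (Real.negMulLog (∑ S ∈ univ.filter (fun S : PM n => S q.1 = q.2), p S) +
        (∑ S ∈ univ.filter (fun S : PM n => S q.1 = q.2), p S) * Real.log (w q.1 q.2)) - n ≤
      Real.log (∑ S : PM n, wt w S : ℕ) := by
  obtain ⟨S0, -, -⟩ : ∃ S ∈ (univ : Finset (PM n)), p S ≠ 0 :=
    exists_ne_zero_of_sum_ne_zero (by rw [h1]; exact one_ne_zero)
  obtain ⟨m, rfl⟩ : ∃ m, n = 2 * m := ⟨_, (card_low S0).symm⟩
  have hm : 1 ≤ m := by omega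
  obtain ⟨k, ends, hinj, hmem, hsurj⟩ : ∃ (k : ℕ) (ends : Fin k → Fin (2 * m) × Fin (2 * m)),
      Function.Injective ends ∧ (∀ i, ends i ∈ ltPairs (2 * m)) ∧
        ∀ q ∈ ltPairs (2 * m), ∃ i, ends i = q :=
    ⟨_, fun i => ((ltPairs (2 * m)).equivFin.symm i).1,
      Subtype.val_injective.comp (Equiv.injective _), fun i => Subtype.property _,
      fun q hq => ⟨(ltPairs (2 * m)).equivFin ⟨q, hq⟩, by simp⟩⟩
  have hlt : ∀ i, (ends i).1 < (ends i).2 := fun i => by simpa [ltPairs] using hmem i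
  have hends : ∀ i, (ends i).1 ≠ (ends i).2 := fun i => (hlt i).ne
  have him : univ.image ends = ltPairs (2 * m) := by
    ext q
    simp only [mem_image, mem_univ, true_and]
    exact ⟨by rintro ⟨i, rfl⟩; exact hmem i, hsurj q⟩
  let A : PM (2 * m) → Finset (Fin k) := fun S => univ.filter fun i => S (ends i).1 = (ends i).2
  have hA : ∀ S, (A S).image ends = pairs S := by
    intro S
    ext q
    simp only [A, pairs, mem_image, mem_filter, mem_univ, true_and]
    constructor
    · rintro ⟨i, h, rfl⟩; exact ⟨hlt i, h⟩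
    · rintro ⟨h2, h3⟩
      obtain ⟨i, rfl⟩ := hsurj q (by simpa [ltPairs] using h2)
      exact ⟨i, h3, rfl⟩
  have hAi : Function.Injective A := fun S T h => pairs_injective (by rw [← hA, ← hA, h])
  have hPM : ∀ M, IsPerfectMatching ends M ↔ ∃ S, A S = M := by
    intro M
    have e : ∀ v, ((M.image ends).filter fun q => q.1 = v ∨ q.2 = v).card =
        (M.filter fun e => (ends e).1 = v ∨ (ends e).2 = v).card := fun v => by
      rw [filter_image, card_image_of_injective _ hinj]
    constructor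
    · intro h
      obtain ⟨S, hS⟩ := (exists_pairs_iff (M.image ends)).2
        ⟨him ▸ image_subset_image (subset_univ M), fun v => (e v).trans (h v)⟩
      exact ⟨S, image_injective hinj ((hA S).trans hS)⟩
    · rintro ⟨S, rfl⟩ v
      rw [← e, hA]
      exact ((exists_pairs_iff _).1 ⟨S, rfl⟩).2 v
  let P : Finset (Fin k) → ℝ := fun M => ∑ S ∈ univ.filter (fun S => A S = M), p S
  have hP : IsMatchingLaw ends P := by
    refine ⟨fun M => sum_nonneg fun S _ => h0 S, ?_, fun M hM => ?_⟩
    · rw [← h1]; exact sum_fiberwise univ A p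
    · obtain ⟨S, hS, -⟩ := exists_ne_zero_of_sum_ne_zero hM
      exact (hPM M).2 ⟨S, (mem_filter.1 hS).2⟩
  have hmarg : ∀ i, marginal P i =
      ∑ S ∈ univ.filter (fun S : PM (2 * m) => S (ends i).1 = (ends i).2), p S := by
    intro i
    rw [marginal, sum_fiberwise_eq_sum_filter]
    congr 1
    ext S
    simp [A]
  obtain ⟨Q, hQ, hQm, hQe⟩ := matching_entropy m hm k ends hends P hP
  have hsum : ∀ g : Finset (Fin k) → ℝ, (∀ M, Q M = 0 → g M = 0) → ∑ M, g M = ∑ S, g (A S) := by
    intro g hg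
    rw [← sum_image (s := univ) (g := A) (f := g) fun S _ T _ h => hAi h]
    refine (sum_subset (subset_univ _) fun M _ hM => hg M ?_).symm
    by_contra h
    obtain ⟨S, rfl⟩ := (hPM M).1 (hQ.2.2 M h)
    exact hM (mem_image_of_mem _ (mem_univ S))
  have hwpos : ∀ S, Q (A S) ≠ 0 → ∀ i ∈ A S, 0 < w (ends i).1 (ends i).2 := by
    intro S hS i hi
    have h2 : Q (A S) ≤ marginal Q i :=
      single_le_sum (f := Q) (fun M _ => hQ.1 M) (mem_filter.2 ⟨mem_univ _, hi⟩)
    have h3 : marginal P i ≠ 0 := by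
      rw [← hQm]
      exact ((lt_of_le_of_ne (hQ.1 _) (Ne.symm hS)).trans_le h2).ne'
    rw [hmarg] at h3
    obtain ⟨T, hT, hT'⟩ := exists_ne_zero_of_sum_ne_zero h3
    rw [← (mem_filter.1 hT).2]
    exact hp T hT' _
  have hwt : ∀ S : PM (2 * m), ((wt w S : ℕ) : ℝ) = ∏ i ∈ A S, (w (ends i).1 (ends i).2 : ℝ) := by
    intro S
    rw [← prod_pairs, ← hA, prod_image fun i _ j _ h => hinj h, Nat.cast_prod]
  have hG := detmath_gibbs (r := fun S => Q (A S)) (W := fun S => ((wt w S : ℕ) : ℝ))
    (fun S => hQ.1 _) (by rw [← hsum Q fun _ h => h]; exact hQ.2.1) (fun S => Nat.cast_nonneg _)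
    (fun S hS => by
      rw [hwt]
      exact prod_pos fun i hi => by exact_mod_cast hwpos S hS i hi)
  have hE : lawEntropy Q = ∑ S, Real.negMulLog (Q (A S)) :=
    hsum (fun M => Real.negMulLog (Q M)) fun M h => by simp [h]
  have hL : ∑ i, marginal P i * Real.log (w (ends i).1 (ends i).2) =
      ∑ S, Q (A S) * Real.log ((wt w S : ℕ) : ℝ) := by
    calc ∑ i, marginal P i * Real.log (w (ends i).1 (ends i).2)
        = ∑ M, Q M * ∑ i ∈ M, Real.log (w (ends i).1 (ends i).2) := by
          simp only [← hQm]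
          simp only [marginal, sum_mul, mul_sum]
          exact sum_comm' (by simp)
      _ = ∑ S, Q (A S) * ∑ i ∈ A S, Real.log (w (ends i).1 (ends i).2) :=
          hsum (fun M => Q M * ∑ i ∈ M, Real.log (w (ends i).1 (ends i).2)) fun M h => by simp [h]
      _ = _ := by
          refine sum_congr rfl fun S _ => ?_
          by_cases hS : Q (A S) = 0
          · simp [hS]
          · rw [hwt, Real.log_prod fun i hi => by exact_mod_cast (hwpos S hS i hi).ne']
  have hx0 : ∀ i, 0 ≤ marginal P i := fun i => sum_nonneg fun M _ => hP.1 M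
  have hx1 : ∀ i, marginal P i ≤ 1 := fun i => by
    rw [← hP.2.1]
    exact sum_le_sum_of_subset_of_nonneg (subset_univ _) fun M _ _ => hP.1 M
  have hT0 : 0 ≤ ∑ i, Real.negMulLog (1 - marginal P i) :=
    sum_nonneg fun i _ => Real.negMulLog_nonneg (by linarith [hx1 i]) (by linarith [hx0 i])
  have hT1 : ∑ i, Real.negMulLog (1 - marginal P i) ≤ ∑ i, marginal P i :=
    sum_le_sum fun i _ => by
      have := Real.negMulLog_le_one_sub_self (x := 1 - marginal P i) (by linarith [hx1 i])
      linarith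
  have hT2 := sum_eq_half hends ((mem_pmPolytope_iff _).2 ⟨P, hP, rfl⟩)
  have hT3 : 0 ≤ 2 / (m : ℝ) * ∑ i, Real.negMulLog (1 - marginal P i) := by positivity
  rw [← him, sum_image fun i _ j _ h => hinj h, Nat.cast_sum]
  simp only [← hmarg]
  rw [sum_add_distrib] at hG ⊢
  rw [hL]
  rw [hE, sub_mul] at hQe
  linarith

end Crest.Agent.R304
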