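import Crest.Agent.R304.DetAlg
import Crest.Agent.R304.DetLower
import Crest.Agent.Lib.PT.Parse

/-! Row 304: correctness of the deterministic algorithm. -/

set_option autoImplicit false

namespace Crest.Agent.R304

open Finset Crest.Agent.Lib.PT Crest.Agent.Lib.Matching Crest.Matchings Crest.Enc

/-- the list of the triples in the code -/
def triples (n : ℕ) (w : Fin n → Fin n → ℕ) : List (ℕ × ℕ × ℕ) :=
  (posPairs n w).map fun q => (q.1, q.2, w q.1 q.2)

theorem detok_mem_posPairs {n : ℕ} {w : Fin n → Fin n → ℕ} (a b : Fin n) :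
    (a, b) ∈ posPairs n w ↔ a < b ∧ 0 < w a b := by
  simp [posPairs, List.mem_filter]

theorem detok_wm_symm (L : List (ℕ × ℕ × ℕ)) (u v : ℕ) : wm L u v = wm L v u := by
  simp only [wm, min_comm u v, max_comm u v]

theorem detok_am_symm (n : ℕ) (L : List (ℕ × ℕ × ℕ)) (Ms : List (List ℕ × ℕ)) (u v : ℕ) :
    am n L Ms u v = am n L Ms v u := by
  simp only [am, cm, wm, min_comm u v, max_comm u v]

theorem wm_triples {n : ℕ} {w : Fin n → Fin n → ℕ} (hw : ∀ i j, w i j = w j i) (h0 : ∀ i, w i i = 0)
    (u v : Fin n) : wm (triples n w) u v = w u v := by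
  have key : ∀ u v : Fin n, u ≤ v → wm (triples n w) u v = w u v := by
    intro u v huv
    have hnd : (posPairs n w).Nodup :=
      ((List.nodup_finRange n).product (List.nodup_finRange n)).filter _
    have h1 : min (u : ℕ) v = u := min_eq_left huv
    have h2 : max (u : ℕ) v = v := max_eq_right huv
    unfold wm triples
    rw [List.filter_map, List.map_map, ← List.sum_toFinset _ (hnd.filter _), h1, h2]
    by_cases hp : 0 < w u v
    · have hlt : u < v := lt_of_le_of_ne huv fun e => by rw [e, h0] at hp; exact lt_irrefl _ hp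
      have : ((posPairs n w).filter ((fun e : ℕ × ℕ × ℕ => decide (e.1 = u ∧ e.2.1 = v)) ∘
          fun q : Fin n × Fin n => ((q.1 : ℕ), (q.2 : ℕ), w q.1 q.2))).toFinset = {(u, v)} := by
        ext ⟨a, b⟩
        simp only [List.mem_toFinset, List.mem_filter, detok_mem_posPairs, Function.comp,
          decide_eq_true_eq, mem_singleton, Prod.mk.injEq, Fin.val_inj]
        exact ⟨fun h => h.2, fun ⟨ha, hb⟩ => ⟨by rw [ha, hb]; exact ⟨hlt, hp⟩, ha, hb⟩⟩
      rw [this, sum_singleton]
      rfl
    · rw [Nat.eq_zero_of_not_pos hp]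
      refine sum_eq_zero fun ⟨a, b⟩ hq => ?_
      simp only [List.mem_toFinset, List.mem_filter, detok_mem_posPairs, Function.comp,
        decide_eq_true_eq, Fin.val_inj] at hq
      obtain ⟨⟨-, h3⟩, rfl, rfl⟩ := hq
      exact absurd h3 hp
  rcases le_total u v with h | h
  · exact key u v h
  · rw [detok_wm_symm, key v u h, hw]

theorem detok_length_gm (n : ℕ) (L : List (ℕ × ℕ × ℕ)) (Ms : List (List ℕ × ℕ)) :
    (gm n L Ms).length = n := by
  simp [gm]

theorem detok_ent_gm {n : ℕ} (L : List (ℕ × ℕ × ℕ)) (Ms : List (List ℕ × ℕ)) {u v : ℕ} (hu : u < n)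
    (hv : v < n) :
    Lib.Matching.ent (gm n L Ms) u v = if 0 < wm L u v then n * bm n L + 1 + am n L Ms u v else 0 := by
  simp [Lib.Matching.ent, gm, List.getD_eq_getElem?_getD, hu, hv]

theorem detok_play {mwm : List (List ℕ) → List ℕ} {n : ℕ} {L : List (ℕ × ℕ × ℕ)}
    {Ms : List (List ℕ × ℕ)} (h : IsInv n fun v => (mwm (gm n L Ms)).getD v 0) {v : ℕ} (hv : v < n) :
    (play mwm n L Ms).getD v 0 = (mwm (gm n L Ms)).getD v 0 := by
  have h1 : (play mwm n L Ms).getD v 0 = min ((mwm (gm n L Ms)).getD v 0) n := by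
    simp [play, List.getD_eq_getElem?_getD, hv]
  rw [h1, min_eq_left (h v hv).1.le]

theorem detok_iter (mwm : List (List ℕ) → List ℕ) (n : ℕ) (L : List (ℕ × ℕ × ℕ)) (t : ℕ) :
    (round mwm n L)^[t] [] = (List.range t).map fun i => (play mwm n L ((round mwm n L)^[i] []),
      val n L ((round mwm n L)^[i] []) (play mwm n L ((round mwm n L)^[i] []))) := by
  induction t with
  | zero => rfl
  | succ t ih =>
    rw [List.range_succ, List.map_append, ← ih, Function.iterate_succ_apply']
    rfl

theorem detok_toPM {n : ℕ} {w : Fin n → Fin n → ℕ} (hw : ∀ i j, w i j = w j i) (h0 : ∀ i, w i i = 0)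
    {m : ℕ → ℕ} (hm : IsInv n m) (hp : ∀ v < n, 0 < wm (triples n w) v (m v)) :
    ∃ S : PM n, (∀ v, (S v : ℕ) = m v) ∧ ∀ v, 0 < w v (S v) := by
  have hp' : ∀ v : Fin n, 0 < w v ⟨m v, (hm v v.2).1⟩ := fun v => by
    rw [← wm_triples hw h0]
    exact hp v v.2
  refine ⟨⟨fun v => ⟨m v, (hm v v.2).1⟩, fun v => Fin.ext (hm v v.2).2, fun v e => ?_⟩,
    fun _ => rfl, hp'⟩
  have := hp' v
  rw [e, h0] at this
  exact lt_irrefl _ this

theorem detok_sum_split {n : ℕ} (S : PM n) (F : Fin n → Fin n → ℕ) (hF : ∀ u v, F u v = F v u) :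
    ∑ v, F v (S v) = 2 * ∑ v ∈ univ.filter (fun v => v < S v), F v (S v) := by
  have h := move_prod_split S fun v => 2 ^ F v (S v)
  simp only [← pow_add] at h
  rw [prod_pow_eq_pow_sum, prod_pow_eq_pow_sum] at h
  rw [Nat.pow_right_injective (le_refl 2) h, mul_sum]
  refine sum_congr rfl fun v _ => ?_
  rw [S.inv, hF (S v) v, two_mul]

/-- the weight of a perfect matching of the support -/
theorem detok_wt {n : ℕ} {w : Fin n → Fin n → ℕ} (hw : ∀ i j, w i j = w j i) (h0 : ∀ i, w i i = 0)
    (Ms : List (List ℕ × ℕ)) {S : PM n} (hS : ∀ v, 0 < w v (S v)) {m : ℕ → ℕ}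
    (hm : ∀ v, (S v : ℕ) = m v) :
    Lib.Matching.wt (gm n (triples n w) Ms) m = n * (n * bm n (triples n w) + 1) +
      2 * ∑ v ∈ univ.filter (fun v => v < S v), am n (triples n w) Ms v (S v) := by
  rw [← detok_sum_split S (fun u v => am n (triples n w) Ms u v) fun u v => detok_am_symm _ _ _ _ _,
    Lib.Matching.wt, detok_length_gm, ← Fin.sum_univ_eq_sum_range
      (fun v => if m v = v then 0 else Lib.Matching.ent (gm n (triples n w) Ms) v (m v))]
  have h1 : ∀ v : Fin n, (if m v = v then 0 else Lib.Matching.ent (gm n (triples n w) Ms) v (m v)) =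
      n * bm n (triples n w) + 1 + am n (triples n w) Ms v (S v) := by
    intro v
    rw [← hm, if_neg fun e => S.ne v (Fin.ext e), detok_ent_gm _ _ v.2 (S v).2, wm_triples hw h0,
      if_pos (hS v)]
  rw [sum_congr rfl fun v _ => h1 v, sum_add_distrib, sum_const, card_univ, Fintype.card_fin,
    smul_eq_mul]

/-- one round -/
theorem detok_round {mwm : List (List ℕ) → List ℕ}
    (hm : ∀ g, Symm g → IsInv g.length (fun v => (mwm g).getD v 0) ∧
      ∀ m, IsInv g.length m → Lib.Matching.wt g m ≤ Lib.Matching.wt g (fun v => (mwm g).getD v 0))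
    {n : ℕ} {w : Fin n → Fin n → ℕ} (hw : ∀ i j, w i j = w j i) (h0 : ∀ i, w i i = 0)
    {S₀ : PM n} (hS₀ : ∀ v, 0 < w v (S₀ v)) (Ms : List (List ℕ × ℕ)) :
    ∃ M : PM n, (∀ v : Fin n, (play mwm n (triples n w) Ms).getD v 0 = M v) ∧ (∀ v, 0 < w v (M v)) ∧
      ∀ S : PM n, (∀ v, 0 < w v (S v)) →
        ∑ v ∈ univ.filter (fun v => v < S v), am n (triples n w) Ms v (S v) ≤
          ∑ v ∈ univ.filter (fun v => v < M v), am n (triples n w) Ms v (M v) := by
  obtain ⟨h1, h2⟩ := hm _ (symm_gm n (triples n w) Ms)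
  rw [detok_length_gm] at h1 h2
  have h3 : ∀ S : PM n, (∀ v, 0 < w v (S v)) → n * (n * bm n (triples n w) + 1) +
      2 * ∑ v ∈ univ.filter (fun v => v < S v), am n (triples n w) Ms v (S v) ≤
        Lib.Matching.wt (gm n (triples n w) Ms) fun v => (mwm (gm n (triples n w) Ms)).getD v 0 := by
    intro S hS
    rw [← detok_wt hw h0 Ms hS (m := fun v => if h : v < n then S ⟨v, h⟩ else v)
      fun v => by simp [v.2]]
    refine h2 _ fun v hv => ?_
    simp [hv]
  generalize hmm : (fun v => (mwm (gm n (triples n w) Ms)).getD v 0) = m at h1 h3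
  have h4 : ∀ v < n, 0 < wm (triples n w) v (m v) := by
    intro v₀ hv₀
    by_contra hc
    have h5 := h3 S₀ hS₀
    rw [Lib.Matching.wt, detok_length_gm, ← add_sum_erase _ _ (mem_range.2 hv₀),
      detok_ent_gm _ _ hv₀ (h1 v₀ hv₀).1, if_neg hc, ite_self, zero_add] at h5
    have h6 : ∑ v ∈ (range n).erase v₀, (if m v = v then 0 else Lib.Matching.ent (gm n (triples n w) Ms) v (m v)) ≤
        ((range n).erase v₀).card • (n * bm n (triples n w) + 1 + bm n (triples n w)) := by
      refine sum_le_card_nsmul _ _ _ fun v hv => ?_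
      have hv' := mem_range.1 (mem_of_mem_erase hv)
      rw [detok_ent_gm _ _ hv' (h1 v hv').1]
      have := am_le n (triples n w) Ms v (m v)
      split_ifs <;> omega
    rw [card_erase_of_mem (mem_range.2 hv₀), card_range, smul_eq_mul] at h6
    obtain ⟨k, rfl⟩ : ∃ k, n = k + 1 := ⟨n - 1, by omega⟩
    rw [Nat.add_sub_cancel] at h6
    nlinarith [Nat.zero_le (∑ v ∈ univ.filter (fun v => v < S₀ v),
      am (k + 1) (triples (k + 1) w) Ms v (S₀ v))]
  obtain ⟨M, hM, hM'⟩ := detok_toPM hw h0 h1 h4
  refine ⟨M, fun v => ?_, hM', fun S hS => ?_⟩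
  · rw [detok_play (hmm ▸ h1) v.2, hM, ← hmm]
  · have h5 := h3 S hS
    rw [detok_wt hw h0 Ms hM' hM] at h5
    omega

theorem detok_foldr (p : ℕ → Prop) (b : ℕ) (l : List ℕ) (hb : p b) (hl : ∀ x ∈ l, p x) :
    p (l.foldr min b) := by
  induction l with
  | nil => exact hb
  | cons x l ih =>
    rw [List.foldr_cons]
    rcases min_choice x (l.foldr min b) with h | h <;> rw [h]
    · exact hl x (by simp)
    · exact ih fun y hy => hl y (by simp [hy])

theorem detok_foldr_le (b : ℕ) (l : List ℕ) {x : ℕ} (hx : x ∈ l) : l.foldr min b ≤ x := by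
  induction l with
  | nil => simp at hx
  | cons y l ih =>
    rw [List.foldr_cons]
    rcases List.mem_cons.1 hx with rfl | h
    · exact min_le_left _ _
    · exact (min_le_right _ _).trans (ih h)

/-- Let `N = ∑ S, wt w S` (`mult_eq`).  If `N = 0` then `n > 0` and a played matching passing the test would be a `PM n` with positive weight (it is an involution of
`range n`, without fixed points as `w v v = 0`), so the output is `0`.  If `N > 0`, some `S₀` has `0 < w v (S₀ v)` for all `v`; its `n / 2` pairs are in `posPairs`, so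
`n ≤ 2 * L.length`.  Every played matching is perfect in the support: otherwise at most `n - 2` vertices contribute (or simply at most `n - 1`), each at most `n * bm + 1 + bm`, less than the
`n (n * bm + 1)` of `S₀`; and among those it maximises the sum of the `am` (each pair is counted from both ends).  So the rounds define `M : ℕ → PM n` with
`cm = cntM`; `det_upper` for every round gives `N ≤ 2 ^ (V t + 2 n)`, `det_lower` gives `2 ^ V t ≤ N * 2 ^ (3 n)` for some `t`; `V t ≤ n * bm` (`am_le`).  For `n = 0`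
the output is `1 = N`. -/
theorem det_ok {mwm : List (List ℕ) → List ℕ}
    (hm : ∀ g, Symm g → IsInv g.length (fun v => (mwm g).getD v 0) ∧
      ∀ m, IsInv g.length m → Lib.Matching.wt g m ≤ Lib.Matching.wt g (fun v => (mwm g).getD v 0))
    {n : ℕ} {w : Fin n → Fin n → ℕ} (hw : ∀ i j, w i j = w j i) (h0 : ∀ i, w i i = 0) :
    multNumPerfectMatchings w ≤ 512 ^ n * det mwm n (triples n w) ∧
      det mwm n (triples n w) ≤ multNumPerfectMatchings w := by
  rw [mult_eq]
  set L := triples n w with hL
  by_cases hex : ∃ S₀ : PM n, ∀ v, 0 < w v (S₀ v)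
  swap
  · have hN : ∑ S : PM n, wt w S = 0 := by
      refine sum_eq_zero fun S _ => by_contra fun hS => hex ⟨S, fun v => ?_⟩
      have h1 : ∀ v, v < S v → 0 < w v (S v) := fun v hv =>
        Nat.pos_of_ne_zero (prod_ne_zero_iff.1 hS v (mem_filter.2 ⟨mem_univ _, hv⟩))
      rcases lt_or_gt_of_ne (S.ne v) with h | h
      · have := h1 (S v) (by rwa [S.inv])
        rwa [S.inv, hw] at this
      · exact h1 v h
    rw [hN]
    refine ⟨Nat.zero_le _, le_of_eq ?_⟩
    unfold det
    split_ifs with hl
    · rfl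
    rw [min_eq_left (not_lt.1 hl), det', if_neg]
    intro hall
    have hn : 0 < n := Nat.pos_of_ne_zero fun e => hex (by
      subst e
      exact ⟨⟨id, fun _ => rfl, fun v => v.elim0⟩, fun v => v.elim0⟩)
    rw [rounds, detok_iter, List.all_eq_true] at hall
    have h1 := hall _ (List.mem_map.2 ⟨0, List.mem_range.2 hn, rfl⟩)
    have h2 := (hm _ (symm_gm n L [])).1
    rw [detok_length_gm] at h2
    obtain ⟨S, -, hS⟩ := detok_toPM hw h0 h2 fun v hv => by
      have := List.all_eq_true.1 h1 v (List.mem_range.2 hv)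
      rw [decide_eq_true_eq] at this
      rw [← detok_play h2 hv]
      exact this
    exact hex ⟨S, hS⟩
  obtain ⟨S₀, hS₀⟩ := hex
  have hN : 0 < ∑ S : PM n, wt w S :=
    lt_of_lt_of_le (prod_pos fun v _ => hS₀ v)
      (single_le_sum (f := fun S => wt w S) (fun _ _ => Nat.zero_le _) (mem_univ S₀))
  have hlen : n ≤ 2 * L.length := by
    have h1 : (univ.filter fun v => v < S₀ v).card ≤ (posPairs n w).toFinset.card := by
      refine card_le_card_of_injOn (fun v => (v, S₀ v)) (fun v hv => ?_)
        fun a _ b _ h => (Prod.ext_iff.1 h).1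
      simp only [coe_filter, mem_univ, true_and, Set.mem_ofPred_eq] at hv
      simp only [List.coe_toFinset, Set.mem_ofPred_eq, detok_mem_posPairs]
      exact ⟨hv, hS₀ v⟩
    have h2 := List.toFinset_card_le (posPairs n w)
    have h3 := card_low S₀
    have h4 : L.length = (posPairs n w).length := by simp [hL, triples]
    omega
  choose M hM hMpos hMmax using fun t => detok_round hm hw h0 hS₀ ((round mwm n L)^[t] [])
  have hcm : ∀ t (u v : Fin n), cm ((round mwm n L)^[t] []) u v = cntM M t u v := by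
    intro t u v
    have key : ∀ i, (play mwm n L ((round mwm n L)^[i] [])).getD (min (u : ℕ) v) 0 = max (u : ℕ) v ↔
        M i u = v := by
      intro i
      rcases le_total u v with h | h
      · rw [min_eq_left (show (u : ℕ) ≤ v from h), max_eq_right (show (u : ℕ) ≤ v from h), hM,
          Fin.val_inj]
      · rw [min_eq_right (show (v : ℕ) ≤ u from h), max_eq_left (show (v : ℕ) ≤ u from h), hM,
          Fin.val_inj, PM.eq_iff]
    rw [detok_iter, cm, List.countP_map, cntM, List.countP_eq_length_filter,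
      ← List.toFinset_card_of_nodup (List.nodup_range.filter _)]
    congr 1
    ext i
    simp only [List.mem_toFinset, List.mem_filter, List.mem_range, Function.comp, decide_eq_true_eq,
      key, mem_filter, mem_range]
  have ham : ∀ t ≤ n, ∀ u v : Fin n, am n L ((round mwm n L)^[t] []) u v =
      Nat.log 2 (w u v * (t + n) / (cntM M t u v + 1)) := by
    intro t ht u v
    have : ((round mwm n L)^[t] []).length = t := by rw [detok_iter]; simp
    rw [am, hcm, this, min_eq_left ht, hL, wm_triples hw h0]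
  set V : ℕ → ℕ := fun t => ∑ v ∈ univ.filter (fun v => v < M t v),
    am n L ((round mwm n L)^[t] []) v (M t v) with hV
  have hval : ∀ t, val n L ((round mwm n L)^[t] []) (play mwm n L ((round mwm n L)^[t] [])) = V t := by
    intro t
    rw [val, ← Fin.sum_univ_eq_sum_range (fun v => if v < (play mwm n L ((round mwm n L)^[t] [])).getD v 0
      then am n L ((round mwm n L)^[t] []) v ((play mwm n L ((round mwm n L)^[t] [])).getD v 0) else 0),
      hV]
    simp only
    rw [sum_filter]
    refine sum_congr rfl fun v _ => ?_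
    rw [hM]
    rfl
  have hup : ∀ t ≤ n, ∑ S : PM n, wt w S ≤ 2 ^ (V t + 2 * n) := by
    intro t ht
    refine det_upper hw (c := cntM M t) (t := t) (fun v => le_of_eq ?_) fun S hS => ?_
    · unfold cntM
      rw [← card_eq_sum_card_fiberwise (f := fun i => M i v) fun _ _ => mem_univ _, card_range]
    · rw [← sum_congr rfl fun v _ => ham t ht v (S v)]
      exact hMmax t S hS
  have hV0 : V 0 ≤ n * bm n L := by
    refine (sum_le_card_nsmul _ _ _ fun (v : Fin n) _ => am_le n L _ v (M 0 v)).trans ?_
    exact Nat.mul_le_mul_right _ ((card_le_univ _).trans (Fintype.card_fin n).le)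
  have hdet : det mwm n L = 2 ^ (((List.range n).map V).foldr min (n * bm n L) - 3 * n) := by
    rw [det, if_neg (not_lt.2 hlen), min_eq_left hlen, det', rounds, detok_iter, if_pos, List.map_map]
    · congr 3
      exact List.map_congr_left fun t _ => hval t
    · simp only [List.all_eq_true, List.mem_map, List.mem_range, decide_eq_true_eq]
      rintro _ ⟨t, -, rfl⟩ v hv
      have := hMpos t ⟨v, hv⟩
      rwa [← wm_triples hw h0, ← hM] at this
  rw [hdet]
  constructor
  · have h1 := detok_foldr (fun x => ∑ S : PM n, wt w S ≤ 2 ^ (x + 2 * n)) (n * bm n L)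
      ((List.range n).map V)
      ((hup 0 (Nat.zero_le _)).trans (Nat.pow_le_pow_right two_pos (by omega))) (by
        intro x hx
        obtain ⟨t, ht, rfl⟩ := List.mem_map.1 hx
        exact hup t (List.mem_range.1 ht).le)
    refine h1.trans ?_
    rw [show 512 = 2 ^ 9 by norm_num, ← pow_mul, ← pow_add]
    exact Nat.pow_le_pow_right two_pos (by omega)
  · rcases Nat.eq_zero_or_pos n with rfl | hn
    · simpa using Nat.succ_le_of_lt hN
    obtain ⟨t, ht, h1⟩ := det_lower hn M fun t _ => hMpos t
    rw [← sum_congr rfl fun v _ => ham t ht.le v (M t v)] at h1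
    have h2 := detok_foldr_le (n * bm n L) ((List.range n).map V)
      (List.mem_map.2 ⟨t, List.mem_range.2 ht, rfl⟩)
    generalize ((List.range n).map V).foldr min (n * bm n L) = x at h2
    rcases le_total x (3 * n) with h3 | h3
    · rw [Nat.sub_eq_zero_of_le h3]
      exact hN
    · refine Nat.le_of_mul_le_mul_right (le_trans ?_ h1) (Nat.two_pow_pos _)
      rw [← pow_add, Nat.sub_add_cancel h3]
      exact Nat.pow_le_pow_right two_pos h2

/-- The statement S0467: read `n` and the triples (`Reads.split`, `Reads.split_many` with the self-delimiting code of a triple, see `Lib/PT/Parse.lean` and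
`Crest/Agent/S0479.lean`), `exists_mwm`, `pt_det`, `det_ok`, `Reads.exists_polyTime`. -/
theorem exists_det :
    ∃ f : List Bool → List Bool, Crest.Complexity.PolyTime f ∧
      ∀ (n : ℕ) (w : Fin n → Fin n → ℕ), (∀ i j, w i j = w j i) → (∀ i, w i i = 0) →
        ∃ A : ℕ, f (pairMultCode n w) = natCode A ∧
          multNumPerfectMatchings w ≤ 512 ^ n * A ∧ A ≤ multNumPerfectMatchings w := by
  obtain ⟨mwm, h1, h2⟩ := exists_mwm
  have h0 := Reads.self fun i : (n : ℕ) × (Fin n → Fin n → ℕ) => pairMultCode i.1 i.2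
  have h3 := Reads.split SD.natCode (x := fun i : (n : ℕ) × (Fin n → Fin n → ℕ) => i.1)
    (r := fun i => natCode (triples i.1 i.2).length ++ ((triples i.1 i.2).map
      fun p : ℕ × ℕ × ℕ => natCode p.1 ++ (natCode p.2.1 ++ natCode p.2.2)).flatten)
    (h0.congr fun i => by simp [pairMultCode, triples, Function.comp_def])
  have h4 := Reads.decode (SD.list SD.natCode (SD.natCode.prod (SD.natCode.prod SD.natCode))
    fun p => by simp [natCode_ne_nil]) h3.2
  obtain ⟨f, hf, h5⟩ := ((h3.1.pair h4).comp (pt_det h2).natCode).exists_polyTime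
  exact ⟨f, hf, fun n w hw h0 => ⟨_, h5 ⟨n, w⟩, det_ok h1 hw h0⟩⟩

end Crest.Agent.R304
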