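import Crest.Agent.R304.Run

/-! Row 304: single terms of the energy density. -/

set_option autoImplicit false

namespace Crest.Agent.R304

open Finset

variable {n : ℕ} {lam : Fin n → Fin n → ℝ} {f : PM n → ℝ} {S Y : PM n} {p : ℕ → Fin n} {m : ℕ}

theorem dev_nu_pos (hl : Pos lam) (x y : Fin n) (S : PM n) : 0 < nu lam x y S :=
  mul_pos (hl.wt_pos S) (lt_min one_pos (div_pos (hl.pos _ _) (hl.pos _ _)))

theorem dev_w2_pos (hl : Pos lam) (x : PM n × PM n) : 0 < w2 lam x :=
  mul_pos (hl.wt_pos _) (hl.wt_pos _)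

theorem dev_ite_nonneg {c : Prop} [Decidable c] {a b : ℝ} (ha : 0 < a) :
    0 ≤ if c then a * b ^ 2 else 0 := by
  split_ifs
  · positivity
  · exact le_rfl

theorem dev_single {F : Fin n → Fin n → ℝ} (hF : ∀ a k, 0 ≤ F a k) (a k : Fin n) :
    F a k ≤ ∑ a, ∑ k, F a k :=
  (single_le_sum (fun k _ => hF a k) (mem_univ k)).trans
    (single_le_sum (f := fun a => ∑ k, F a k) (fun a _ => sum_nonneg fun k _ => hF a k) (mem_univ a))

theorem H1_nonneg (hl : Pos lam) (x : PM n × PM n) : 0 ≤ H1 lam f x := by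
  exact sum_nonneg fun a _ => sum_nonneg fun k _ =>
    dev_ite_nonneg (mul_pos (dev_nu_pos hl _ _ _) (dev_nu_pos hl _ _ _))

theorem H2_nonneg (hl : Pos lam) (x : PM n × PM n) : 0 ≤ H2 lam f x := by
  exact sum_nonneg fun a _ => sum_nonneg fun k _ => dev_ite_nonneg (dev_w2_pos hl x)

theorem loc_nonneg (hl : Pos lam) (F : PM n × PM n → ℝ) (x : PM n × PM n) : 0 ≤ loc lam F x := by
  exact sum_nonneg fun l _ =>
    mul_nonneg (le_min (dev_w2_pos hl _).le (dev_w2_pos hl _).le) (sq_nonneg _)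

/-- a single term of `H1` -/
theorem Run.dev_odd (hl : Pos lam) (R : Run S Y p m) (ho : m % 2 = 1) :
    nu lam (p 1) (p m) S * nu lam (p m) (p 1) Y * (f (shift (lst p m) S) - f S - gam lam f p m) ^ 2 ≤
      HH lam f (S, Y) := by
  obtain ⟨k, rfl⟩ : ∃ k, m = k + 1 := ⟨m - 1, by omega⟩
  have hk : k < n := R.toInj.le
  have h1 := dev_single (F := fun a k => if (seg Y S a (k + 1)).Nodup ∧ (k : ℕ) % 2 = 0 then
    nu lam a (walk Y S a k) S * nu lam (walk Y S a k) a Y *
      (f (shift (seg Y S a (k + 1)) S) - f S -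
        mn f (nu lam a (walk Y S a k)) (seg Y S a (k + 1))) ^ 2 else 0)
    (fun a k => dev_ite_nonneg (mul_pos (dev_nu_pos hl _ _ _) (dev_nu_pos hl _ _ _))) (p 1) ⟨k, hk⟩
  simp only [R.seg_eq, R.walk_eq (Nat.le_succ k)] at h1
  rw [if_pos ⟨nodup_lst.2 R.toInj, by omega⟩] at h1
  rw [gam, if_pos ho]
  have h2 := H2_nonneg (f := f) hl (S, Y)
  have h3 := loc_nonneg hl (two f) (S, Y)
  exact h1.trans (by unfold HH H1; linarith)

/-- a single term of `H2` -/
theorem Run.dev_cyc (hl : Pos lam) (R : Run S Y p m) (ho : m % 2 = 1) (hc : p (m + 1) = p 0) :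
    wt lam S * wt lam Y *
      (f (shift (lst p m) S) - f S - mn f (nuA lam (p 0) (p 1)) (lst p m)) ^ 2 ≤ HH lam f (S, Y) := by
  obtain ⟨k, rfl⟩ : ∃ k, m = k + 1 := ⟨m - 1, by omega⟩
  have hk : k < n := R.toInj.le
  have h1 := dev_single (F := fun a k =>
    if (seg Y S a (k + 1)).Nodup ∧ (k : ℕ) % 2 = 0 ∧ S a = Y (walk Y S a k) then
      w2 lam (S, Y) * (f (shift (seg Y S a (k + 1)) S) - f S -
        mn f (nuA lam (S a) a) (seg Y S a (k + 1))) ^ 2 else 0)
    (fun a k => dev_ite_nonneg (dev_w2_pos hl _)) (p 1) ⟨k, hk⟩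
  simp only [R.seg_eq, R.walk_eq (Nat.le_succ k), R.fst_one] at h1
  rw [if_pos ⟨nodup_lst.2 R.toInj, by omega, by rw [R.od _ le_rfl ho, hc]⟩] at h1
  have h2 := H1_nonneg (f := f) hl (S, Y)
  have h3 := loc_nonneg hl (two f) (S, Y)
  exact h1.trans (by unfold HH H2; linarith)

/-- a single term of `loc` -/
theorem dev_loc (hl : Pos lam) (x : PM n × PM n) (l : Lab n) :
    min (w2 lam x) (w2 lam (mv x l)) * (two f (mv x l) - two f x) ^ 2 ≤ HH lam f x := by
  have h1 : min (w2 lam x) (w2 lam (mv x l)) * (two f (mv x l) - two f x) ^ 2 ≤ loc lam (two f) x :=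
    single_le_sum (f := fun l => min (w2 lam x) (w2 lam (mv x l)) * (two f (mv x l) - two f x) ^ 2)
      (fun l _ => mul_nonneg (le_min (dev_w2_pos hl _).le (dev_w2_pos hl _).le) (sq_nonneg _))
      (mem_univ l)
  have h2 := H1_nonneg (f := f) hl x
  have h3 := H2_nonneg (f := f) hl x
  unfold HH
  linarith

theorem Dom.swap {E : ℝ} (D : Dom lam f (S, Y) E) : Dom lam f (Y, S) E := by
  exact fun ls hls => (D ls hls).symm

theorem Dom.nonneg (hl : Pos lam) {E : ℝ} {x : PM n × PM n} (D : Dom lam f x E) : 0 ≤ E := by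
  have h0 : HH lam f x ≤ E := (D [] (by simp)).1
  have h1 := H1_nonneg (f := f) hl x
  have h2 := H2_nonneg (f := f) hl x
  have h3 := loc_nonneg hl (two f) x
  unfold HH at h0
  linarith

theorem gam_congr {q : ℕ → Fin n} (hm : 1 ≤ m) (h : ∀ s, 1 ≤ s → s ≤ m → p s = q s) :
    gam lam f p m = gam lam f q m := by
  unfold gam
  split_ifs with ho
  · rw [h 1 le_rfl hm, h m hm le_rfl, lst_congr h]
  · rw [h 1 le_rfl hm, h 2 (by omega) (by omega),
      lst_congr (p := fun s => p (s + 1)) (q := fun s => q (s + 1))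
        fun s h1 h2 => h _ (by omega) (by omega)]

theorem gam_one : gam lam f p 1 = 0 := by
  have h1 : ∀ S : PM n, shift (lst p 1) S = S := by
    have h2 : ∀ v, rv (lst p 1) v = v := by
      intro v
      by_cases hv : v = p 1 <;> simp [rv, lst, hv]
    intro S
    ext v
    rw [shift_apply (by simp [lst]), h2, h2]
  simp [gam, mn, h1]

theorem dev_pre_shift (h : Inj p m) (ho : m % 2 = 1) (hS : Pre (lst p m) S) :
    Pre (lst p m).reverse (shift (lst p m) S) := by
  rw [← lst_rev, pre_lst]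
  intro s h1 h2 h3
  rw [PM.eq_iff, show m + 1 - (s + 1) = m - s by omega, show m + 1 - s = m - s + 1 by omega]
  exact h.shift_inner ho hS (by omega) (by omega)

theorem dev_inj_rev (h : Inj p m) : Inj (fun s => p (m + 1 - s)) m := by
  intro i j h1 h2 h3 h4 e
  have := h _ _ (by omega) (by omega) (by omega) (by omega) e
  omega

/-- `S ↦ shift (lst p m) S` is a bijection from `Pre (lst p m)` to `Pre (lst p m).reverse`, and by `Inj.wt_shift`
`nu lam (p m) (p 1) (shift (lst p m) S) = κ * nu lam (p 1) (p m) S` with `κ > 0` depending only on `p, m` -/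
theorem gam_rev (hl : Pos lam) (h : Inj p m) (ho : m % 2 = 1) :
    gam lam f (fun s => p (m + 1 - s)) m = - gam lam f p m := by
  classical
  have hm : 1 ≤ m := by omega
  set A := ∏ i ∈ range (m / 2), lam (p (2 * i + 2)) (p (2 * i + 3)) with hA
  set B := ∏ i ∈ range (m / 2), lam (p (2 * i + 1)) (p (2 * i + 2)) with hB
  have hA0 : 0 < A := prod_pos fun _ _ => hl.pos _ _
  have hB0 : 0 < B := prod_pos fun _ _ => hl.pos _ _
  have hnu : ∀ S : PM n, Pre (lst p m) S →
      nu lam (p m) (p 1) (shift (lst p m) S) = B / A * nu lam (p 1) (p m) S := by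
    intro S hS
    have h1 := h.wt_shift hl ho hS
    rw [← hA, ← hB] at h1
    have ha := hl.pos (S (p 1)) (p 1)
    have hb := hl.pos (S (p 1)) (p m)
    unfold nu
    rw [h.shift_last ho hS, eq_div_of_mul_eq (by positivity) h1]
    generalize lam (S (p 1)) (p 1) = a at ha ⊢
    generalize lam (S (p 1)) (p m) = b at hb ⊢
    rcases le_total a b with hab | hab
    · rw [min_eq_right ((div_le_one hb).2 hab), min_eq_left ((one_le_div ha).2 hab)]
      field_simp
    · rw [min_eq_left ((one_le_div hb).2 hab), min_eq_right ((div_le_one ha).2 hab)]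
      field_simp
  have hsum : ∀ F : PM n → ℝ, ∑ S ∈ univ.filter (Pre (lst p m).reverse), F S =
      ∑ S ∈ univ.filter (Pre (lst p m)), F (shift (lst p m) S) := by
    intro F
    refine (sum_nbij' (shift (lst p m)) (shift (lst p m)) (fun S hS => ?_) (fun S hS => ?_)
      (fun S _ => shift_shift _ S) (fun S _ => shift_shift _ S) fun S _ => rfl).symm
    · exact mem_filter.2 ⟨mem_univ _, dev_pre_shift h ho (mem_filter.1 hS).2⟩
    · have h1 := (mem_filter.1 hS).2
      rw [← lst_rev] at h1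
      have h2 := dev_pre_shift (dev_inj_rev h) ho h1
      rw [lst_rev, List.reverse_reverse, shift_reverse] at h2
      exact mem_filter.2 ⟨mem_univ _, h2⟩
  unfold gam
  rw [if_pos ho, if_pos ho, lst_rev]
  simp only [Nat.add_sub_cancel, Nat.add_sub_cancel_left]
  unfold mn
  rw [hsum, hsum]
  have e1 : ∑ S ∈ univ.filter (Pre (lst p m)), nu lam (p m) (p 1) (shift (lst p m) S) *
      (f (shift (lst p m).reverse (shift (lst p m) S)) - f (shift (lst p m) S)) =
      B / A * -∑ S ∈ univ.filter (Pre (lst p m)),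
        nu lam (p 1) (p m) S * (f (shift (lst p m) S) - f S) := by
    rw [← sum_neg_distrib, mul_sum]
    refine sum_congr rfl fun S hS => ?_
    rw [hnu S (mem_filter.1 hS).2, shift_reverse, shift_shift]
    ring
  have e2 : ∑ S ∈ univ.filter (Pre (lst p m)), nu lam (p m) (p 1) (shift (lst p m) S) =
      B / A * ∑ S ∈ univ.filter (Pre (lst p m)), nu lam (p 1) (p m) S := by
    rw [mul_sum]
    exact sum_congr rfl fun S hS => hnu S (mem_filter.1 hS).2
  rw [e1, e2, mul_div_mul_left _ _ (by positivity), neg_div]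

theorem dev_le_nu {K : ℝ} (hl : Pos lam) (hK : 1 ≤ K) {x y : Fin n} {S : PM n}
    (h : lam (S x) x ≤ K * lam (S x) y) : wt lam S ≤ K * nu lam x y S := by
  have h1 : 1 ≤ K * min 1 (lam (S x) y / lam (S x) x) := by
    rw [mul_min_of_nonneg _ _ (by linarith), mul_one]
    refine le_min hK ?_
    rw [← mul_div_assoc, one_le_div (hl.pos _ _)]
    exact h
  have h2 := hl.wt_pos S
  unfold nu
  nlinarith

/-- For a proper odd run: `nu ... S ≥ wt S / K` and `nu ... Y ≥ wt Y / K` (`Run.chord`; `p 0 ≠ p m` and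
`p 1 ≠ p (m + 1)` by `Inj.out`). -/
theorem Run.dev_odd_proper {K E : ℝ} (hl : Pos lam) (hK : 1 ≤ K) (hQ : QU lam K) (R : Run S Y p m)
    (P : Proper lam p m) (D : Dom lam f (S, Y) E) (ho : m % 2 = 1) :
    wt lam S * wt lam Y * (f (shift (lst p m) S) - f S - gam lam f p m) ^ 2 ≤ K ^ 2 * E := by
  have hm := R.pos
  have h1 : wt lam S ≤ K * nu lam (p 1) (p m) S := by
    refine dev_le_nu hl hK ?_
    rw [R.fst_one]
    refine R.chord hQ (by omega) (by omega) ?_ fun s _ hs => ?_
    · rw [← R.fst_one]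
      exact R.toInj.out ho R.pre hm le_rfl
    · rcases Nat.eq_zero_or_pos s with rfl | h0
      · exact le_rfl
      · exact (P s h0 hs).1
  have h2 : wt lam Y ≤ K * nu lam (p m) (p 1) Y := by
    refine dev_le_nu hl hK ?_
    rw [R.od m le_rfl ho, hl.symm _ (p m), hl.symm _ (p 1)]
    refine R.chord hQ (by omega) le_rfl ?_ fun s h0 hs => ?_
    · have := (R.rev_odd ho).toInj.out ho (R.rev_odd ho).pre hm le_rfl
      simp only [Nat.add_sub_cancel, Nat.add_sub_cancel_left] at this
      rw [R.od m le_rfl ho] at this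
      exact this.symm
    · rcases Nat.lt_succ_iff_lt_or_eq.1 hs with h3 | rfl
      · exact (P s h0 h3).2
      · exact le_rfl
  have h3 := (R.dev_odd (f := f) hl ho).trans (D [] (by simp)).1
  have h4 := hl.wt_pos S
  have h5 := hl.wt_pos Y
  calc _ ≤ (K * nu lam (p 1) (p m) S) * (K * nu lam (p m) (p 1) Y) *
        (f (shift (lst p m) S) - f S - gam lam f p m) ^ 2 := by gcongr; exact h4.le.trans h1
    _ = K ^ 2 * (nu lam (p 1) (p m) S * nu lam (p m) (p 1) Y *
        (f (shift (lst p m) S) - f S - gam lam f p m) ^ 2) := by ring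
    _ ≤ K ^ 2 * E := by gcongr

/-- For a proper even run: `S' = shift [p 0, p m] S` contains `p m p 1`, `Run Y S' (fun s => p (s + 1))`-like cycle
(redefine the vertex after `p m` to be `p 1`), `Run.dev_cyc` at `(Y, S') = mv (Y, S) (2, p 0, p m)`;
`wt S ≤ K ^ 2 * wt S'` by `wt_shift_pair` and `Run.chord` (`S' = S` if `p 0 = p m`). -/
theorem Run.dev_even_proper {K E : ℝ} (hl : Pos lam) (hK : 1 ≤ K) (hQ : QU lam K) (R : Run S Y p m)
    (P : Proper lam p m) (D : Dom lam f (S, Y) E) (he : m % 2 = 0) :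
    wt lam S * wt lam Y *
      (f (shift (lst (fun s => p (s + 1)) (m - 1)) Y) - f Y - gam lam f p m) ^ 2 ≤ K ^ 2 * E := by
  have hm := R.pos
  have hm2 : 2 ≤ m := by omega
  have h01 : S (p 0) = p 1 := R.ev 0 (by omega) rfl
  have hmm : S (p m) = p (m + 1) := R.ev m le_rfl he
  have h1m : p 1 ≠ p m := fun e => by
    have := R.inj _ _ le_rfl hm hm le_rfl e
    omega
  set S' := shift [p 0, p m] S with hS'
  have hlast : S' (p m) = p 1 := by
    by_cases h0 : p 0 = p m
    · rw [hS', h0, shift_pair_self, ← h0, h01]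
    · rw [hS', shift_pair_apply h0, Equiv.swap_apply_right, h01,
        Equiv.swap_apply_of_ne_of_ne (R.ne_succ (Nat.zero_le _)).symm h1m]
  have hinner : ∀ s, 2 ≤ s → s < m → s % 2 = 0 → S' (p s) = p (s + 1) := by
    intro s h1 h2 h3
    have h4 := R.ev s h2.le h3
    by_cases h0 : p 0 = p m
    · rw [hS', h0, shift_pair_self, h4]
    · have e1 : p s ≠ p 0 := fun e => by
        rw [e, h01] at h4
        have := R.inj _ _ le_rfl hm (by omega) (by omega) h4
        omega
      have e2 : p s ≠ p m := fun e => by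
        have := R.inj _ _ (by omega) (by omega) hm le_rfl e
        omega
      have e3 : p (s + 1) ≠ p 0 := fun e => by
        rw [e, PM.eq_iff, h01] at h4
        have := R.inj _ _ le_rfl hm (by omega) (by omega) h4
        omega
      have e4 : p (s + 1) ≠ p m := fun e => by
        have := R.inj _ _ (by omega) (by omega) hm le_rfl e
        omega
      rw [hS', shift_pair_apply h0, Equiv.swap_apply_of_ne_of_ne e1 e2, h4,
        Equiv.swap_apply_of_ne_of_ne e3 e4]
  set q : ℕ → Fin n := fun s => if s = m then p 1 else p (s + 1) with hq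
  have hq1 : ∀ s, s < m → q s = p (s + 1) := fun s hs => if_neg hs.ne
  have hq2 : q m = p 1 := if_pos rfl
  have R' : Run Y S' q (m - 1) := by
    refine ⟨by omega, fun i j h1 h2 h3 h4 e => ?_, fun i h1 h2 => ?_, fun i h1 h2 => ?_⟩
    · rw [hq1 i (by omega), hq1 j (by omega)] at e
      have := R.inj _ _ (by omega) (by omega) (by omega) (by omega) e
      omega
    · rw [hq1 i (by omega), hq1 (i + 1) (by omega)]
      exact R.od _ (by omega) (by omega)
    · rw [hq1 i (by omega)]
      by_cases h3 : i + 1 = m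
      · rw [h3, hq2, hlast]
      · rw [hq1 (i + 1) (by omega)]
        exact hinner _ (by omega) (by omega) (by omega)
  have h1 := R'.dev_cyc (f := f) hl (by omega)
    (by rw [Nat.sub_add_cancel hm, hq2, hq1 0 (by omega)])
  rw [hq1 0 (by omega), hq1 1 (by omega),
    lst_congr (q := fun s => p (s + 1)) fun s _ h2 => hq1 s (by omega)] at h1
  have h2 : HH lam f (Y, S') ≤ E := by
    have := (D [(2, p 0, p m)] (by simp)).2
    rwa [List.foldl_cons, List.foldl_nil, Prod.swap_prod_mk, mv_snd] at this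
  have hS := hl.wt_pos S
  have hY := hl.wt_pos Y
  have hS'0 := hl.wt_pos S'
  have h3 : wt lam S ≤ K ^ 2 * wt lam S' := by
    by_cases h0 : p 0 = p m
    · rw [hS', h0, shift_pair_self]
      exact le_mul_of_one_le_left hS.le (one_le_pow₀ hK)
    have h4 := wt_shift_pair (S := S) hl h0 (by rw [h01]; exact h1m)
    rw [h01, hmm, ← hS', hl.symm (p m) (p 1)] at h4
    have h5 : max (lam (p 0) (p 1)) (lam (p m) (p (m + 1))) ≤ K * lam (p 1) (p m) :=
      R.chord hQ (by omega) (by omega) h1m fun s h6 h7 => max_le (P s h6 h7).1 (P s h6 h7).2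
    have h6 : min (lam (p 0) (p 1)) (lam (p m) (p (m + 1))) ≤ K * lam (p 0) (p (m + 1)) := by
      refine R.chord hQ (by omega) le_rfl (fun e => ?_) fun s _ h7 => ?_
      · rw [← e, PM.eq_iff, h01] at hmm
        exact h1m hmm
      · rcases Nat.eq_zero_or_pos s with rfl | h8
        · exact min_le_left _ _
        · rcases Nat.lt_succ_iff_lt_or_eq.1 h7 with h9 | rfl
          · exact (min_le_left _ _).trans (P s h8 h9).1
          · exact min_le_right _ _
    have h7 := mul_le_mul h5 h6 (le_min (hl.pos _ _).le (hl.pos _ _).le)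
      ((le_max_left _ _).trans' (hl.pos _ _).le |>.trans h5)
    rw [max_mul_min] at h7
    refine le_of_mul_le_mul_right ?_ (mul_pos (hl.pos (p 1) (p m)) (hl.pos (p 0) (p (m + 1))))
    rw [← h4]
    calc _ ≤ wt lam S' * (K * lam (p 1) (p m) * (K * lam (p 0) (p (m + 1)))) := by gcongr
      _ = _ := by ring
  rw [gam, if_neg (by omega)]
  calc _ ≤ K ^ 2 * wt lam S' * wt lam Y * (f (shift (lst (fun s => p (s + 1)) (m - 1)) Y) - f Y -
        mn f (nuA lam (p 1) (p 2)) (lst (fun s => p (s + 1)) (m - 1))) ^ 2 := by gcongr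
    _ = K ^ 2 * (wt lam Y * wt lam S' * (f (shift (lst (fun s => p (s + 1)) (m - 1)) Y) - f Y -
        mn f (nuA lam (p 1) (p 2)) (lst (fun s => p (s + 1)) (m - 1))) ^ 2) := by ring
    _ ≤ K ^ 2 * E := by gcongr; exact h1.trans h2

end Crest.Agent.R304
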