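import Crest.Agent.R304.Glue

/-! Row 304: Edmonds' perfect matching polytope theorem. -/

set_option autoImplicit false

namespace Crest.Agent.R304

open Finset

variable {V E : Type} [DecidableEq V] [Fintype E] [DecidableEq E]

theorem edmonds_min {ι : Type*} (s : Finset ι) (a b : ι → ℝ) (hb : ∀ i ∈ s, 0 ≤ b i)
    (hab : ∀ i ∈ s, 0 < a i → 0 < b i) (hne : ∃ i ∈ s, 0 < a i) :
    ∃ t : ℝ, 0 < t ∧ (∀ i ∈ s, t * a i ≤ b i) ∧ ∃ i ∈ s, 0 < a i ∧ t * a i = b i := by
  classical
  obtain ⟨i, hi, hmin⟩ := (s.filter fun i => 0 < a i).exists_min_image (fun i => b i / a i)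
    (let ⟨i, h1, h2⟩ := hne; ⟨i, mem_filter.2 ⟨h1, h2⟩⟩)
  obtain ⟨hi1, hi2⟩ := mem_filter.1 hi
  have ht : 0 < b i / a i := div_pos (hab i hi1 hi2) hi2
  refine ⟨b i / a i, ht, fun j hj => ?_, i, hi1, hi2, div_mul_cancel₀ _ hi2.ne'⟩
  rcases lt_or_ge 0 (a j) with h | h
  · exact (le_div_iff₀ h).1 (hmin j (mem_filter.2 ⟨hj, h⟩))
  · exact (mul_nonpos_of_nonneg_of_nonpos ht.le h).trans (hb j hj)

omit [DecidableEq E] in
theorem edmonds_mem_cut {ends : E → V × V} {S : Finset V} {e : E} :
    e ∈ cut ends S ↔ ¬ ((ends e).1 ∈ S ↔ (ends e).2 ∈ S) := by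
  simp [cut]

omit [DecidableEq E] in
theorem edmonds_cut_compl {ends : E → V × V} {U S : Finset V} {z : E → ℝ}
    (hz : ∀ e, z e ≠ 0 → (ends e).1 ∈ U ∧ (ends e).2 ∈ U) :
    ∑ e ∈ cut ends (U \ S), z e = ∑ e ∈ cut ends S, z e := by
  unfold cut
  rw [sum_filter, sum_filter]
  refine sum_congr rfl fun e _ => ?_
  by_cases h : z e = 0
  · simp [h]
  · obtain ⟨h1, h2⟩ := hz e h
    simp only [mem_sdiff, h1, h2, true_and, not_iff_not]

omit [DecidableEq E] in
theorem edmonds_even {ends : E → V × V} {U : Finset V} {x : E → ℝ} (h : InQ ends U x) :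
    Even U.card := by
  by_contra ho
  have h1 := h.odd U Subset.rfl (Nat.not_even_iff_odd.1 ho)
  rw [sum_eq_zero] at h1
  · exact absurd h1 (by norm_num)
  · intro e he
    by_contra h0
    obtain ⟨h2, h3, -⟩ := h.supp e h0
    exact edmonds_mem_cut.1 he (iff_of_true h2 h3)

omit [DecidableEq E] in
/-- trivial odd cuts are tight -/
theorem edmonds_triv {ends : E → V × V} {U S : Finset V} {z : E → ℝ} (hU : Even U.card)
    (hz : ∀ e, z e ≠ 0 → (ends e).1 ∈ U ∧ (ends e).2 ∈ U)
    (hd : ∀ v ∈ U, ∑ e ∈ cut ends {v}, z e = 1) (hS : S ⊆ U) (ho : Odd S.card)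
    (hn : ¬ (3 ≤ S.card ∧ S.card + 3 ≤ U.card)) : ∑ e ∈ cut ends S, z e = 1 := by
  have hle := card_le_card hS
  obtain ⟨a, ha⟩ := hU
  obtain ⟨b, hb⟩ := ho
  by_cases h1 : S.card = 1
  · obtain ⟨v, rfl⟩ := card_eq_one.1 h1
    exact hd v (hS (mem_singleton_self v))
  · have h2 : (U \ S).card = 1 := by rw [card_sdiff_of_subset hS]; omega
    obtain ⟨v, hv⟩ := card_eq_one.1 h2
    rw [← edmonds_cut_compl hz, hv]
    exact hd v (mem_sdiff.1 (hv ▸ mem_singleton_self v)).1

omit [Fintype E] in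
theorem edmonds_ind_sum (M C : Finset E) :
    ∑ e ∈ C, (if e ∈ M then (1 : ℝ) else 0) = (M ∩ C).card := by
  rw [sum_boole, filter_mem_eq_inter, inter_comm]

theorem edmonds_marg_dirac (M : Finset E) (e : E) :
    marg (fun N => if N = M then (1 : ℝ) else 0) e = if e ∈ M then 1 else 0 := by
  simp [marg]

theorem edmonds_mix {ends : E → V × V} {U : Finset V} {M : Finset E} (hM : IsPMOn ends U M)
    {p : Finset E → ℝ} (hp : IsLawOn ends U p) {t : ℝ} (ht : 0 < t) {x : E → ℝ}
    (hx : marg p = fun e => (1 + t) * x e - t * if e ∈ M then 1 else 0) :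
    ∃ p, IsLawOn ends U p ∧ marg p = x := by
  refine ⟨fun N => (p N + t * if N = M then 1 else 0) / (1 + t), ⟨fun N => ?_, ?_, fun N hN => ?_⟩,
    funext fun e => ?_⟩
  · have := hp.1 N
    dsimp only
    split_ifs <;> positivity
  · rw [← sum_div, sum_add_distrib, hp.2.1, ← mul_sum]
    simp only [sum_ite_eq', mem_univ, if_true, mul_one]
    exact div_self (by positivity)
  · by_cases h : N = M
    · rwa [h]
    · refine hp.2.2 N fun h0 => hN ?_
      simp [h, h0]
  · have h1 := congrFun hx e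
    have h2 := edmonds_marg_dirac M e
    unfold marg at h1 h2 ⊢
    rw [← sum_div, sum_add_distrib, ← mul_sum, h1, h2]
    field_simp
    ring

theorem edmonds_integral {ends : E → V × V} {U : Finset V} {x : E → ℝ} (h : InQ ends U x)
    {M : Finset E} (hM : IsPMOn ends U M) (h1 : ∀ e ∈ M, 1 ≤ x e) :
    ∃ p, IsLawOn ends U p ∧ marg p = x := by
  refine ⟨fun N => if N = M then 1 else 0, ⟨fun N => ?_, by simp, fun N hN => ?_⟩,
    funext fun e => ?_⟩
  · dsimp only
    split_ifs <;> norm_num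
  · by_cases hN' : N = M
    · rwa [hN']
    · exact absurd (if_neg hN') hN
  · rw [edmonds_marg_dirac]
    have key : ∀ v ∈ U, ∀ e ∈ cut ends {v}, x e - (if e ∈ M then 1 else 0) = 0 := by
      intro v hv
      refine (sum_eq_zero_iff_of_nonneg fun e _ => ?_).1 ?_
      · split_ifs with he
        · linarith [h1 e he]
        · linarith [h.nonneg e]
      · rw [sum_sub_distrib, h.deg v hv, edmonds_ind_sum, hM.2 v hv]
        simp
    by_cases h0 : x e = 0
    · rw [h0, if_neg]
      intro he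
      linarith [h1 e he]
    · obtain ⟨h2, -, h3⟩ := h.supp e h0
      have := key _ h2 e (edmonds_mem_cut.2 (by simpa using h3.symm))
      linarith

theorem edmonds_step {ends : E → V × V} {U : Finset V} {x : E → ℝ} (h : InQ ends U x)
    (ih : ∀ (ends' : E → V × V) (U' : Finset V) (x' : E → ℝ), U'.card < U.card → InQ ends' U' x' →
      ∃ p, IsLawOn ends' U' p ∧ marg p = x')
    (ih' : ∀ y : E → ℝ, (univ.filter fun e => y e ≠ 0).card < (univ.filter fun e => x e ≠ 0).card →
      InQ ends U y → ∃ p, IsLawOn ends U p ∧ marg p = y) :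
    ∃ p, IsLawOn ends U p ∧ marg p = x := by
  by_cases hT : ∃ S ∈ Tight ends U x, 3 ≤ S.card ∧ S.card + 3 ≤ U.card
  · obtain ⟨S, hS, h1, h2⟩ := hT
    exact h.glue ih hS h1 h2
  obtain ⟨M, hM, hMx⟩ := h.exists_pm
  by_cases hI : ∀ e ∈ M, 1 ≤ x e
  · exact edmonds_integral h hM hI
  have hU := edmonds_even h
  have htx : ∀ S ⊆ U, Odd S.card → ¬ (3 ≤ S.card ∧ S.card + 3 ≤ U.card) →
      ∑ e ∈ cut ends S, x e = 1 := fun S hS ho hn =>
    edmonds_triv hU (fun e he => ⟨(h.supp e he).1, (h.supp e he).2.1⟩) h.deg hS ho hn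
  have htM : ∀ S ⊆ U, Odd S.card → ¬ (3 ≤ S.card ∧ S.card + 3 ≤ U.card) →
      ((M ∩ cut ends S).card : ℝ) = 1 := fun S hS ho hn => by
    rw [← edmonds_ind_sum]
    refine edmonds_triv hU (fun e he => ?_) (fun v hv => ?_) hS ho hn
    · have he' : e ∈ M := by
        by_contra h0
        exact he (if_neg h0)
      exact ⟨(hM.1 e he').1, (hM.1 e he').2.1⟩
    · rw [edmonds_ind_sum, hM.2 v hv, Nat.cast_one]
  obtain ⟨t, ht, hle, i, hi, hpos, heq⟩ := edmonds_min
    (M.disjSum (U.powerset.filter fun S => Odd S.card))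
    (Sum.elim (fun e => 1 - x e) fun S => (M ∩ cut ends S).card - ∑ e ∈ cut ends S, x e)
    (Sum.elim x fun S => ∑ e ∈ cut ends S, x e - 1)
    (by
      rintro (e | S) hi
      · exact h.nonneg e
      · rw [inr_mem_disjSum, mem_filter, mem_powerset] at hi
        exact sub_nonneg.2 (h.odd S hi.1 hi.2))
    (by
      rintro (e | S) hi hpos
      · exact hMx e (inl_mem_disjSum.1 hi)
      · rw [inr_mem_disjSum, mem_filter, mem_powerset] at hi
        refine sub_pos.2 (lt_of_le_of_ne (h.odd S hi.1 hi.2) fun h1 => ?_)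
        have h2 := htM S hi.1 hi.2 fun hn => hT ⟨S, ⟨hi.1, hi.2, h1.symm⟩, hn⟩
        simp only [Sum.elim_inr] at hpos
        linarith)
    (by
      push Not at hI
      obtain ⟨e, he, he'⟩ := hI
      exact ⟨Sum.inl e, inl_mem_disjSum.2 he, sub_pos.2 he'⟩)
  set y : E → ℝ := fun e => (1 + t) * x e - t * if e ∈ M then 1 else 0 with hy
  have hysum : ∀ C : Finset E, ∑ e ∈ C, y e = (1 + t) * ∑ e ∈ C, x e - t * (M ∩ C).card := by
    intro C
    rw [hy, sum_sub_distrib, ← mul_sum, ← mul_sum, edmonds_ind_sum]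
  have hy0 : ∀ e, y e ≠ 0 → x e ≠ 0 := by
    intro e he h0
    have he' : e ∉ M := fun he' => (hMx e he').ne' h0
    exact he (by simp [hy, h0, he'])
  have hyQ : InQ ends U y := by
    refine ⟨fun e => ?_, fun e he => h.supp e (hy0 e he), fun v hv => ?_, fun S hS ho => ?_⟩
    · simp only [hy]
      split_ifs with he
      · have := hle (Sum.inl e) (inl_mem_disjSum.2 he)
        simp only [Sum.elim_inl] at this
        linarith
      · have := h.nonneg e
        rw [mul_zero, sub_zero]
        positivity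
    · rw [hysum, h.deg v hv, hM.2 v hv]
      simp
    · have := hle (Sum.inr S) (inr_mem_disjSum.2 (mem_filter.2 ⟨mem_powerset.2 hS, ho⟩))
      simp only [Sum.elim_inr] at this
      rw [hysum]
      linarith
  have hfin : ∃ p, IsLawOn ends U p ∧ marg p = y := by
    rcases i with e | S
    · have he := inl_mem_disjSum.1 hi
      simp only [Sum.elim_inl] at heq
      refine ih' y (card_lt_card ⟨fun e' he' => ?_, fun hsub => ?_⟩) hyQ
      · exact mem_filter.2 ⟨mem_univ _, hy0 e' (mem_filter.1 he').2⟩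
      · refine (mem_filter.1 (hsub (mem_filter.2 ⟨mem_univ e, (hMx e he).ne'⟩))).2 ?_
        simp only [hy, if_pos he]
        linarith
    · rw [inr_mem_disjSum, mem_filter, mem_powerset] at hi
      simp only [Sum.elim_inr] at heq hpos
      have hn : 3 ≤ S.card ∧ S.card + 3 ≤ U.card := by
        by_contra hn
        rw [htx S hi.1 hi.2 hn, htM S hi.1 hi.2 hn] at hpos
        linarith
      refine hyQ.glue ih (S := S) ⟨hi.1, hi.2, ?_⟩ hn.1 hn.2
      rw [hysum]
      linarith
  obtain ⟨p, hp, hpy⟩ := hfin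
  exact edmonds_mix hM hp ht hpy

/-- Strong induction on `|U|`, then on the size of the support of `x`.  If there is a tight odd `S` with
`3 ≤ |S| ≤ |U| - 3` use `InQ.glue`.  Otherwise take `M` from `InQ.exists_pm`.  If `x e = 1` for all `e ∈ M`
then `x` is the indicator of `M` (degree constraints).  Otherwise let `x t = x - t (1_M - x)` and take the
largest `t ≥ 0` with `x t e ≥ 0` for `e ∈ M` and `x t (cut S) ≥ 1` for the finitely many odd `S` (a minimum of
finitely many positive numbers; cuts with `|S| = 1` or `|S| = |U| - 1` stay tight as the cut of `U \ {v}`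
agrees with that of `{v}` on the support).  `x t` satisfies `InQ` and has either a smaller support or a
nontrivial tight cut, so it is `marg p'`, and `x = (x t + t 1_M) / (1 + t)`. -/
theorem InQ.exists_law {ends : E → V × V} {U : Finset V} {x : E → ℝ} (h : InQ ends U x) :
    ∃ p, IsLawOn ends U p ∧ marg p = x := by
  induction hn : U.card using Nat.strong_induction_on generalizing ends U x with
  | _ n ih =>
    induction hm : (univ.filter fun e => x e ≠ 0).card using Nat.strong_induction_on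
      generalizing x with
    | _ m ih' =>
      exact edmonds_step h (fun ends' U' x' h1 h2 => ih _ (hn ▸ h1) h2 rfl)
        fun y h1 h2 => ih' _ (hm ▸ h1) h2 rfl

end Crest.Agent.R304
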