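import Crest.Agent.R304.Poly

/-! Row 304: laws of maximal entropy with a given mean of zero-one vectors. -/

set_option autoImplicit false

namespace Crest.Agent.R304

open Finset

variable {ι E : Type} [Fintype ι] [Fintype E]

/-- a probability law on the points satisfying `Ω` -/
def Law (Ω : ι → Prop) (p : ι → ℝ) : Prop := (∀ i, 0 ≤ p i) ∧ ∑ i, p i = 1 ∧ ∀ i, p i ≠ 0 → Ω i

/-- the mean of the vectors `a i` -/
def mean (a : ι → E → ℝ) (p : ι → ℝ) : E → ℝ := fun e => ∑ i, p i * a i e

/-- Shannon entropy -/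
noncomputable def ent (p : ι → ℝ) : ℝ := ∑ i, Real.negMulLog (p i)

/-- a law of maximal entropy among those with the same mean -/
def IsMax (Ω : ι → Prop) (a : ι → E → ℝ) (μ : ι → ℝ) : Prop :=
  Law Ω μ ∧ ∀ q, Law Ω q → mean a q = mean a μ → ent q ≤ ent μ

/-- two-sided feasible directions at `x` in the set of means -/
def dirs (Ω : ι → Prop) (a : ι → E → ℝ) (x : E → ℝ) : Set (E → ℝ) :=
  {h | ∃ ε : ℝ, 0 < ε ∧ ∀ t : ℝ, |t| < ε → ∃ q, Law Ω q ∧ mean a q = x + t • h}

/-- covariance matrix -/
def cov (a : ι → E → ℝ) (μ : ι → ℝ) (e f : E) : ℝ :=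
  ∑ i, μ i * ((a i e - mean a μ e) * (a i f - mean a μ f))

/-- the function to be minimised -/
noncomputable def gapFn (a : ι → E → ℝ) (c : ℝ) (q : ι → ℝ) : ℝ :=
  ent q - ∑ e, Real.negMulLog (mean a q e) + c * ∑ e, Real.negMulLog (1 - mean a q e)

variable {Ω : ι → Prop} {a : ι → E → ℝ}

omit [Fintype E] in
theorem entmax_continuous_mean (a : ι → E → ℝ) : Continuous (mean a) := by
  unfold mean
  fun_prop

theorem entmax_continuous_ent : Continuous (ent : (ι → ℝ) → ℝ) :=
  continuous_finsetSum _ fun i _ => Real.continuous_negMulLog.comp (continuous_apply i)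

theorem entmax_isClosed_law (Ω : ι → Prop) : IsClosed {p | Law Ω p} := by
  have h : {p | Law Ω p} = (⋂ i, {p : ι → ℝ | 0 ≤ p i}) ∩ ({p | ∑ i, p i = 1} ∩
      ⋂ i, ⋂ (_ : ¬ Ω i), {p | p i = 0}) := by
    ext p
    simp only [Law, Set.mem_ofPred_eq, Set.mem_inter_iff, Set.mem_iInter]
    exact and_congr_right fun _ => and_congr_right fun _ => forall_congr' fun i => not_imp_comm
  rw [h]
  exact (isClosed_iInter fun i => isClosed_le continuous_const (continuous_apply i)).inter
    ((isClosed_eq (by fun_prop) continuous_const).inter (isClosed_iInter fun i =>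
      isClosed_iInter fun _ => isClosed_eq (continuous_apply i) continuous_const))

theorem entmax_isCompact_law (Ω : ι → Prop) : IsCompact {p | Law Ω p} :=
  (isCompact_stdSimplex ℝ ι).of_isClosed_subset (entmax_isClosed_law Ω) fun _ hp => ⟨hp.1, hp.2.1⟩

theorem entmax_law_zero {p : ι → ℝ} (hp : Law Ω p) {i : ι} (hi : ¬ Ω i) : p i = 0 := by
  by_contra h
  exact hi (hp.2.2 i h)

theorem entmax_concave {x y t : ℝ} (hx : 0 ≤ x) (hy : 0 ≤ y) (h0 : 0 ≤ t) (h1 : t ≤ 1) :
    (1 - t) * Real.negMulLog x + t * Real.negMulLog y ≤ Real.negMulLog ((1 - t) * x + t * y) :=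
  Real.concaveOn_negMulLog.2 hx hy (sub_nonneg.2 h1) h0 (sub_add_cancel 1 t)

omit [Fintype E] in
/-- compactness of the laws with a given mean, continuity of `ent` -/
theorem Law.exists_isMax {p : ι → ℝ} (hp : Law Ω p) : ∃ μ, IsMax Ω a μ ∧ mean a μ = mean a p := by
  have hK : IsCompact ({q | Law Ω q} ∩ {q | mean a q = mean a p}) :=
    (entmax_isCompact_law Ω).inter_right (isClosed_eq (entmax_continuous_mean a) continuous_const)
  obtain ⟨μ, ⟨h1, h2⟩, h3⟩ := hK.exists_isMaxOn ⟨p, hp, rfl⟩ entmax_continuous_ent.continuousOn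
  exact ⟨μ, ⟨h1, fun q hq hm => h3 ⟨hq, hm.trans h2⟩⟩, h2⟩

omit [Fintype E] in
/-- The support of a maximiser is maximal: otherwise `ent ((1 - t) μ + t q) - ent μ ≥ - t q i log (t q i) - C t > 0`
for small `t > 0` (use concavity of `negMulLog` / an explicit Lipschitz bound on the support of `μ`). -/
theorem IsMax.supp {μ q : ι → ℝ} (h : IsMax Ω a μ) (hq : Law Ω q) (hm : mean a q = mean a μ) {i : ι}
    (hi : q i ≠ 0) : μ i ≠ 0 := by
  classical
  intro h0
  have hqi : 0 < q i := lt_of_le_of_ne (hq.1 i) (Ne.symm hi)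
  set K : ℝ := |ent μ - ent q| / q i + 1 with hK
  have hK0 : 0 ≤ K := by positivity
  set t : ℝ := Real.exp (-K) with ht
  have ht0 : 0 < t := Real.exp_pos _
  have ht1 : t ≤ 1 := Real.exp_le_one_iff.2 (by linarith)
  have h1 : ent (fun j => (1 - t) * μ j + t * q j) ≤ ent μ := by
    refine h.2 _ ⟨fun j => add_nonneg (mul_nonneg (sub_nonneg.2 ht1) (h.1.1 j))
      (mul_nonneg ht0.le (hq.1 j)), ?_, fun j hj => ?_⟩ ?_
    · simp only [sum_add_distrib, ← mul_sum, h.1.2.1, hq.2.1]
      ring
    · by_contra h'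
      apply hj
      simp [entmax_law_zero h.1 h', entmax_law_zero hq h']
    · funext e
      have h1 := congrFun hm e
      simp only [mean] at h1
      simp only [mean, add_mul, sum_add_distrib, mul_assoc, ← mul_sum, h1]
      ring
  have h2 : (1 - t) * ent μ + t * ent q + q i * Real.negMulLog t ≤
      ent (fun j => (1 - t) * μ j + t * q j) := by
    have h3 : q i * Real.negMulLog t = ∑ j, if j = i then q i * Real.negMulLog t else 0 := by simp
    rw [h3]
    simp only [ent, mul_sum, ← sum_add_distrib]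
    refine sum_le_sum fun j _ => ?_
    split_ifs with hj
    · subst hj
      rw [h0, Real.negMulLog_zero, mul_zero, zero_add, zero_add, Real.negMulLog_mul]
      linarith
    · rw [add_zero]
      exact entmax_concave (h.1.1 j) (hq.1 j) ht0.le ht1
  have h3 : Real.negMulLog t = t * K := by
    rw [Real.negMulLog, ht, Real.log_exp]
    ring
  have h4 : q i * K = |ent μ - ent q| + q i := by
    rw [hK]
    field_simp
  have h5 : t * (q i * K) ≤ t * (ent μ - ent q) := by
    rw [h3] at h2
    linarith
  have h6 := le_of_mul_le_mul_left h5 ht0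
  have h7 := le_abs_self (ent μ - ent q)
  linarith

/-- Exponential form.  First order optimality: `∑ i, η i * log (μ i) = 0` for all `η` vanishing outside the support of
`μ` with `∑ η = 0` and `mean a η = 0` (`μ + t η` is a law for small `|t|`).  Hence on the support `log μ` is in the
span of the constant and the coordinate functions `i ↦ a i e` (a linear functional vanishing on the kernel of a
linear map factors through it, e.g. `LinearMap.exists_extend`, `mem_span_of_iInf_ker_le_ker`). -/
theorem IsMax.exp {μ : ι → ℝ} (h : IsMax Ω a μ) :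
    ∃ (a₀ : ℝ) (θ : E → ℝ), ∀ i, μ i ≠ 0 → Real.log (μ i) = a₀ + ∑ e, θ e * a i e := by
  classical
  have key : ∀ η : ι → ℝ, (∀ i, μ i = 0 → η i = 0) → ∑ i, η i = 0 → (∀ e, ∑ i, η i * a i e = 0) →
      ∑ i, η i * Real.log (μ i) = 0 := by
    intro η h0 h1 h2
    have hd : HasDerivAt (fun t : ℝ => ent (fun i => μ i + t * η i))
        (∑ i, (-Real.log (μ i) - 1) * η i) 0 := by
      refine HasDerivAt.fun_sum fun i _ => ?_
      by_cases hi : μ i = 0
      · simp only [h0 i hi, mul_zero, add_zero]
        exact hasDerivAt_const _ _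
      · have h3 : HasDerivAt (fun t : ℝ => μ i + t * η i) (η i) 0 := by
          simpa using ((hasDerivAt_id (0 : ℝ)).mul_const (η i)).const_add (μ i)
        have h4 : HasDerivAt Real.negMulLog (-Real.log (μ i) - 1) (μ i + 0 * η i) := by
          rw [zero_mul, add_zero]
          exact Real.hasDerivAt_negMulLog hi
        exact h4.comp (0 : ℝ) h3
    have hmax : IsLocalMax (fun t : ℝ => ent (fun i => μ i + t * η i)) 0 := by
      have hpos : ∀ᶠ t in nhds (0 : ℝ), ∀ i, 0 ≤ μ i + t * η i := by
        refine Filter.eventually_all.2 fun i => ?_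
        rcases (h.1.1 i).eq_or_lt with h3 | h3
        · exact Filter.Eventually.of_forall fun t => by simp [h0 i h3.symm, h.1.1 i]
        · have h4 : Continuous fun t : ℝ => μ i + t * η i := by fun_prop
          exact ((h4.tendsto 0).eventually (lt_mem_nhds (by simpa using h3))).mono fun t ht => ht.le
      refine hpos.mono fun t ht => ?_
      simp only [zero_mul, add_zero]
      refine h.2 _ ⟨ht, ?_, fun i hi => h.1.2.2 i fun h3 => hi (by simp [h3, h0 i h3])⟩ ?_
      · simp only [sum_add_distrib, ← mul_sum, h1, h.1.2.1]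
        ring
      · funext e
        simp only [mean, add_mul, sum_add_distrib, mul_assoc, ← mul_sum, h2]
        ring
    have h3 := hmax.hasDerivAt_eq_zero hd
    simp only [sub_mul, neg_mul, one_mul, sum_sub_distrib, sum_neg_distrib, h1] at h3
    simp only [mul_comm (η _)]
    linarith
  let F : (ι → ℝ) → ((ι → ℝ) →ₗ[ℝ] ℝ) := fun c => ∑ i, c i • LinearMap.proj i
  have hF : ∀ c η, F c η = ∑ i, η i * c i := fun c η => by
    simp [F, LinearMap.sum_apply, mul_comm]
  let L : Option E ⊕ ι → ((ι → ℝ) →ₗ[ℝ] ℝ) := Sum.elim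
    (fun o => Option.elim o (F fun _ => 1) fun e => F fun i => a i e)
    (fun j => if μ j = 0 then LinearMap.proj j else 0)
  have hspan : F (fun i => Real.log (μ i)) ∈ Submodule.span ℝ (Set.range L) := by
    refine mem_span_of_iInf_ker_le_ker fun η hη => ?_
    simp only [Submodule.mem_iInf, LinearMap.mem_ker] at hη ⊢
    rw [hF]
    refine key η (fun i hi => ?_) ?_ fun e => ?_
    · simpa [L, hi] using hη (Sum.inr i)
    · simpa [L, hF] using hη (Sum.inl none)
    · simpa [L, hF] using hη (Sum.inl (some e))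
  obtain ⟨c, hc⟩ := (Submodule.mem_span_range_iff_exists_fun ℝ).1 hspan
  refine ⟨c (Sum.inl none), fun e => c (Sum.inl (some e)), fun i hi => ?_⟩
  have h1 := LinearMap.congr_fun hc (Pi.single i 1)
  have h2 : ∀ d : ι → ℝ, F d (Pi.single i 1) = d i := fun d => by
    simp [hF, Pi.single_apply]
  have h3 : ∀ j, (if μ j = 0 then (LinearMap.proj j : (ι → ℝ) →ₗ[ℝ] ℝ) else 0)
      (Pi.single i 1) = 0 := fun j => by
    split_ifs with hj
    · have : j ≠ i := fun h' => hi (h' ▸ hj)
      simp [this]
    · rfl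
  simp only [LinearMap.add_apply, LinearMap.sum_apply, LinearMap.smul_apply,
    Fintype.sum_sum_type, Fintype.sum_option,
    L, Sum.elim_inl, Sum.elim_inr, Option.elim, h2, h3, smul_eq_mul, mul_zero, sum_const_zero,
    add_zero, mul_one] at h1
  exact h1.symm

omit [Fintype E] in
theorem entmax_isClosed_isMax (Ω : ι → Prop) (a : ι → E → ℝ) : IsClosed {μ | IsMax Ω a μ} := by
  refine IsSeqClosed.isClosed fun ν' ν hν' hlim => ?_
  have hν : Law Ω ν := (entmax_isClosed_law Ω).mem_of_tendsto hlim
    (Filter.Eventually.of_forall fun k => (hν' k).1)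
  refine ⟨hν, fun μ hμ hm => ?_⟩
  set r : ι → ℝ := fun i => (1 - 1 / 2) * μ i + 1 / 2 * ν i with hr
  have hq : Filter.Tendsto (fun k => r + (ν' k - ν)) Filter.atTop (nhds r) := by
    simpa using (hlim.sub_const ν).const_add r
  have hpos : ∀ᶠ k in Filter.atTop, ∀ i, 0 ≤ (r + (ν' k - ν)) i := by
    refine Filter.eventually_all.2 fun i => ?_
    rcases (hν.1 i).eq_or_lt with h0 | h0
    · refine Filter.Eventually.of_forall fun k => ?_
      have h1 := hμ.1 i
      have h2 := (hν' k).1.1 i
      simp only [hr, Pi.add_apply, Pi.sub_apply, ← h0]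
      linarith
    · have h1 : 0 < r i := by
        have := hμ.1 i
        simp only [hr]
        linarith
      exact ((tendsto_pi_nhds.1 hq i).eventually (lt_mem_nhds h1)).mono fun k hk => hk.le
  have hle : ent r ≤ ent ν := by
    refine le_of_tendsto_of_tendsto ((entmax_continuous_ent.tendsto r).comp hq)
      ((entmax_continuous_ent.tendsto ν).comp hlim) (hpos.mono fun k hk => ?_)
    refine (hν' k).2 _ ⟨hk, ?_, fun i hi => ?_⟩ ?_
    · simp only [hr, Pi.add_apply, Pi.sub_apply, sum_add_distrib, sum_sub_distrib, ← mul_sum,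
        hμ.2.1, hν.2.1, (hν' k).1.2.1]
      norm_num
    · by_contra h
      apply hi
      simp [hr, entmax_law_zero hμ h, entmax_law_zero hν h, entmax_law_zero (hν' k).1 h]
    · funext e
      have h1 := congrFun hm e
      simp only [mean] at h1
      simp only [mean, hr, Pi.add_apply, Pi.sub_apply, add_mul, sub_mul _ (ν _), sum_add_distrib,
        sum_sub_distrib, mul_assoc, ← mul_sum, h1]
      ring
  have h2 : (1 - 1 / 2) * ent μ + 1 / 2 * ent ν ≤ ent r := by
    simp only [ent, mul_sum, ← sum_add_distrib]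
    exact sum_le_sum fun i _ => entmax_concave (hμ.1 i) (hν.1 i) (by norm_num) (by norm_num)
  linarith

/-- The maximisers form a compact set.  Closedness: let `ν k → ν` be maximisers and `μ` a law with the mean of `ν`.
For `0 < ε < 1`, `q k = (1 - ε) μ + ε ν + (ν k - ν)` is for large `k` a law with the mean of `ν k` (at `i` with `ν i = 0` it is
`≥ ν k i ≥ 0`, otherwise the limit is positive), so `ent (q k) ≤ ent (ν k)`; let `k → ∞`, then `ε → 0`.  `gapFn` is
continuous. -/
theorem exists_min_gapFn (c : ℝ) {p : ι → ℝ} (hp : Law Ω p) :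
    ∃ μ, IsMax Ω a μ ∧ ∀ q, IsMax Ω a q → gapFn a c μ ≤ gapFn a c q := by
  have hK : IsCompact {μ | IsMax Ω a μ} :=
    (entmax_isCompact_law Ω).of_isClosed_subset (entmax_isClosed_isMax Ω a) fun _ h => h.1
  have hm : ∀ e, Continuous fun q => mean a q e := fun e =>
    (continuous_apply e).comp (entmax_continuous_mean a)
  have hc : Continuous (gapFn a c) :=
    (entmax_continuous_ent.sub (continuous_finsetSum _ fun e _ =>
      Real.continuous_negMulLog.comp (hm e))).add (continuous_const.mul
        (continuous_finsetSum _ fun e _ =>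
          Real.continuous_negMulLog.comp (continuous_const.sub (hm e))))
  obtain ⟨μ₀, h0, -⟩ := hp.exists_isMax (a := a)
  obtain ⟨μ, h1, h2⟩ := hK.exists_isMinOn ⟨μ₀, h0⟩ hc.continuousOn
  exact ⟨μ, h1, fun q hq => h2 hq⟩

end Crest.Agent.R304
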