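import Crest.Agent.R304.EntMax

/-! Row 304: the second order condition at a minimiser of `gapFn`. -/

set_option autoImplicit false

namespace Crest.Agent.R304

open Finset

variable {ι E : Type} [Fintype ι] [Fintype E] {Ω : ι → Prop} {a : ι → E → ℝ}

theorem entsecond_test {ψ ψ' : ℝ → ℝ} {s : ℝ} (hmin : IsLocalMin ψ 0)
    (h1 : ∀ᶠ t in nhds (0 : ℝ), HasDerivAt ψ (ψ' t) t) (h2 : HasDerivAt ψ' s 0) : 0 ≤ s := by
  by_contra hs
  have e1 : deriv ψ =ᶠ[nhds 0] ψ' := h1.mono fun t ht => ht.deriv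
  have e2 : deriv (deriv ψ) 0 = s := by rw [e1.deriv_eq, h2.deriv]
  have hmax := isLocalMax_of_deriv_deriv_neg (by rw [e2]; exact not_le.1 hs) hmin.deriv_eq_zero
    h1.self_of_nhds.continuousAt
  have e3 : ψ =ᶠ[nhds 0] fun _ => ψ 0 := by
    filter_upwards [hmin, hmax] with t h3 h4 using le_antisymm h4 h3
  have e4 := e3.deriv.deriv_eq
  rw [e2] at e4
  simp at e4
  exact hs e4.ge

theorem entsecond_gibbs {q r : ℝ} (hq : 0 ≤ q) (hr : 0 ≤ r) (h : q ≠ 0 → r ≠ 0) :
    Real.negMulLog q ≤ -q * Real.log r + r - q := by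
  rcases hq.eq_or_lt with rfl | hq
  · simpa using hr
  · have hr' : 0 < r := lt_of_le_of_ne hr (h hq.ne').symm
    have h1 := Real.log_le_sub_one_of_pos (div_pos hr' hq)
    rw [Real.log_div hr'.ne' hq.ne'] at h1
    have h2 := mul_le_mul_of_nonneg_left h1 hq.le
    rw [mul_sub q (r / q), mul_div_cancel₀ _ hq.ne'] at h2
    rw [Real.negMulLog]
    linarith

theorem entsecond_nonfrac (ha : ∀ i e, a i e = 0 ∨ a i e = 1) {μ : ι → ℝ} (h : Law Ω μ) {e : E}
    (he : e ∉ frac (mean a μ)) :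
    (mean a μ e = 0 ∨ mean a μ e = 1) ∧ ∀ i, μ i * (a i e - mean a μ e) = 0 := by
  have h0 : ∀ i, 0 ≤ μ i * a i e := fun i => mul_nonneg (h.1 i) (by rcases ha i e with h | h <;> simp [h])
  have h1 : ∀ i, 0 ≤ μ i * (1 - a i e) := fun i =>
    mul_nonneg (h.1 i) (by rcases ha i e with h | h <;> simp [h])
  have e1 : ∑ i, μ i * (1 - a i e) = 1 - mean a μ e := by
    simp only [mul_sub, mul_one, sum_sub_distrib, h.2.1, mean]
  have h2 : 0 ≤ mean a μ e := sum_nonneg fun i _ => h0 i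
  have h3 : 0 ≤ 1 - mean a μ e := e1 ▸ sum_nonneg fun i _ => h1 i
  simp only [frac, mem_filter, mem_univ, true_and, not_and, not_lt] at he
  rcases h2.eq_or_lt with h4 | h4
  · refine ⟨Or.inl h4.symm, fun i => ?_⟩
    rw [← h4, sub_zero]
    exact (sum_eq_zero_iff_of_nonneg fun i _ => h0 i).1 h4.symm i (mem_univ i)
  · have h5 : mean a μ e = 1 := le_antisymm (by linarith) (he h4)
    refine ⟨Or.inr h5, fun i => ?_⟩
    rw [h5, sub_self] at e1
    have := (sum_eq_zero_iff_of_nonneg fun i _ => h1 i).1 e1 i (mem_univ i)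
    rw [h5]
    linarith

/-- Let `x = mean a μ`, `h e = ∑ f, cov a μ e f * u f`, `ℓ i = ∑ e, u e * (a i e - x e)`.  For small `|t|`,
`μ i * (1 + t ℓ i)` is a law with mean `x + t h`; `h e = 0` for `e ∉ frac x` (there `a i e = x e` on the support of `μ`).
Let `q` be a maximiser with mean `x + t h` (`Law.exists_isMax`).  Its support is contained in that of `μ`
(average it with a law of mean `x - t h`, `IsMax.supp`).  With `IsMax.exp` and Gibbs' inequality
(`∑ q log (q / r) ≥ 0` for the law `r i = μ i exp (t ℓ i) / ∑ j, μ j exp (t ℓ j)`),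
`ent q ≤ ent μ - t ⟨θ, h⟩ - t² ⟨u, h⟩ + log ∑ j, μ j exp (t ℓ j)`.  So
`ψ t = - t ⟨θ, h⟩ - t² ⟨u, h⟩ + log ∑ j, μ j exp (t ℓ j) - F (x + t h) + c B (x + t h)` has a local minimum at `0`
(`F`, `B` the two sums of `gapFn`; only the coordinates in `frac x` move), and its second derivative there,
`- 2 ⟨u, h⟩ + ∑ j, μ j ℓ j ^ 2 + ∑ h² / x - c ∑ h² / (1 - x)` with `∑ j, μ j ℓ j ^ 2 = ⟨u, h⟩`, is nonnegative (second
derivative test `isLocalMax_of_deriv_deriv_neg`, or add the inequalities for `t` and `-t` and use explicit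
Taylor bounds with an `O(|t|³)` error). -/
theorem second_order (ha : ∀ i e, a i e = 0 ∨ a i e = 1) {c : ℝ} {μ : ι → ℝ} (h : IsMax Ω a μ)
    (hmin : ∀ q, IsMax Ω a q → gapFn a c μ ≤ gapFn a c q) (u : E → ℝ) :
    ∑ e, ∑ f, u e * cov a μ e f * u f ≤
      ∑ e ∈ frac (mean a μ), (∑ f, cov a μ e f * u f) ^ 2 *
        (1 / mean a μ e - c / (1 - mean a μ e)) := by
  obtain ⟨a₀, θ, hθ⟩ := h.exp
  set x := mean a μ with hx
  set ℓ : ι → ℝ := fun i => ∑ e, u e * (a i e - x e) with hℓ
  set v : E → ℝ := fun e => ∑ f, cov a μ e f * u f with hv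
  have hμ := h.1
  have hv1 : ∀ e, v e = ∑ i, μ i * (a i e - x e) * ℓ i := by
    intro e
    simp only [hv, hℓ, cov, sum_mul, mul_sum]
    rw [sum_comm]
    exact sum_congr rfl fun i _ => sum_congr rfl fun f _ => by ring
  have hql : ∀ q : ι → ℝ, ∑ i, q i = 1 → ∑ i, q i * ℓ i = ∑ e, u e * (mean a q e - x e) := by
    intro q hq
    simp only [hℓ, mul_sum]
    rw [sum_comm]
    refine sum_congr rfl fun e _ => ?_
    have : x e = ∑ i, q i * x e := by rw [← sum_mul, hq, one_mul]
    conv_rhs => rw [this, mean, ← sum_sub_distrib, mul_sum]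
    exact sum_congr rfl fun i _ => by ring
  have hl0 : ∑ i, μ i * ℓ i = 0 := by
    rw [hql μ hμ.2.1]
    simp [hx]
  set σ : ℝ := ∑ e, u e * v e with hσ
  have hσ1 : ∑ e, ∑ f, u e * cov a μ e f * u f = σ := by
    simp only [hσ, hv, mul_sum, mul_assoc]
  have hσ2 : ∑ i, μ i * ℓ i ^ 2 = σ := by
    simp only [hσ, hv1, mul_sum]
    rw [sum_comm]
    refine sum_congr rfl fun i _ => ?_
    rw [pow_two]
    conv_lhs => enter [2, 1]; simp only [hℓ]
    rw [sum_mul, mul_sum]
    exact sum_congr rfl fun e _ => by ring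
  have hv0 : ∀ e, e ∉ frac x → v e = 0 := fun e he => by
    rw [hv1]
    exact sum_eq_zero fun i _ => by rw [(entsecond_nonfrac ha hμ he).2 i, zero_mul]
  -- the perturbed laws
  have hp : ∀ t : ℝ, (∀ i, |t * ℓ i| ≤ 1) →
      Law Ω (fun i => μ i * (1 + t * ℓ i)) ∧
        mean a (fun i => μ i * (1 + t * ℓ i)) = fun e => x e + t * v e := by
    intro t ht
    refine ⟨⟨fun i => mul_nonneg (hμ.1 i) (by linarith [neg_le_of_abs_le (ht i)]), ?_,
      fun i hi => hμ.2.2 i (left_ne_zero_of_mul hi)⟩, funext fun e => ?_⟩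
    · have : ∑ i, μ i * (1 + t * ℓ i) = ∑ i, μ i + t * ∑ i, μ i * ℓ i := by
        rw [mul_sum, ← sum_add_distrib]
        exact sum_congr rfl fun i _ => by ring
      rw [this, hl0, hμ.2.1, mul_zero, add_zero]
    · have : ∑ i, μ i * (1 + t * ℓ i) * a i e = ∑ i, μ i * a i e +
          t * ∑ i, μ i * (a i e - x e) * ℓ i + t * x e * ∑ i, μ i * ℓ i := by
        rw [mul_sum, mul_sum, ← sum_add_distrib, ← sum_add_distrib]
        exact sum_congr rfl fun i _ => by ring
      rw [mean, this, hl0, mul_zero, add_zero, hv1]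
      rfl
  have hF : ∀ t : ℝ, ∑ e, Real.negMulLog (x e + t * v e) =
      ∑ e ∈ frac x, Real.negMulLog (x e + t * v e) := fun t =>
    (sum_subset (subset_univ _) fun e _ he => by
      rw [hv0 e he, mul_zero, add_zero]
      rcases (entsecond_nonfrac ha hμ he).1 with h1 | h1 <;> simp [hx, h1]).symm
  have hB : ∀ t : ℝ, ∑ e, Real.negMulLog (1 - (x e + t * v e)) =
      ∑ e ∈ frac x, Real.negMulLog (1 - (x e + t * v e)) := fun t =>
    (sum_subset (subset_univ _) fun e _ he => by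
      rw [hv0 e he, mul_zero, add_zero]
      rcases (entsecond_nonfrac ha hμ he).1 with h1 | h1 <;> simp [hx, h1]).symm
  have hlin : ∀ q : ι → ℝ, ∑ i, q i = 1 →
      ∑ i, q i * (a₀ + ∑ e, θ e * a i e) = a₀ + ∑ e, θ e * mean a q e := by
    intro q hq
    simp only [mul_add, sum_add_distrib, ← sum_mul, hq, one_mul, mul_sum, mean]
    rw [sum_comm]
    congr 1
    exact sum_congr rfl fun e _ => sum_congr rfl fun i _ => by ring
  have hent : ent μ = -(a₀ + ∑ e, θ e * x e) := by
    rw [← hlin μ hμ.2.1, ent, ← sum_neg_distrib]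
    refine sum_congr rfl fun i _ => ?_
    by_cases hi : μ i = 0
    · simp [hi]
    · rw [Real.negMulLog, hθ i hi, neg_mul]
  let ψ : ℝ → ℝ := fun t => -(t * ∑ e, θ e * v e) - t ^ 2 * σ + ∑ i, μ i * Real.exp (t * ℓ i) -
    ∑ e ∈ frac x, Real.negMulLog (x e + t * v e) +
    c * ∑ e ∈ frac x, Real.negMulLog (1 - (x e + t * v e))
  have hsmall : ∀ᶠ t in nhds (0 : ℝ), ∀ i, |t * ℓ i| ≤ 1 := by
    refine Filter.eventually_all.2 fun i => ?_
    have : ContinuousAt (fun t : ℝ => |t * ℓ i|) 0 := by fun_prop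
    exact this.eventually_le_const (by simp)
  have hloc : IsLocalMin ψ 0 := by
    filter_upwards [hsmall] with t ht
    obtain ⟨hp1, hp2⟩ := hp t ht
    obtain ⟨hn1, hn2⟩ := hp (-t) fun i => by rw [neg_mul, abs_neg]; exact ht i
    obtain ⟨q, hq, hqm⟩ := hp1.exists_isMax (a := a)
    rw [hp2] at hqm
    have hsupp : ∀ i, q i ≠ 0 → μ i ≠ 0 := by
      intro i hi
      refine h.supp (q := fun i => (q i + μ i * (1 + -t * ℓ i)) / 2) ⟨fun j => ?_, ?_, fun j hj => ?_⟩
        (funext fun e => ?_) ?_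
      · linarith [hq.1.1 j, hn1.1 j]
      · rw [← sum_div, sum_add_distrib, hq.1.2.1, hn1.2.1]
        norm_num
      · by_cases h1 : q j = 0
        · exact hn1.2.2 j fun h2 => hj (by beta_reduce at h2 ⊢; rw [h1, h2]; norm_num)
        · exact hq.1.2.2 j h1
      · have e1 := congrFun hqm e
        have e2 := congrFun hn2 e
        have e3 : mean a (fun i => (q i + μ i * (1 + -t * ℓ i)) / 2) e =
            (mean a q e + mean a (fun i => μ i * (1 + -t * ℓ i)) e) / 2 := by
          simp only [mean, ← sum_add_distrib, sum_div]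
          exact sum_congr rfl fun j _ => by ring
        rw [e3, e1, e2, ← hx]
        ring
      · have h1 : 0 < q i := lt_of_le_of_ne (hq.1.1 i) (Ne.symm hi)
        have h2 := hn1.1 i
        exact ne_of_gt (by linarith)
    have hg : ent q ≤ ∑ i, (-(q i * (a₀ + ∑ e, θ e * a i e)) - t * (q i * ℓ i) +
        μ i * Real.exp (t * ℓ i) - q i) := by
      refine sum_le_sum fun i _ => ?_
      refine (entsecond_gibbs (hq.1.1 i) (mul_nonneg (hμ.1 i) (Real.exp_pos (t * ℓ i)).le)
        fun hi => mul_ne_zero (hsupp i hi) (Real.exp_pos _).ne').trans (le_of_eq ?_)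
      by_cases hi : q i = 0
      · simp [hi]
      · rw [Real.log_mul (hsupp i hi) (Real.exp_pos _).ne', Real.log_exp, hθ i (hsupp i hi)]
        ring
    rw [sum_sub_distrib, sum_add_distrib, sum_sub_distrib, sum_neg_distrib, ← mul_sum,
      hlin q hq.1.2.1, hql q hq.1.2.1, hq.1.2.1, hqm] at hg
    have e1 : ∑ e, θ e * (x e + t * v e) = ∑ e, θ e * x e + t * ∑ e, θ e * v e := by
      rw [mul_sum, ← sum_add_distrib]
      exact sum_congr rfl fun e _ => by ring
    have e2 : ∑ e, u e * (x e + t * v e - x e) = t * σ := by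
      rw [hσ, mul_sum]
      exact sum_congr rfl fun e _ => by ring
    rw [e1, e2] at hg
    have h1 := hmin q hq
    simp only [gapFn, hqm, ← hx] at h1
    have hF0 := hF 0
    have hB0 := hB 0
    simp only [zero_mul, add_zero] at hF0 hB0
    rw [hF t, hB t, hF0, hB0, hent] at h1
    simp only [ψ, zero_mul, add_zero, Real.exp_zero, mul_one, hμ.2.1]
    linarith
  let ψ' : ℝ → ℝ := fun t => -(∑ e, θ e * v e) - 2 * t * σ +
    ∑ i, μ i * (Real.exp (t * ℓ i) * ℓ i) -
    ∑ e ∈ frac x, (-Real.log (x e + t * v e) - 1) * v e +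
    c * ∑ e ∈ frac x, (-Real.log (1 - (x e + t * v e)) - 1) * (-v e)
  have hfr : ∀ e ∈ frac x, 0 < x e ∧ x e < 1 := fun e he => (mem_filter.1 he).2
  have haff : ∀ (b w t : ℝ), HasDerivAt (fun t => b + t * w) w t := fun b w t => by
    simpa using ((hasDerivAt_id t).mul_const w).const_add b
  have hne : ∀ᶠ t in nhds (0 : ℝ), ∀ e ∈ frac x, x e + t * v e ≠ 0 ∧ 1 - (x e + t * v e) ≠ 0 := by
    refine (Filter.eventually_all_finset _).2 fun e he => Filter.Eventually.and ?_ ?_
    · have : ContinuousAt (fun t : ℝ => x e + t * v e) 0 := by fun_prop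
      exact this.eventually_ne (by simpa using (hfr e he).1.ne')
    · have : ContinuousAt (fun t : ℝ => 1 - (x e + t * v e)) 0 := by fun_prop
      exact this.eventually_ne (by simpa using sub_ne_zero.2 (hfr e he).2.ne')
  have hd1 : ∀ᶠ t in nhds (0 : ℝ), HasDerivAt ψ (ψ' t) t := by
    filter_upwards [hne] with t ht
    refine ((((hasDerivAt_mul_const _).neg.sub ?_).add ?_).sub ?_).add (HasDerivAt.const_mul c ?_)
    · simpa using (hasDerivAt_pow 2 t).mul_const σ
    · exact HasDerivAt.fun_sum fun i _ => (hasDerivAt_mul_const (ℓ i)).exp.const_mul (μ i)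
    · exact HasDerivAt.fun_sum fun e he =>
        HasDerivAt.comp (h₂ := Real.negMulLog) (h := fun t => x e + t * v e) t
          (Real.hasDerivAt_negMulLog (ht e he).1) (haff (x e) (v e) t)
    · exact HasDerivAt.fun_sum fun e he =>
        HasDerivAt.comp (h₂ := Real.negMulLog) (h := fun t => 1 - (x e + t * v e)) t
          (Real.hasDerivAt_negMulLog (ht e he).2) ((haff (x e) (v e) t).const_sub 1)
  have hd2 : HasDerivAt ψ' (-(2 * σ) + ∑ i, μ i * (Real.exp (0 * ℓ i) * ℓ i * ℓ i) -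
      ∑ e ∈ frac x, (-(v e / (x e + 0 * v e))) * v e +
      c * ∑ e ∈ frac x, (-(-v e / (1 - (x e + 0 * v e)))) * (-v e)) 0 := by
    refine ((HasDerivAt.add ?_ ?_).sub ?_).add (HasDerivAt.const_mul c ?_)
    · simpa using (((hasDerivAt_id (0 : ℝ)).const_mul 2).mul_const σ).const_sub (-(∑ e, θ e * v e))
    · exact HasDerivAt.fun_sum fun i _ =>
        ((hasDerivAt_mul_const (ℓ i)).exp.mul_const (ℓ i)).const_mul (μ i)
    · exact HasDerivAt.fun_sum fun e he =>
        ((((haff (x e) (v e) 0).log (hne.self_of_nhds e he).1).neg).sub_const 1).mul_const (v e)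
    · exact HasDerivAt.fun_sum fun e he =>
        (((((haff (x e) (v e) 0).const_sub 1).log (hne.self_of_nhds e he).2).neg).sub_const
          1).mul_const (-v e)
  have key := entsecond_test hloc hd1 hd2
  simp only [zero_mul, add_zero, Real.exp_zero, one_mul, ← pow_two, hσ2] at key
  have e1 : ∑ e ∈ frac x, v e ^ 2 * (1 / x e - c / (1 - x e)) =
      -∑ e ∈ frac x, (-(v e / x e)) * v e + c * ∑ e ∈ frac x, (-(-v e / (1 - x e))) * (-v e) := by
    rw [mul_sum, ← sum_neg_distrib, ← sum_add_distrib]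
    exact sum_congr rfl fun e _ => by ring
  rw [hσ1]
  refine le_trans ?_ e1.ge
  linarith

end Crest.Agent.R304
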