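import Crest.Agent.R304.Inv

/-! Row 304: the estimates of an outer step. -/

set_option autoImplicit false

namespace Crest.Agent.R304

open Finset Crest.Agent.Lib.PT Crest.Agent.R309

variable {n ℓ j : ℕ} {G : List (List Bool)} {sched : List KM} {prev cur : KM} {z : ℚ}
  {x : Fin (pN ℓ) → PM n}

theorem est_wt_g (H : Sz n ℓ G) (S : PM n) :
    wt (gR n G) S = if ∀ v : Fin n, adj G v (S v) = true then 1 else 0 := by
  unfold wt gR
  rw [Finset.prod_boole]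
  congr 1
  refine propext ⟨fun h v => ?_, fun h v _ => h v⟩
  rcases lt_or_gt_of_ne (S.ne v) with hv | hv
  · have := h (S v) (by simpa using hv)
    rwa [S.inv, ← H.symm] at this
  · exact h v (by simpa using hv)

theorem est_big (H : Sz n ℓ G) : (1024 : ℝ) ≤ (2 : ℝ) ^ ℓ :=
  le_trans (by norm_num) (pow_le_pow_right₀ (by norm_num) H.ten)

theorem est_pow_le {y : ℝ} {k : ℕ} (h0 : 0 ≤ y) (h1 : y ≤ 1) (h : k * y ≤ 1 / 2) :
    (1 + y) ^ k ≤ 1 + 2 * (k * y) := by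
  have b1 : 1 + k * (-y) ≤ (1 + -y) ^ k := one_add_mul_le_pow (by linarith) k
  have b2 : (1 + y) ^ k * (1 + -y) ^ k ≤ 1 := by
    rw [← mul_pow]
    exact pow_le_one₀ (by nlinarith) (by nlinarith)
  have b3 : (0 : ℝ) ≤ (1 + y) ^ k := by positivity
  have b4 : (1 + y) ^ k * (1 + k * (-y)) ≤ 1 := (mul_le_mul_of_nonneg_left b1 b3).trans b2
  have b5 : (0 : ℝ) ≤ k * y := by positivity
  by_contra hc
  have hc := not_le.1 hc
  nlinarith

theorem est_wtL (H : Sz n ℓ G) {k : KM} (hk : KOk n ℓ k) (S : PM n) :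
    (wtL ℓ G k (enc1 S) : ℝ) = (pD ℓ : ℝ) ^ (n / 2) * wt (gR n G + omR n ℓ k) S := by
  rw [wtL_enc1 H.len, wt_cast, hk.lamF_cast (G := G), wt_const_mul]

theorem est_sum {N : ℕ} (y : Fin N → PM n) (f : List ℕ → ℚ) :
    ((((encX y).map f).sum : ℚ) : ℝ) = ∑ i, (f (enc1 (y i)) : ℝ) := by
  rw [encX, List.map_ofFn, List.sum_ofFn]
  push_cast
  rfl

theorem est_mean [Nonempty (PM n)] {lam lam' : Fin n → Fin n → ℝ} (h : Pos lam) :
    ∑ S, mu lam S * (wt lam' S / wt lam S) = Zf lam' / Zf lam := by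
  rw [Zf, sum_div]
  refine sum_congr rfl fun S _ => ?_
  have := (h.wt_pos S).ne'
  rw [mu]
  field_simp

theorem Sz.Zf_gR (H : Sz n ℓ G) : Zf (gR n G) = cntG n G := by
  simp only [Zf, est_wt_g H, cntG, sum_boole]

/-- `close_omR`, `Close.add`, `Close.wt_le`; `(1 + 1 / M) ^ (pu * n) ≤ 2` -/
theorem Live.wt_le (H : Sz n ℓ G) (L : Live n ℓ G j sched prev cur z) (S : PM n) :
    wt (gR n G + omR n ℓ prev) S ≤ 2 * wt (gR n G + omR n ℓ cur) S ∧
      wt (gR n G + omR n ℓ cur) S ≤ 2 * wt (gR n G + omR n ℓ prev) S := by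
  have hp := H.gr.pos_add L.okp.pos
  have hc := H.gr.pos_add L.okc.pos
  have hs := est_big H
  have hn : (n : ℝ) ≤ (2 : ℝ) ^ ℓ := by exact_mod_cast H.le
  have hM : (0 : ℝ) < pM ℓ := by exact_mod_cast pw_pos _ _
  have h1 : (1 : ℝ) ≤ (1 + 1 / (pM ℓ : ℝ)) ^ pu ℓ := one_le_pow₀ (by simp)
  have C := (close_omR (ℓ := ℓ) L.near).add H.gr h1
  have h2 : ((1 + 1 / (pM ℓ : ℝ)) ^ pu ℓ) ^ n ≤ 2 := by
    have e : ((pu ℓ * n : ℕ) : ℝ) * (1 / (pM ℓ : ℝ)) ≤ 1 / 2 := by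
      push_cast
      rw [pw_cast, pw_cast, mul_one_div, div_le_iff₀ (by positivity)]
      generalize (2 : ℝ) ^ ℓ = s at hs hn
      have e1 : s ^ 630 = s ^ 628 * (s * s) := by ring
      have e2 : (0 : ℝ) < s ^ 628 := by positivity
      rw [e1]
      generalize s ^ 628 = w at e2
      nlinarith [mul_le_mul_of_nonneg_left (show (n : ℝ) ≤ 1 / 2 * (s * s) by nlinarith) e2.le]
    have e' : 1 / (pM ℓ : ℝ) ≤ 1 := by
      rw [div_le_one hM]
      exact_mod_cast pw_pos _ _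
    rw [← pow_mul]
    linarith [est_pow_le (by positivity) e' e]
  exact ⟨(C.symm.wt_le hc hp h1 S).trans (mul_le_mul_of_nonneg_right h2 (hc.wt_pos S).le),
    (C.wt_le hp hc h1 S).trans (mul_le_mul_of_nonneg_right h2 (hp.wt_pos S).le)⟩

theorem Live.obs_unit (H : Sz n ℓ G) (L : Live n ℓ G j sched prev cur z) (c : Bool ⊕ Fin n × Fin n)
    (S : PM n) : 0 ≤ obs n ℓ G prev cur c S ∧ obs n ℓ G prev cur c S ≤ 1 := by
  have hp := (H.gr.pos_add L.okp.pos).wt_pos S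
  have hc := (H.gr.pos_add L.okc.pos).wt_pos S
  rcases c with (_ | _) | q
  · rw [obs_false]
    refine ⟨div_nonneg (prod_nonneg fun v _ => learn_nonneg H.gr _ _) hc.le, (div_le_one hc).2 ?_⟩
    exact prod_le_prod (fun v _ => learn_nonneg H.gr _ _) fun v _ =>
      le_add_of_nonneg_right (L.okc.pos.pos _ _).le
  · rw [obs_true]
    refine ⟨by positivity, ?_⟩
    rw [div_le_one (by norm_num), div_le_iff₀ hc]
    exact (L.wt_le H S).1
  · rw [obs_inr]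
    have h1 := L.okc.pos.pos q.1 q.2
    have h2 := learn_nonneg H.gr q.1 q.2
    split_ifs
    · exact ⟨by positivity, (div_le_one (by positivity)).2 (by linarith)⟩
    · norm_num

/-- `rho` is twice the empirical mean of `obs (.inl true)` (`wtL_enc1`, `wt_cast`, `KOk.lamF_cast`, `wt_const_mul`), whose expectation is
`Zf prev / Zf cur / 2 ≥ 1 / 4`.  So `rho = Zf prev / Zf cur * (1 + θ)` with `|θ| ≤ 4 t`, `t = 1 / s ^ 13`, and `1 - 8 t ≤ 1 / (1 + θ) ≤ 1 + 8 t`. -/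
theorem Live.est_rho [Nonempty (PM n)] (H : Sz n ℓ G) (L : Live n ℓ G j sched prev cur z)
    (hx : Good n ℓ G prev cur x) :
    (1 - 8 / ((2 : ℝ) ^ ℓ) ^ 13) ^ (j + 2) * ((pD ℓ : ℝ) ^ (n / 2) * Zf (gR n G + omR n ℓ cur)) ≤
        (z / rho ℓ G prev cur (encX x) : ℚ) ∧
      ((z / rho ℓ G prev cur (encX x) : ℚ) : ℝ) ≤
        (1 + 8 / ((2 : ℝ) ^ ℓ) ^ 13) ^ (j + 2) * ((pD ℓ : ℝ) ^ (n / 2) * Zf (gR n G + omR n ℓ cur)) := by
  have hp := H.gr.pos_add L.okp.pos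
  have hc := H.gr.pos_add L.okc.pos
  have hD : (0 : ℝ) < (pD ℓ : ℝ) ^ (n / 2) := pow_pos (by exact_mod_cast pD_pos ℓ) _
  have e1 : (rho ℓ G prev cur (encX x) : ℝ) =
      2 * ((∑ i, obs n ℓ G prev cur (.inl true) (x i)) / (pN ℓ : ℝ)) := by
    rw [rho, Rat.cast_div, est_sum, ← mul_div_assoc, mul_sum]
    congr 1
    refine sum_congr rfl fun i _ => ?_
    push_cast
    rw [est_wtL H L.okp, est_wtL H L.okc, obs_true, mul_div_mul_left _ _ hD.ne']
    ring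
  have e2 : ∑ S, mu (gR n G + omR n ℓ cur) S * obs n ℓ G prev cur (.inl true) S =
      Zf (gR n G + omR n ℓ prev) / Zf (gR n G + omR n ℓ cur) / 2 := by
    rw [← est_mean hc, sum_div]
    refine sum_congr rfl fun S _ => ?_
    rw [obs_true]
    ring
  have h1 := hx (.inl true)
  rw [e2, abs_lt] at h1
  have h2 : Zf (gR n G + omR n ℓ cur) ≤ 2 * Zf (gR n G + omR n ℓ prev) := by
    rw [Zf, Zf, mul_sum]
    exact sum_le_sum fun S _ => (L.wt_le H S).2
  have lo := L.lo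
  have hi := L.hi
  have zp := hp.Zf_pos
  have zc := hc.Zf_pos
  have hs := est_big H
  have t0 : (0 : ℝ) < 1 / ((2 : ℝ) ^ ℓ) ^ 13 := by positivity
  have t1 : 1 / ((2 : ℝ) ^ ℓ) ^ 13 ≤ 1 / 16 :=
    one_div_le_one_div_of_le (by norm_num) (le_trans (by linarith)
      (le_self_pow₀ (by linarith) (by norm_num)))
  rw [show 8 / ((2 : ℝ) ^ ℓ) ^ 13 = 8 * (1 / ((2 : ℝ) ^ ℓ) ^ 13) by ring] at lo hi ⊢
  rw [Rat.cast_div]
  generalize 1 / ((2 : ℝ) ^ ℓ) ^ 13 = t at *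
  generalize (rho ℓ G prev cur (encX x) : ℝ) = ρ at *
  generalize (∑ i, obs n ℓ G prev cur (.inl true) (x i)) / (pN ℓ : ℝ) = μ at *
  generalize Zf (gR n G + omR n ℓ prev) = Zp at *
  generalize Zf (gR n G + omR n ℓ cur) = Zc at *
  generalize (pD ℓ : ℝ) ^ (n / 2) = D at *
  have e3 : Zc * (Zp / Zc) = Zp := by field_simp
  have a1 : Zc * ρ ≤ Zp * (1 + 4 * t) := by nlinarith [mul_lt_mul_of_pos_left h1.2 zc]
  have a2 : Zp * (1 - 4 * t) ≤ Zc * ρ := by nlinarith [mul_lt_mul_of_pos_left h1.1 zc]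
  have hρ : 0 < ρ := by
    by_contra hn
    nlinarith [mul_nonneg zc.le (neg_nonneg.2 (not_lt.1 hn))]
  have a3 : (1 - 8 * t) * (Zc * ρ) ≤ Zp := by
    nlinarith [mul_le_mul_of_nonneg_left a1 (show 0 ≤ 1 - 8 * t by linarith), mul_pos t0 zp,
      mul_pos t0 (mul_pos t0 zp)]
  have a4 : Zp ≤ (1 + 8 * t) * (Zc * ρ) := by
    nlinarith [mul_le_mul_of_nonneg_left a2 (show 0 ≤ 1 + 8 * t by linarith),
      mul_nonneg (mul_pos t0 zp).le (show 0 ≤ 1 / 16 - t by linarith), mul_pos t0 zp]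
  have p1 : 0 ≤ (1 - 8 * t) ^ (j + 1) * D := mul_nonneg (pow_nonneg (by linarith) _) hD.le
  have p2 : 0 ≤ (1 + 8 * t) ^ (j + 1) * D := by positivity
  constructor
  · rw [le_div_iff₀ hρ]
    refine le_trans ?_ lo
    calc _ = (1 - 8 * t) ^ (j + 1) * D * ((1 - 8 * t) * (Zc * ρ)) := by ring
      _ ≤ (1 - 8 * t) ^ (j + 1) * D * Zp := mul_le_mul_of_nonneg_left a3 p1
      _ = _ := by ring
  · rw [div_le_iff₀ hρ]
    refine hi.trans ?_
    calc _ = (1 + 8 * t) ^ (j + 1) * D * Zp := by ring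
      _ ≤ (1 + 8 * t) ^ (j + 1) * D * ((1 + 8 * t) * (Zc * ρ)) := mul_le_mul_of_nonneg_left a4 p2
      _ = _ := by ring

/-- the empirical mean of `obs (.inr (u, v))` is `cnt * omN / (pN * lamN)` (`cnt_encX`, `omN_cast`), its expectation is `vm` (`vm_eq`) -/
theorem Live.est_dir [Nonempty (PM n)] (H : Sz n ℓ G) (L : Live n ℓ G j sched prev cur z)
    (hx : Good n ℓ G prev cur x) (u v : Fin n) :
    (up ℓ G cur (encX x) u v = true → vm (gR n G) (omR n ℓ cur) u v ≤ 1 / ((2 : ℝ) ^ ℓ) ^ 3) ∧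
    (up ℓ G cur (encX x) u v = false → 1 / ((2 : ℝ) ^ ℓ) ^ 3 / 2 ≤ vm (gR n G) (omR n ℓ cur) u v) ∧
    (dn ℓ G cur (encX x) u v = true → 3 * (1 / ((2 : ℝ) ^ ℓ) ^ 3) ≤ vm (gR n G) (omR n ℓ cur) u v) ∧
    (dn ℓ G cur (encX x) u v = false → vm (gR n G) (omR n ℓ cur) u v ≤ 4 * (1 / ((2 : ℝ) ^ ℓ) ^ 3)) := by
  have h1 := hx (.inr (u, v))
  simp only [obs_inr] at h1
  rw [← vm_eq, ← sum_filter, sum_const, ← cnt_encX, nsmul_eq_mul, abs_lt] at h1
  have e1 : (omN ℓ (ent2 cur u v) : ℝ) = pD ℓ * omR n ℓ cur u v := omN_cast (L.okc.2 u v)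
  have e2 : (lamN ℓ (adj G u v) (ent2 cur u v) : ℝ) = pD ℓ * (gR n G u v + omR n ℓ cur u v) :=
    congrFun (congrFun (L.okc.lamF_cast (G := G)) u) v
  have hD : (0 : ℝ) < pD ℓ := by exact_mod_cast pD_pos ℓ
  have hN : (0 : ℝ) < pN ℓ := by exact_mod_cast pw_pos _ _
  have ho := L.okc.pos.pos u v
  have hg := learn_nonneg H.gr u v
  have hs := est_big H
  have e3 : (pw 3 ℓ : ℝ) = ((2 : ℝ) ^ ℓ) ^ 3 := pw_cast _ _
  have hb : (0 : ℝ) < ((2 : ℝ) ^ ℓ) ^ 3 := by positivity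
  have hup : up ℓ G cur (encX x) u v = true ↔ cnt (encX x) u v *
      (omR n ℓ cur u v / (gR n G u v + omR n ℓ cur u v)) / pN ℓ ≤ 3 / 4 * (1 / ((2 : ℝ) ^ ℓ) ^ 3) := by
    rw [up, decide_eq_true_eq, ← Nat.cast_le (α := ℝ)]
    push_cast
    rw [e1, e2, e3, mul_one_div, ← mul_div_assoc, div_div, div_le_div_iff₀ (by positivity) hb]
    refine Iff.trans ?_ (mul_le_mul_iff_right₀ (show (0 : ℝ) < 4 * pD ℓ by positivity))
    constructor <;> intro h <;> linarith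
  have hdn : dn ℓ G cur (encX x) u v = true ↔ 7 / 2 * (1 / ((2 : ℝ) ^ ℓ) ^ 3) ≤ cnt (encX x) u v *
      (omR n ℓ cur u v / (gR n G u v + omR n ℓ cur u v)) / pN ℓ := by
    rw [dn, decide_eq_true_eq, ← Nat.cast_le (α := ℝ)]
    push_cast
    rw [e1, e2, e3, mul_one_div, ← mul_div_assoc, div_div (_ * _), div_le_div_iff₀ hb (by positivity)]
    refine Iff.trans ?_ (mul_le_mul_iff_right₀ (show (0 : ℝ) < 2 * pD ℓ by positivity))
    constructor <;> intro h <;> linarith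
  have ht : 1 / ((2 : ℝ) ^ ℓ) ^ 13 ≤ 1 / 4 * (1 / ((2 : ℝ) ^ ℓ) ^ 3) := by
    rw [one_div_mul_one_div]
    refine one_div_le_one_div_of_le (by positivity) ?_
    rw [show 13 = 10 + 3 from rfl, pow_add]
    exact mul_le_mul_of_nonneg_right (le_trans (by linarith)
      (le_self_pow₀ (by linarith) (by norm_num))) hb.le
  have hb' : (0 : ℝ) < 1 / ((2 : ℝ) ^ ℓ) ^ 3 := by positivity
  simp only [← Bool.not_eq_true, hup, hdn, not_le]
  refine ⟨fun h => ?_, fun h => ?_, fun h => ?_, fun h => ?_⟩ <;> linarith [h1.1, h1.2]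

/-- If no edge goes down then `real_frac` gives `cntG / Zf cur ≥ 1 / 2`; `pD ^ (n / 2) * alp` is the empirical mean of `obs (.inl false)` (`inG_enc1`), whose
expectation is `cntG / Zf cur`.  The total relative error is within `(1 ± 8 t) ^ (j + 3)`, `j + 3 ≤ 2 s ^ 11`. -/
theorem Live.acc [Nonempty (PM n)] (H : Sz n ℓ G) (L : Live n ℓ G j sched prev cur z) (hj : j < pJ ℓ)
    (hx : Good n ℓ G prev cur x) (hd : anyDn ℓ G cur (encX x) = false) :
    Acc n ℓ G (z / rho ℓ G prev cur (encX x) * alp ℓ G cur (encX x)) := by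
  have hc := H.gr.pos_add L.okc.pos
  have hD : (0 : ℝ) < (pD ℓ : ℝ) ^ (n / 2) := pow_pos (by exact_mod_cast pD_pos ℓ) _
  have hs := est_big H
  have hn : (n : ℝ) ≤ (2 : ℝ) ^ ℓ := by exact_mod_cast H.le
  have h2 : Zf (gR n G + omR n ℓ cur) ≤ 2 * Zf (gR n G) := by
    refine real_frac (b := 1 / ((2 : ℝ) ^ ℓ) ^ 3) H.gr L.okc.pos (by positivity) ?_ fun u v huv => ?_
    · rw [mul_one_div, div_le_one (by positivity)]
      have : (n : ℝ) ^ 2 ≤ ((2 : ℝ) ^ ℓ) ^ 2 := by gcongr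
      nlinarith
    · refine (L.est_dir H hx u v).2.2.2 ?_
      by_contra hne
      have : anyDn ℓ G cur (encX x) = true := by
        simp only [anyDn, List.any_eq_true, List.mem_range, Bool.and_eq_true, decide_eq_true_eq, H.len]
        exact ⟨u, u.2, v, v.2, fun e => huv (Fin.ext e), by simpa using hne⟩
      rw [hd] at this
      exact absurd this (by simp)
  have e1 : (pD ℓ : ℝ) ^ (n / 2) * (alp ℓ G cur (encX x) : ℝ) =
      (∑ i, obs n ℓ G prev cur (.inl false) (x i)) / (pN ℓ : ℝ) := by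
    rw [alp, Rat.cast_div, est_sum, ← mul_div_assoc, mul_sum]
    congr 1
    refine sum_congr rfl fun i _ => ?_
    rw [obs_false, est_wt_g H]
    by_cases hG : ∀ v : Fin n, adj G v (x i v) = true
    · rw [if_pos hG, if_pos ((inG_enc1 H.len _).2 hG)]
      push_cast
      rw [est_wtL H L.okc]
      field_simp
    · rw [if_neg hG, if_neg fun h => hG ((inG_enc1 H.len _).1 h)]
      simp
  have e2 : ∑ S, mu (gR n G + omR n ℓ cur) S * obs n ℓ G prev cur (.inl false) S =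
      Zf (gR n G) / Zf (gR n G + omR n ℓ cur) := by
    rw [← est_mean hc]
    exact sum_congr rfl fun S _ => by rw [obs_false]
  have h1 := hx (.inl false)
  rw [e2, ← e1, abs_lt, H.Zf_gR] at h1
  rw [H.Zf_gR] at h2
  obtain ⟨lo, hi⟩ := L.est_rho H hx
  have zc := hc.Zf_pos
  have t0 : (0 : ℝ) < 1 / ((2 : ℝ) ^ ℓ) ^ 13 := by positivity
  have t1 : 1 / ((2 : ℝ) ^ ℓ) ^ 13 ≤ 1 / 16 :=
    one_div_le_one_div_of_le (by norm_num) (le_trans (by linarith)
      (le_self_pow₀ (by linarith) (by norm_num)))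
  have t2 : ((j + 3 : ℕ) : ℝ) * (8 * (1 / ((2 : ℝ) ^ ℓ) ^ 13)) ≤ 1 / 2 * (1 / (2 : ℝ) ^ ℓ) := by
    have hj' : (j : ℝ) ≤ ((2 : ℝ) ^ ℓ) ^ 11 := by
      rw [← pw_cast]
      exact_mod_cast hj.le
    push_cast
    generalize (2 : ℝ) ^ ℓ = s at hs hj'
    have b1 : s ≤ s ^ 11 := le_self_pow₀ (by linarith) (by norm_num)
    have b0 : (0 : ℝ) < s := by linarith
    rw [mul_one_div, ← mul_div_assoc, mul_one_div, div_le_div_iff₀ (by positivity) b0,
      show s ^ 13 = s ^ 11 * s * s by ring]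
    generalize s ^ 11 = w at *
    have b2 : ((j : ℝ) + 3) * 8 ≤ 1 / 2 * (w * s) := by nlinarith
    nlinarith [mul_le_mul_of_nonneg_right b2 b0.le]
  have t3 : 1 / (2 : ℝ) ^ ℓ ≤ 1 := by rw [div_le_one (by positivity)]; linarith
  rw [show 8 / ((2 : ℝ) ^ ℓ) ^ 13 = 8 * (1 / ((2 : ℝ) ^ ℓ) ^ 13) by ring] at lo hi
  have key : (1 - 1 / (2 : ℝ) ^ ℓ) * cntG n G ≤
      ((z / rho ℓ G prev cur (encX x) : ℚ) : ℝ) * alp ℓ G cur (encX x) ∧
      ((z / rho ℓ G prev cur (encX x) : ℚ) : ℝ) * alp ℓ G cur (encX x) ≤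
        (1 + 1 / (2 : ℝ) ^ ℓ) * cntG n G := by
    generalize 1 / ((2 : ℝ) ^ ℓ) ^ 13 = t at *
    generalize 1 / (2 : ℝ) ^ ℓ = ε at *
    generalize ((z / rho ℓ G prev cur (encX x) : ℚ) : ℝ) = y at *
    generalize (alp ℓ G cur (encX x) : ℝ) = α at *
    generalize Zf (gR n G + omR n ℓ cur) = Zc at *
    generalize (pD ℓ : ℝ) ^ (n / 2) = D at *
    generalize (cntG n G : ℝ) = c at *
    have hc0 : 0 < c := by linarith
    have e3 : Zc * (c / Zc) = c := by field_simp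
    have a1 : Zc * (D * α) ≤ c * (1 + 8 * t) := by
      nlinarith [mul_lt_mul_of_pos_left h1.2 zc, mul_pos t0 hc0]
    have a2 : c * (1 - 8 * t) ≤ Zc * (D * α) := by
      nlinarith [mul_lt_mul_of_pos_left h1.1 zc, mul_pos t0 hc0]
    have hα : 0 ≤ α := by
      by_contra hn
      nlinarith [mul_pos zc (mul_pos hD (neg_pos.2 (not_le.1 hn)))]
    have b1 : 1 + ((j + 3 : ℕ) : ℝ) * (-(8 * t)) ≤ (1 + -(8 * t)) ^ (j + 3) :=
      one_add_mul_le_pow (by linarith) _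
    have b2 := est_pow_le (y := 8 * t) (k := j + 3) (by linarith) (by linarith) (by linarith)
    have p1 : 0 ≤ (1 - 8 * t) ^ (j + 2) := pow_nonneg (by linarith) _
    have p2 : 0 ≤ (1 + 8 * t) ^ (j + 2) := by positivity
    have p3 : 0 ≤ ((j + 3 : ℕ) : ℝ) * (8 * t) := by positivity
    constructor
    · calc (1 - ε) * c ≤ (1 + -(8 * t)) ^ (j + 3) * c :=
            mul_le_mul_of_nonneg_right (by linarith) hc0.le
        _ = (1 - 8 * t) ^ (j + 2) * (c * (1 - 8 * t)) := by rw [← sub_eq_add_neg]; ring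
        _ ≤ (1 - 8 * t) ^ (j + 2) * (Zc * (D * α)) := mul_le_mul_of_nonneg_left a2 p1
        _ = (1 - 8 * t) ^ (j + 2) * (D * Zc) * α := by ring
        _ ≤ y * α := mul_le_mul_of_nonneg_right lo hα
    · calc y * α ≤ (1 + 8 * t) ^ (j + 2) * (D * Zc) * α := mul_le_mul_of_nonneg_right hi hα
        _ = (1 + 8 * t) ^ (j + 2) * (Zc * (D * α)) := by ring
        _ ≤ (1 + 8 * t) ^ (j + 2) * (c * (1 + 8 * t)) := mul_le_mul_of_nonneg_left a1 p2
        _ = (1 + 8 * t) ^ (j + 3) * c := by ring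
        _ ≤ (1 + ε) * c := mul_le_mul_of_nonneg_right (by linarith) hc0.le
  constructor
  · rw [← Rat.cast_le (K := ℝ), Rat.cast_mul, Rat.cast_mul]
    refine le_trans (le_of_eq ?_) key.1
    push_cast
    rfl
  · rw [← Rat.cast_le (K := ℝ), Rat.cast_mul, Rat.cast_mul]
    refine key.2.trans (le_of_eq ?_)
    push_cast
    rfl

end Crest.Agent.R304
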