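import Crest.Agent.R304.Sim
import Crest.Agent.R304.Cheb

/-! Row 304: the number of perfect matchings of the complete graph and the initial sampler. -/

set_option autoImplicit false

namespace Crest.Agent.R304

open Finset Crest.Agent.Lib.PT Crest.Agent.R309

variable {n ℓ : ℕ}

/-- the first `t` pairs are those of the base matching -/
def initA (t : ℕ) (S : PM n) : Prop := ∀ v : Fin n, (v : ℕ) < 2 * t → (v : ℕ) % 2 = 0 → (S v : ℕ) = v + 1

theorem init_shift (a b : Fin n) (S : PM n) (v : Fin n) :
    shift [a, b] S v = Equiv.swap a b (S (Equiv.swap a b v)) := by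
  by_cases h : a = b
  · subst h
    rw [shift_pair_self]
    simp
  · exact shift_pair_apply h S v

theorem init_swap_lt {a b v : Fin n} (hab : a ≤ b) (h : v < a) : Equiv.swap a b v = v :=
  Equiv.swap_apply_of_ne_of_ne h.ne (h.trans_le hab).ne

theorem initA_shift {s : ℕ} {a b : Fin n} (ha : (a : ℕ) = 2 * s + 1) (hab : a ≤ b) {S : PM n}
    (h : initA s S) : initA s (shift [a, b] S) := by
  intro v h1 h2
  have h3 := h v h1 h2
  rw [init_shift, init_swap_lt hab (show v < a by rw [Fin.lt_def]; omega),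
    init_swap_lt hab (show S v < a by rw [Fin.lt_def]; omega), h3]

theorem initA_succ {s : ℕ} {p a : Fin n} (hp : (p : ℕ) = 2 * s) (ha : (a : ℕ) = 2 * s + 1) {S : PM n} :
    initA (s + 1) S ↔ initA s S ∧ S p = a := by
  constructor
  · intro h
    exact ⟨fun v h1 h2 => h v (by omega) h2, Fin.ext (by rw [h p (by omega) (by omega)]; omega)⟩
  · rintro ⟨h, h'⟩ v h1 h2
    by_cases h3 : (v : ℕ) < 2 * s
    · exact h v h3 h2
    · have : v = p := Fin.ext (by omega)
      rw [this, h']
      omega

theorem init_shift_p {s : ℕ} {p a b : Fin n} (hp : (p : ℕ) = 2 * s) (ha : (a : ℕ) = 2 * s + 1)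
    (hab : a ≤ b) (S : PM n) : shift [a, b] S p = Equiv.swap a b (S p) := by
  rw [init_shift, init_swap_lt hab (show p < a by rw [Fin.lt_def]; omega)]

theorem initA_le {s : ℕ} {p a : Fin n} (hp : (p : ℕ) = 2 * s) (ha : (a : ℕ) = 2 * s + 1) {S : PM n}
    (h : initA s S) : a ≤ S p := by
  rw [Fin.le_def]
  by_contra h1
  have h2 : (S p : ℕ) ≠ p := fun e => S.ne p (Fin.ext e)
  by_cases h3 : (S p : ℕ) % 2 = 0
  · have := h (S p) (by omega) h3
    rw [S.inv] at this
    omega
  · have h4 := h ⟨S p - 1, by have := (S p).2; omega⟩ (by simp only; omega) (by simp only; omega)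
    have h5 : S ⟨S p - 1, by have := (S p).2; omega⟩ = S p := Fin.ext (by rw [h4]; simp only; omega)
    have h6 := congrArg Fin.val (S.inj h5)
    simp only at h6
    omega

/-- the base matching -/
def initBase (hn : Even n) : PM n :=
  ⟨fun v => ⟨if (v : ℕ) % 2 = 0 then v + 1 else v - 1, by
      obtain ⟨m, hm⟩ := hn
      have := v.2
      split_ifs <;> omega⟩,
    fun v => Fin.ext (by
      simp only
      split_ifs <;> omega),
    fun v e => by
      have := congrArg Fin.val e
      simp only at this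
      split_ifs at this <;> omega⟩

theorem initA_base (hn : Even n) (t : ℕ) : initA t (initBase hn) := by
  intro v _ h
  simp [initBase, h]

theorem init_base_eq (hn : Even n) : base n = enc1 (initBase hn) := by
  refine List.ext_getElem (by simp [base, enc1]) (fun i h1 h2 => ?_)
  simp [base, enc1, initBase]

theorem initA_top (hn : Even n) {S : PM n} (h : initA (n / 2) S) : S = initBase hn := by
  obtain ⟨m, hm⟩ := hn
  ext v
  have hv := v.2
  by_cases h1 : (v : ℕ) % 2 = 0
  · rw [h v (by omega) h1]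
    simp [initBase, h1]
  · have h2 := h ⟨v - 1, by omega⟩ (by simp only; omega) (by simp only; omega)
    have h3 : S ⟨v - 1, by omega⟩ = v := Fin.ext (by rw [h2]; simp only; omega)
    rw [S.eq_iff.1 h3]
    simp [initBase, h1]

open Classical in
theorem init_card_step {s : ℕ} (hs : 2 * s + 1 < n) :
    (univ.filter fun S : PM n => initA s S).card =
      (n - (2 * s + 1)) * (univ.filter fun S : PM n => initA (s + 1) S).card := by
  let p : Fin n := ⟨2 * s, by omega⟩
  let a : Fin n := ⟨2 * s + 1, hs⟩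
  have hp : (p : ℕ) = 2 * s := rfl
  have ha : (a : ℕ) = 2 * s + 1 := rfl
  rw [card_eq_sum_card_fiberwise (t := Ici a) (f := fun S : PM n => S p)
    (fun S hS => by
      have := initA_le hp ha (mem_filter.1 hS).2
      simpa using this)]
  rw [sum_congr rfl (g := fun _ => (univ.filter fun S : PM n => initA (s + 1) S).card),
    sum_const, Fin.card_Ici, smul_eq_mul]
  intro b hb
  have hab : a ≤ b := mem_Ici.1 hb
  refine card_bij' (fun S _ => shift [a, b] S) (fun S _ => shift [a, b] S) ?_ ?_ ?_ ?_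
  · intro S hS
    simp only [mem_filter, mem_univ, true_and] at hS ⊢
    refine (initA_succ hp ha).2 ⟨initA_shift ha hab hS.1, ?_⟩
    rw [init_shift_p hp ha hab, hS.2, Equiv.swap_apply_right]
  · intro S hS
    simp only [mem_filter, mem_univ, true_and] at hS ⊢
    obtain ⟨h1, h2⟩ := (initA_succ hp ha).1 hS
    refine ⟨initA_shift ha hab h1, ?_⟩
    rw [init_shift_p hp ha hab, h2, Equiv.swap_apply_left]
  · intro S _
    exact shift_shift _ _
  · intro S _
    exact shift_shift _ _

/-- the state after `j` steps -/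
def initSt (n j : ℕ) (L : List (List Bool)) : List ℕ := ((List.range j).zip L).foldl (istep n) (base n)

theorem initSt_succ {j : ℕ} {L : List (List Bool)} (h : L.length = j) (v : List Bool) :
    initSt n (j + 1) (L ++ [v]) = istep n (initSt n j L) (j, v) := by
  unfold initSt
  rw [List.range_succ, List.zip_append (by simp [h]), List.foldl_append]
  rfl

theorem init_istep {j s : ℕ} (h : n = 2 * (s + 1 + j)) (S : PM n) (v : List Bool) :
    ∃ a b : Fin n, (a : ℕ) = 2 * s + 1 ∧ (b : ℕ) = 2 * s + 1 + ofBits v % (2 * j + 1) ∧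
      istep n (enc1 S) (j, v) = enc1 (shift [a, b] S) := by
  have h1 := Nat.mod_lt (ofBits v) (show 0 < 2 * j + 1 by omega)
  refine ⟨⟨2 * s + 1, by omega⟩, ⟨2 * s + 1 + ofBits v % (2 * j + 1), by omega⟩, rfl, rfl, ?_⟩
  rw [← shiftL_enc1]
  have : n - 1 - 2 * j = 2 * s + 1 := by omega
  simp only [istep, this, List.map_cons, List.map_nil]

theorem initSt_enc1 (hn : Even n) (r : ℕ) (ω : List Bool) {j : ℕ} (hj : j ≤ n / 2) :
    ∃ S : PM n, initA (n / 2 - j) S ∧ initSt n j (chunks j r ω) = enc1 S := by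
  induction j with
  | zero => exact ⟨initBase hn, initA_base hn _, by simp [initSt, init_base_eq hn]⟩
  | succ j ih =>
    obtain ⟨S, h1, h2⟩ := ih (by omega)
    obtain ⟨m, hm⟩ := hn
    obtain ⟨a, b, ha, hb, e⟩ := init_istep (j := j) (s := n / 2 - (j + 1)) (by omega) S
      ((ω.drop (j * r)).take r)
    refine ⟨shift [a, b] S, initA_shift ha (by rw [Fin.le_def]; omega)
      (fun v h3 h4 => h1 v (by omega) h4), ?_⟩
    rw [chunks_succ', initSt_succ (length_chunks _ _ _), h2, e]

theorem initSt_prob (hn : Even n) (r : ℕ) {j : ℕ} (hj : j ≤ n / 2) (T : PM n) :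
    Pr (j * r) (fun ω => initSt n j (chunks j r ω) = enc1 T) ≤
      ∏ t ∈ range j, (1 / ((2 * t + 1 : ℕ) : ℝ) + 1 / 2 ^ r) := by
  induction j generalizing T with
  | zero => simpa using Pr_le_one _ _
  | succ j ih =>
    have hn' := hn
    obtain ⟨m, hm⟩ := hn'
    set s := n / 2 - (j + 1) with hs
    let p : Fin n := ⟨2 * s, by omega⟩
    let a : Fin n := ⟨2 * s + 1, by omega⟩
    rw [tape_Pr, Ex_chunks_succ' j r (fun L => tapeInd (initSt n (j + 1) L = enc1 T)),
      prod_range_succ]
    calc _ ≤ Ex (j * r) fun u => Ex r fun v =>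
          tapeInd (initSt n j (chunks j r u) = enc1 (shift [a, T p] T)) *
            tapeInd (ofBits v % (2 * j + 1) = T p - (2 * s + 1)) := by
          refine Ex_mono fun u _ => Ex_mono fun v _ => ?_
          by_cases h : initSt n (j + 1) (chunks j r u ++ [v]) = enc1 T
          · obtain ⟨S, h1, h2⟩ := initSt_enc1 hn r u (j := j) (by omega)
            obtain ⟨a', b, ha, hb, e⟩ := init_istep (j := j) (s := s) (by omega) S v
            obtain rfl : a = a' := Fin.ext ha.symm
            rw [initSt_succ (length_chunks _ _ _), h2, e] at h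
            have h3 := enc1_injective h
            have h4 : S p = a :=
              ((initA_succ (p := p) rfl ha).1 (by rwa [show s + 1 = n / 2 - j by omega])).2
            have h5 : T p = b := by
              rw [← h3, init_shift_p (p := p) rfl ha (by rw [Fin.le_def]; omega), h4,
                Equiv.swap_apply_left]
            have h6 : initSt n j (chunks j r u) = enc1 (shift [a, T p] T) := by
              rw [h5, ← h3, shift_shift, h2]
            have h7 : ofBits v % (2 * j + 1) = T p - (2 * s + 1) := by rw [h5]; omega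
            refine (tapeInd_le_one _).trans (le_of_eq ?_)
            simp only [tapeInd, if_pos h6, if_pos h7, mul_one]
          · simp only [tapeInd, if_neg h]
            exact mul_nonneg (tapeInd_nonneg _) (tapeInd_nonneg _)
      _ = Pr (j * r) (fun u => initSt n j (chunks j r u) = enc1 (shift [a, T p] T)) *
            Pr r (fun v => ofBits v % (2 * j + 1) = T p - (2 * s + 1)) := by
          simp only [Ex_mul_left, Ex_mul_right, tape_Pr]
      _ ≤ _ := mul_le_mul (ih (by omega) _) (Pr_ofBits_mod_le r _ _ (by omega)) (Pr_nonneg _ _)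
            (prod_nonneg fun _ _ => by positivity)

theorem init_indep {r : ℕ} (g : List Bool → PM n) (N : ℕ) (Φ : List (List ℕ) → ℝ) :
    Ex (N * r) (fun ω => Φ ((chunks N r ω).map fun u => enc1 (g u))) =
      EX (fun S : PM n => Pr r fun u => g u = S) (fun x : Fin N → PM n => Φ (encX x)) := by
  induction N generalizing Φ with
  | zero => simp [Ex_zero, chunks, EX, encX]
  | succ N ih =>
    rw [Ex_chunks_succ N r fun L => Φ (L.map fun u => enc1 (g u))]
    simp only [List.map_cons]
    rw [Ex_congr fun u _ => ih fun X => Φ (enc1 (g u) :: X),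
      Ex_comp r univ g (fun _ _ => mem_univ _) fun S => EX (fun S : PM n => Pr r fun u => g u = S)
        fun x : Fin N → PM n => Φ (enc1 S :: encX x)]
    unfold EX
    rw [← (Fin.consEquiv fun _ : Fin (N + 1) => PM n).sum_comp, Fintype.sum_prod_type]
    refine sum_congr rfl fun S _ => ?_
    rw [mul_sum]
    refine sum_congr rfl fun x _ => ?_
    simp only [Fin.consEquiv_apply, Fin.prod_univ_succ, Fin.cons_zero, Fin.cons_succ, encX,
      List.ofFn_succ, mul_assoc]

/-- Let `A j` be the set of matchings with `S (2 t) = 2 t + 1` for all `t < n / 2 - j`; `A 0` is the singleton of the base matching, `A (n / 2) = univ`.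
With `a = n - 1 - 2 j` the map `(u, S) ↦ shift [a, a + u] S` is a bijection from `range (2 j + 1) × A j` to `A (j + 1)`; the inverse reads `a + u = S (a - 1)`. -/
theorem card_PM (hn : Even n) : Fintype.card (PM n) = df n := by
  classical
  have key : ∀ j ≤ n / 2, (univ.filter fun S : PM n => initA (n / 2 - j) S).card =
      ∏ t ∈ range j, (2 * t + 1) := by
    intro j hj
    induction j with
    | zero =>
      rw [prod_range_zero, card_eq_one]
      refine ⟨initBase hn, ?_⟩
      ext S
      simp only [mem_filter, mem_univ, true_and, mem_singleton]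
      exact ⟨initA_top hn, fun e => e ▸ initA_base hn _⟩
    | succ j ih =>
      obtain ⟨m, hm⟩ := hn
      rw [prod_range_succ, ← ih (by omega), mul_comm,
        show n / 2 - j = n / 2 - (j + 1) + 1 by omega,
        show 2 * j + 1 = n - (2 * (n / 2 - (j + 1)) + 1) by omega]
      convert init_card_step (n := n) (s := n / 2 - (j + 1)) (by omega)
  rw [df, ← key _ le_rfl, filter_true_of_mem, card_univ]
  intro S _ v h
  omega

theorem nonempty_PM (hn : Even n) : Nonempty (PM n) := by
  exact ⟨initBase hn⟩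

theorem init1_enc1 (hn : Even n) (ω : List Bool) : ∃ S : PM n, init1 ℓ n ω = enc1 S := by
  obtain ⟨S, _, h⟩ := initSt_enc1 hn (400 * ℓ) ω le_rfl
  exact ⟨S, h⟩

theorem init_encX (hn : Even n) (ω : List Bool) : ∃ x : Fin (pN ℓ) → PM n, init ℓ n ω = encX x := by
  choose g hg using init1_enc1 (ℓ := ℓ) hn
  refine ⟨fun i => g ((chunks (pN ℓ) (rI1 ℓ) ω)[(i : ℕ)]'(by rw [length_chunks]; exact i.2)), ?_⟩
  refine List.ext_getElem (by simp [init, encX, length_chunks]) (fun i h1 h2 => ?_)
  simp [init, encX, hg]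

/-- After `j` steps the state is in `A j` and every value has probability at most `∏ t < j, (1 / (2 t + 1) + 1 / 2 ^ (400 ℓ))`
(`Ex_chunks_succ'`, `Pr_ofBits_mod_le`, injectivity of the map above). -/
theorem init1_prob (hn : Even n) (h1 : n ≤ 2 ^ ℓ) (h2 : 10 ≤ ℓ) (S : PM n) :
    Pr (rI1 ℓ) (fun ω => init1 ℓ n ω = enc1 S) ≤
      (1 + 1 / ((2 : ℝ) ^ ℓ) ^ 397) * (1 / Fintype.card (PM n)) := by
  have hle : n / 2 * (400 * ℓ) ≤ rI1 ℓ := by
    refine Nat.mul_le_mul_right _ ?_
    rw [pw_eq, pow_one]
    omega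
  rw [Pr_of_prefix hle (fun l => by simp only [init1, chunks_take le_rfl])]
  refine (initSt_prob hn (400 * ℓ) le_rfl S).trans ?_
  set s : ℝ := (2 : ℝ) ^ ℓ with hs
  have hs1 : 1 ≤ s := one_le_pow₀ (by norm_num)
  have hns : (n : ℝ) ≤ s := by rw [hs]; exact_mod_cast h1
  have e : (2 : ℝ) ^ (400 * ℓ) = s ^ 400 := by rw [hs, ← pow_mul, mul_comm]
  have h3 : ∏ t ∈ range (n / 2), (1 / ((2 * t + 1 : ℕ) : ℝ) + 1 / 2 ^ (400 * ℓ)) ≤
      ∏ t ∈ range (n / 2), ((1 + 1 / s ^ 399) * (1 / ((2 * t + 1 : ℕ) : ℝ))) := by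
    refine prod_le_prod (fun _ _ => by positivity) (fun t ht => ?_)
    have h4 : ((2 * t + 1 : ℕ) : ℝ) ≤ s := by
      refine le_trans ?_ hns
      have := mem_range.1 ht
      exact_mod_cast (by omega : 2 * t + 1 ≤ n)
    have h5 : (0 : ℝ) < ((2 * t + 1 : ℕ) : ℝ) := by positivity
    rw [e, add_mul, one_mul, add_le_add_iff_left, div_mul_div_comm, one_mul, pow_succ s 399]
    exact one_div_le_one_div_of_le (by positivity) (mul_le_mul_of_nonneg_left h4 (by positivity))
  refine h3.trans ?_
  rw [prod_mul_distrib, prod_const, card_range, card_PM hn, df, Nat.cast_prod, prod_div_distrib,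
    prod_const_one]
  refine mul_le_mul_of_nonneg_right ?_ (by positivity)
  have h6 : ((n / 2 : ℕ) : ℝ) ≤ s := le_trans (by exact_mod_cast Nat.div_le_self n 2) hns
  have h7 : ((n / 2 : ℕ) : ℝ) * (1 / s ^ 399) ≤ 1 / s ^ 398 := by
    rw [mul_one_div, div_le_div_iff₀ (by positivity) (by positivity), pow_succ s 398]
    nlinarith [pow_pos (lt_of_lt_of_le one_pos hs1) 398]
  have h8 : 1 / s ^ 398 ≤ 1 := by
    rw [div_le_one (by positivity)]
    exact one_le_pow₀ hs1
  have h9 : 2 * (1 / s ^ 398) ≤ 1 / s ^ 397 := by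
    have : (2 : ℝ) ≤ s := by
      rw [hs]
      exact le_self_pow₀ (by norm_num) (by omega)
    rw [mul_one_div, div_le_div_iff₀ (by positivity) (by positivity), pow_succ s 397]
    nlinarith [pow_pos (lt_of_lt_of_le one_pos hs1) 397]
  have h10 := pconc_pow_bound (δ := 1 / s ^ 399) (by positivity) (h7.trans h8)
  have h11 : 0 ≤ ((n / 2 : ℕ) : ℝ) * (1 / s ^ 399) := by positivity
  have h12 := h7.trans h8
  generalize ((n / 2 : ℕ) : ℝ) * (1 / s ^ 399) = x at h7 h10 h11 h12
  nlinarith

/-- The replicas are independent with the law `μ₀ S = Pr (init1 = enc1 S)` (induction on the number of chunks, or `Ex_comp` with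
`Ex_prod_chunks`); `EX_close`. -/
theorem init_near (hn : Even n) (h1 : n ≤ 2 ^ ℓ) (h2 : 10 ≤ ℓ) {Φ : List (List ℕ) → ℝ} (hΦ : Unit01 Φ) :
    |Ex (rI ℓ) (fun ω => Φ (init ℓ n ω)) -
      EX (fun _ : PM n => 1 / (Fintype.card (PM n) : ℝ)) (fun x : Fin (pN ℓ) → PM n => Φ (encX x))| ≤
      1 / ((2 : ℝ) ^ ℓ) ^ 90 := by
  choose g hg using init1_enc1 (ℓ := ℓ) hn
  have := nonempty_PM hn
  have e : (fun ω => Φ (init ℓ n ω)) =
      fun ω => Φ ((chunks (pN ℓ) (rI1 ℓ) ω).map fun u => enc1 (g u)) := by
    funext ω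
    rw [init, funext hg]
  rw [e, rI, init_indep]
  set s : ℝ := (2 : ℝ) ^ ℓ with hs
  have hs2 : (2 : ℝ) ≤ s := by
    rw [hs]
    exact le_self_pow₀ (by norm_num) (by omega)
  have hs1 : 1 ≤ s := by linarith
  have hN : ((pN ℓ : ℕ) : ℝ) * (1 / s ^ 397) = 1 / s ^ 97 := by
    rw [pw_cast, ← hs, show s ^ 397 = s ^ 300 * s ^ 97 by rw [← pow_add]]
    field_simp
  refine (EX_close (fun _ => Pr_nonneg _ _) ?_ ?_ (ε := 1 / s ^ 397) (by positivity) (fun S => ?_) ?_
    (fun x => hΦ _)).trans ?_
  · have := Ex_comp (rI1 ℓ) univ g (fun _ _ => mem_univ _) (fun _ => (1 : ℝ))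
    rw [Ex_const] at this
    simpa using this.symm
  · have : (0 : ℝ) < Fintype.card (PM n) := by exact_mod_cast Fintype.card_pos
    rw [sum_const, card_univ, nsmul_eq_mul, mul_one_div_cancel this.ne']
  · refine le_trans (le_of_eq (Pr_congr fun l _ => ?_)) (init1_prob hn h1 h2 S)
    rw [hg, enc1_injective.eq_iff]
  · rw [hN, div_le_one (by positivity)]
    exact one_le_pow₀ hs1
  · rw [mul_assoc, hN, mul_one_div, div_le_div_iff₀ (by positivity) (by positivity),
      show s ^ 97 = s ^ 90 * s ^ 7 by rw [← pow_add]]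
    have : 2 ≤ s ^ 7 := hs2.trans (le_self_pow₀ hs1 (by norm_num))
    nlinarith [pow_pos (lt_of_lt_of_le one_pos hs1) 90]

end Crest.Agent.R304
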