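import Crest.Agent.R304.Stage
import Crest.Agent.R304.Init

/-! Row 304: the replicas at the end of a schedule are nearly independent samples. -/

set_option autoImplicit false

namespace Crest.Agent.R304

open Finset Crest.Agent.Lib.PT Crest.Agent.R309

variable {n ℓ : ℕ} {G : List (List Bool)}

/-- the run along a schedule from given replicas -/
def sampleFrom (ℓ : ℕ) (G : List (List Bool)) (sched : List KM) (X : List (List ℕ)) (ω : List Bool) :
    List (List ℕ) :=
  (sched.zip (chunks sched.length (r3 ℓ) ω)).foldl (fun X z => run ℓ G z.1 X z.2) X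

theorem sample_eq_from (sched : List KM) (ω : List Bool) :
    sample ℓ G sched ω = sampleFrom ℓ G sched (init ℓ G.length ω) (ω.drop (rI ℓ)) := rfl

theorem sample_foldl_encX (h : G.length = n) (L : List (KM × List Bool)) (x : Fin (pN ℓ) → PM n) :
    ∃ y : Fin (pN ℓ) → PM n, L.foldl (fun X z => run ℓ G z.1 X z.2) (encX x) = encX y := by
  induction L generalizing x with
  | nil => exact ⟨x, rfl⟩
  | cons z L ih =>
    obtain ⟨y, hy⟩ := run_encX (ℓ := ℓ) (k := z.1) h x z.2
    rw [List.foldl_cons, hy]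
    exact ih y

theorem sample_Ex_unit01 {α : Type} (r : ℕ) {F : α → List Bool → ℝ} (h : ∀ x ω, 0 ≤ F x ω ∧ F x ω ≤ 1) :
    Unit01 fun x => Ex r (F x) := fun x =>
  ⟨Ex_nonneg fun l _ => (h x l).1, (Ex_mono fun l _ => (h x l).2).trans (Ex_const r 1).le⟩

theorem sample_Ex_cons (k : KM) (rest : List KM) (X : List (List ℕ)) (Φ : List (List ℕ) → ℝ) :
    Ex ((k :: rest).length * r3 ℓ) (fun ω => Φ (sampleFrom ℓ G (k :: rest) X ω)) =
      Ex (r3 ℓ) fun u => Ex (rest.length * r3 ℓ) fun v => Φ (sampleFrom ℓ G rest (run ℓ G k X u) v) := by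
  have h := Ex_chunks_succ rest.length (r3 ℓ) fun L =>
    Φ (((k :: rest).zip L).foldl (fun X z => run ℓ G z.1 X z.2) X)
  simp only [List.zip_cons_cons, List.foldl_cons] at h
  exact h

theorem sample_one_le (ℓ : ℕ) : (1 : ℝ) ≤ 1 + 1 / (pM ℓ : ℝ) :=
  le_add_of_nonneg_right (by positivity)

theorem Sz.sample_chain [Nonempty (PM n)] (H : Sz n ℓ G) (rest : List KM) (k : KM)
    (hch : (k :: rest).IsChain (Adj1 n))
    (hok : ∀ k' ∈ k :: rest, KOk n ℓ k' ∧ Bal (gR n G + omR n ℓ k') (8 * ((2 : ℝ) ^ ℓ) ^ 3))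
    {cur : KM} (hc : (k :: rest).getLast? = some cur) {μ₀ : PM n → ℝ} (h1 : ∑ S, μ₀ S = 1)
    (h2 : ∀ S, |μ₀ S - mu (gR n G + omR n ℓ k) S| ≤ 4 / ((2 : ℝ) ^ ℓ) ^ 629 * mu (gR n G + omR n ℓ k) S)
    {Φ : List (List ℕ) → ℝ} (hΦ : Unit01 Φ) :
    |EX μ₀ (fun x : Fin (pN ℓ) → PM n =>
        Ex ((k :: rest).length * r3 ℓ) fun ω => Φ (sampleFrom ℓ G (k :: rest) (encX x) ω)) -
      EX (mu (gR n G + omR n ℓ cur)) (fun x : Fin (pN ℓ) → PM n => Φ (encX x))| ≤
      ((k :: rest).length : ℝ) / ((2 : ℝ) ^ ℓ) ^ 655 := by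
  induction rest generalizing k μ₀ with
  | nil =>
    have hk := hok k (by simp)
    have e : cur = k := by simpa using hc.symm
    subst e
    have h := H.stage hk.1 hk.2 h1 h2 hΦ
    simp only [sample_Ex_cons]
    simpa [Ex_zero, sampleFrom] using h
  | cons k' rest ih =>
    have hk := hok k (by simp)
    have hk' := hok k' (by simp)
    have hΨ : Unit01 fun X : List (List ℕ) =>
        Ex ((k' :: rest).length * r3 ℓ) fun v => Φ (sampleFrom ℓ G (k' :: rest) X v) :=
      sample_Ex_unit01 _ fun _ _ => hΦ _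
    have h := H.stage hk.1 hk.2 h1 h2 hΨ
    have hP := H.gr.pos_add hk.1.pos
    have hP' := H.gr.pos_add hk'.1.pos
    have hadj : Adj1 n k k' := (List.isChain_cons_cons.1 hch).1
    have hcl : Close (1 + 1 / (pM ℓ : ℝ)) (gR n G + omR n ℓ k) (gR n G + omR n ℓ k') := by
      refine Close.add H.gr (sample_one_le ℓ) ?_
      simpa using close_omR (ℓ := ℓ) (d := 1) hadj
    have h' := ih k' (List.isChain_cons_cons.1 hch).2 (fun j hj => hok j (List.mem_cons_of_mem _ hj))
      (by simpa [List.getLast?_cons_cons] using hc) hP.sum_mu (H.mu_close hP hP' hcl)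
    have e : (fun x : Fin (pN ℓ) → PM n => Ex ((k :: k' :: rest).length * r3 ℓ) fun ω =>
        Φ (sampleFrom ℓ G (k :: k' :: rest) (encX x) ω)) = fun x => Ex (r3 ℓ) fun u =>
          Ex ((k' :: rest).length * r3 ℓ) fun v =>
            Φ (sampleFrom ℓ G (k' :: rest) (run ℓ G k (encX x) u) v) :=
      funext fun x => sample_Ex_cons _ _ _ _
    rw [e]
    refine (abs_sub_le _ _ _).trans ((add_le_add h h').trans (le_of_eq ?_))
    simp only [List.length_cons]
    push_cast
    ring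

theorem sample_mu_const [Nonempty (PM n)] {c : ℝ} (hc : 0 < c) :
    mu (fun _ _ : Fin n => c) = fun _ : PM n => 1 / (Fintype.card (PM n) : ℝ) := by
  have h := mu_const_mul (n := n) hc fun _ _ => 1
  simp only [mul_one] at h
  rw [h]
  funext S
  simp [mu, Zf, wt]

theorem sample_encX (h : G.length = n) (hn : Even n) (sched : List KM) (ω : List Bool) :
    ∃ x : Fin (pN ℓ) → PM n, sample ℓ G sched ω = encX x := by
  obtain ⟨x, hx⟩ := init_encX (ℓ := ℓ) hn ω
  rw [sample, h, hx]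
  exact sample_foldl_encX h _ x

/-- Induction on the schedule from the right (`List.reverseRecOn`), for the tape length `rI + sched.length * r3` and all `Φ`: the error is at
most `1 / s ^ 90 + sched.length / s ^ 655` (`Ex_split`, `Ex_chunks_succ'`; apply the induction hypothesis to
`X ↦ Ex r3 fun ω => Φ (run ℓ G k X ω)`, then `Sz.stage` with `Sz.mu_close`, `close_omR`, `Close.add`).  For the first stage the uniform law is
`mu` of the constant weights `pM ℓ`, which are `Close (1 + 1 / pM)` to `gR + omR (k0)` (`omR_k0`); `init_near`.  Finally `Ex_of_prefix`. -/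
theorem Sz.sample_near (H : Sz n ℓ G) (hn : Even n) {sched : List KM} (hs : Sched n ℓ G sched)
    (hl : sched.length ≤ pL ℓ) {cur : KM} (hc : sched.getLast? = some cur)
    {Φ : List (List ℕ) → ℝ} (hΦ : Unit01 Φ) :
    |Ex (rS ℓ) (fun ω => Φ (sample ℓ G sched ω)) -
      EX (mu (gR n G + omR n ℓ cur)) (fun x : Fin (pN ℓ) → PM n => Φ (encX x))| ≤
      1 / ((2 : ℝ) ^ ℓ) ^ 12 := by
  have := nonempty_PM hn
  obtain ⟨rest, rfl⟩ : ∃ rest, sched = k0 ℓ n :: rest := by
    have := hs.head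
    cases sched with
    | nil => simp at this
    | cons a l => exact ⟨l, by simp at this; rw [this]⟩
  have hM : (0 : ℝ) < pM ℓ := Nat.cast_pos.2 (pw_pos _ _)
  have hP : Pos (fun _ _ : Fin n => (pM ℓ : ℝ)) := ⟨fun _ _ => hM, fun _ _ => rfl⟩
  have hP' := H.gr.pos_add (kOk_k0 (n := n) (ℓ := ℓ)).pos
  have hcl : Close (1 + 1 / (pM ℓ : ℝ)) (fun _ _ : Fin n => (pM ℓ : ℝ)) (gR n G + omR n ℓ (k0 ℓ n)) := by
    intro u v
    have h0 := learn_nonneg H.gr u v
    have h1 := learn_le_one H.gr u v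
    have h2 : (1 + 1 / (pM ℓ : ℝ)) * pM ℓ = pM ℓ + 1 := by field_simp
    have h3 := sample_one_le ℓ
    rw [omR_k0]
    simp only [Pi.add_apply]
    constructor
    · linarith
    · nlinarith
  have h2 := H.mu_close hP hP' hcl
  have h1 := hP.sum_mu
  rw [sample_mu_const hM] at h1 h2
  have hA := H.sample_chain rest (k0 ℓ n) hs.chain hs.ok hc h1 h2 hΦ
  have hΨ : Unit01 fun X : List (List ℕ) =>
      Ex ((k0 ℓ n :: rest).length * r3 ℓ) fun v => Φ (sampleFrom ℓ G (k0 ℓ n :: rest) X v) :=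
    sample_Ex_unit01 _ fun _ _ => hΦ _
  have hB := init_near hn H.le H.ten hΨ
  have e : Ex (rS ℓ) (fun ω => Φ (sample ℓ G (k0 ℓ n :: rest) ω)) = Ex (rI ℓ) fun u =>
      Ex ((k0 ℓ n :: rest).length * r3 ℓ) fun v =>
        Φ (sampleFrom ℓ G (k0 ℓ n :: rest) (init ℓ n u) v) := by
    have e1 := Ex_split (rI ℓ) (pL ℓ * r3 ℓ) fun u v =>
      Φ (sampleFrom ℓ G (k0 ℓ n :: rest) (init ℓ n u) v)
    have e2 : ∀ l : List Bool, init ℓ n (l.take (rI ℓ)) = init ℓ n l := fun l => by
      unfold init rI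
      rw [chunks_take le_rfl]
    simp only [e2] at e1
    simp only [sample_eq_from, H.len]
    refine e1.trans (Ex_congr fun u _ => ?_)
    refine Ex_of_prefix (Nat.mul_le_mul_right _ hl) fun l => ?_
    unfold sampleFrom
    rw [chunks_take le_rfl]
  rw [e]
  refine (abs_sub_le _ _ _).trans ((add_le_add hB hA).trans ?_)
  have hl' : ((k0 ℓ n :: rest).length : ℝ) ≤ ((2 : ℝ) ^ ℓ) ^ 640 := by
    rw [← pw_cast]
    exact Nat.cast_le.2 hl
  have hs2 : (2 : ℝ) ≤ 2 ^ ℓ := by
    calc (2 : ℝ) = 2 ^ 1 := by norm_num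
      _ ≤ 2 ^ ℓ := pow_le_pow_right₀ (by norm_num) (by have := H.ten; omega)
  generalize (2 : ℝ) ^ ℓ = s at hl' hs2 ⊢
  have hs0 : 0 < s := by linarith
  have hs1 : 1 ≤ s := by linarith
  have h3 : ((k0 ℓ n :: rest).length : ℝ) / s ^ 655 ≤ 1 / s ^ 13 := by
    rw [div_le_div_iff₀ (by positivity) (by positivity), one_mul]
    calc _ ≤ s ^ 640 * s ^ 13 := mul_le_mul_of_nonneg_right hl' (by positivity)
      _ = s ^ 653 := by rw [← pow_add]
      _ ≤ s ^ 655 := pow_le_pow_right₀ hs1 (by norm_num)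
  have h4 : 1 / s ^ 90 ≤ 1 / s ^ 13 :=
    one_div_le_one_div_of_le (by positivity) (pow_le_pow_right₀ hs1 (by norm_num))
  have h5 : 1 / s ^ 13 + 1 / s ^ 13 ≤ 1 / s ^ 12 := by
    rw [← add_div, div_le_div_iff₀ (by positivity) (by positivity), one_mul, pow_succ s 12, mul_comm]
    exact mul_le_mul_of_nonneg_left (by linarith) (by positivity)
  linarith

end Crest.Agent.R304
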