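import Crest.Agent.R304.Outer
import Crest.Agent.R304.Sample

/-! Row 304: correctness of the estimate. -/

set_option autoImplicit false

namespace Crest.Agent.R304

open Finset Crest.Agent.Lib.PT Crest.Agent.R309

variable {n ℓ : ℕ} {G : List (List Bool)}

theorem final_encX_injective {N : ℕ} :
    Function.Injective (encX : (Fin N → PM n) → List (List ℕ)) := fun x y h => by
  have := List.ofFn_injective h
  funext i
  exact enc1_injective (congrFun this i)

theorem final_Ex_le {r : ℕ} {F : List Bool → ℝ} (P : List Bool → Prop) {c : ℝ} (hc : 0 ≤ c)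
    (h1 : ∀ u, F u ≤ 1) (h : ∀ u, ¬ P u → F u ≤ c) : Ex r F ≤ Pr r P + c := by
  rw [← Ex_const r c, Pr, ← Ex_add]
  refine Ex_mono fun u _ => ?_
  split_ifs with hu
  · linarith [h1 u]
  · linarith [h u hu]

theorem final_Pr_succ (n m : ℕ) (P : List (List Bool) → Prop) :
    Pr ((n + 1) * m) (fun l => P (chunks (n + 1) m l)) =
      Ex (n * m) fun u => Pr m fun v => P (chunks n m u ++ [v]) :=
  Ex_chunks_succ' n m fun L => @ite ℝ (P L) (Classical.propDecidable _) 1 0

theorem final_s (H : Sz n ℓ G) : (1024 : ℝ) ≤ (2 : ℝ) ^ ℓ := by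
  have := pow_le_pow_right₀ (show (1 : ℝ) ≤ 2 by norm_num) H.ten
  norm_num at this ⊢
  exact this

theorem final_num {s m : ℝ} (hs : 1024 ≤ s) (hm0 : 0 ≤ m) (hm : m ≤ s) :
    (2 + m * m) / (s ^ 300 * (1 / s ^ 13) ^ 2) ≤ 1 / s ^ 12 := by
  have hs0 : 0 < s := by linarith
  have e : s ^ 300 * (1 / s ^ 13) ^ 2 = s ^ 259 * s ^ 3 * s ^ 12 := by
    rw [← pow_add, ← pow_add, div_pow, one_pow, ← pow_mul, mul_one_div, div_eq_iff (by positivity),
      ← pow_add]
  have h1 : (1 : ℝ) ≤ s ^ 259 := one_le_pow₀ (by linarith)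
  have h2 : 2 + m * m ≤ s ^ 3 := by
    have : m * m ≤ s * s := mul_le_mul hm hm hm0 hs0.le
    nlinarith
  rw [e, div_le_div_iff₀ (by positivity) (by positivity), one_mul]
  refine mul_le_mul_of_nonneg_right (h2.trans ?_) (by positivity)
  exact le_mul_of_one_le_left (by positivity) h1

/-- If the flag is raised nothing changes.  Otherwise let `Φ X` be the indicator of `∃ x, X = encX x ∧ ¬ Good x`; by `sample_encX`, `Live.step` and `Live.acc` the
failure event implies `Φ (sample ω) = 1`; `Sz.sample_near`, `EX_cheb_union` (`encX` is injective; `Live.obs_unit`; `n² + 2` observables, `N = s ^ 300`, `t = 1 / s ^ 13`). -/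
theorem Sz.outer_inv (H : Sz n ℓ G) (hn : Even n) {j : ℕ} (hj : j < pJ ℓ) {st : St} (h : Inv n ℓ G j st) :
    Pr (rS ℓ) (fun ω => ¬ Inv n ℓ G (j + 1) (outer ℓ G st ω)) ≤ 2 / ((2 : ℝ) ^ ℓ) ^ 12 := by
  classical
  obtain ⟨sched, prev, cur, z, fl, a⟩ := st
  rcases h with ⟨h1, h2⟩ | ⟨h1, L⟩
  · refine (Pr_mono (Q := fun _ => False) fun ω _ h => h ?_).trans (by rw [Pr_false]; positivity)
    rw [outer, if_pos h1]
    exact Or.inl ⟨h1, h2⟩
  dsimp only at h1 L
  have := nonempty_PM hn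
  have hpos : Pos (gR n G + omR n ℓ cur) := H.gr.pos_add L.okc.pos
  have hl : sched.length ≤ pL ℓ := by
    have h2 : (j + 1) * pu ℓ ≤ pJ ℓ * pu ℓ := Nat.mul_le_mul_right _ hj
    have h3 : 0 < pu ℓ := pw_pos _ _
    have h4 : pJ ℓ * pu ℓ ≤ pL ℓ := by
      rw [pJ, pu, pL, pw_def, pw_def, pw_def, ← pow_add]
      exact Nat.pow_le_pow_right (by norm_num) (by omega)
    have := L.len
    rw [add_mul] at h2
    omega
  have hΦ : Unit01 fun X : List (List ℕ) =>
      tapeInd (∃ x : Fin (pN ℓ) → PM n, X = encX x ∧ ¬ Good n ℓ G prev cur x) :=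
    fun X => ⟨tapeInd_nonneg _, tapeInd_le_one _⟩
  have h2 := (abs_le.1 (H.sample_near hn L.sch hl L.last hΦ)).2
  have h3 := EX_cheb_union (μ := mu (gR n G + omR n ℓ cur)) (N := pN ℓ)
    (fun S => (hpos.mu_pos S).le) hpos.sum_mu (pw_pos _ _) (Y := obs n ℓ G prev cur)
    (fun c S => L.obs_unit H c S) (t := 1 / ((2 : ℝ) ^ ℓ) ^ 13) (by positivity)
  have h4 : EX (mu (gR n G + omR n ℓ cur)) (fun x : Fin (pN ℓ) → PM n =>
      tapeInd (∃ y : Fin (pN ℓ) → PM n, encX x = encX y ∧ ¬ Good n ℓ G prev cur y)) ≤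
      1 / ((2 : ℝ) ^ ℓ) ^ 12 := by
    refine le_trans (le_trans (EX_mono (fun S => (hpos.mu_pos S).le) fun x => ?_) h3) ?_
    · split_ifs with hx
      · exact tapeInd_le_one _
      · refine le_of_eq (if_neg ?_)
        rintro ⟨y, e, hy⟩
        obtain rfl := final_encX_injective e
        exact hy fun c => not_le.1 fun hc => hx ⟨c, hc⟩
    · rw [Fintype.card_sum, Fintype.card_bool, Fintype.card_prod, Fintype.card_fin, pw_cast]
      push_cast
      exact final_num (final_s H) (Nat.cast_nonneg _) (by exact_mod_cast H.le)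
  refine (Pr_mono (Q := fun ω => ∃ x : Fin (pN ℓ) → PM n,
    sample ℓ G sched ω = encX x ∧ ¬ Good n ℓ G prev cur x) fun ω _ h => ?_).trans ?_
  · obtain ⟨x, hx⟩ := sample_encX (ℓ := ℓ) H.len hn sched ω
    refine ⟨x, hx, fun hg => h ?_⟩
    rw [outer, if_neg (by simp [h1]), upd]
    dsimp only
    rw [hx]
    split_ifs with hd
    · exact Or.inr ⟨rfl, L.step H hj hg hd⟩
    · exact Or.inl ⟨rfl, L.acc H hj hg (by simpa using hd)⟩
  · rw [tape_Pr, show (2 : ℝ) / (2 ^ ℓ) ^ 12 = 1 / (2 ^ ℓ) ^ 12 + 1 / (2 ^ ℓ) ^ 12 by ring]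
    linarith

theorem est_nonneg (ℓ : ℕ) (G : List (List Bool)) (ω : List Bool) : 0 ≤ est ℓ G ω := by
  have hr : ∀ k' k X, 0 ≤ rho ℓ G k' k X := fun k' k X =>
    div_nonneg (List.sum_nonneg fun x hx => by
      obtain ⟨S, -, rfl⟩ := List.mem_map.1 hx
      positivity) (Nat.cast_nonneg _)
  have ha : ∀ k X, 0 ≤ alp ℓ G k X := fun k X =>
    div_nonneg (List.sum_nonneg fun x hx => by
      obtain ⟨S, -, rfl⟩ := List.mem_map.1 hx
      split_ifs <;> positivity) (Nat.cast_nonneg _)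
  have key : ∀ (L : List (List Bool)) (st : St), 0 ≤ st.2.2.2.1 ∧ 0 ≤ st.2.2.2.2.2 →
      0 ≤ (L.foldl (outer ℓ G) st).2.2.2.2.2 := by
    intro L
    induction L with
    | nil => exact fun _ h => h.2
    | cons v L ih =>
      refine fun st h => ih _ ?_
      unfold outer upd
      split_ifs
      · exact h
      · exact ⟨div_nonneg h.1 (hr _ _ _), h.2⟩
      · exact ⟨h.1, mul_nonneg (div_nonneg h.1 (hr _ _ _)) (ha _ _)⟩
  exact key _ _ ⟨Nat.cast_nonneg _, le_rfl⟩

/-- `cntG_pos_of_inG`: `alp = 0` always -/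
theorem est_zero (h : G.length = n) (hc : cntG n G = 0) (ω : List Bool) : est ℓ G ω = 0 := by
  have ha : ∀ k X, alp ℓ G k X = 0 := fun k X => by
    rw [alp, List.sum_eq_zero fun x hx => ?_, zero_div]
    obtain ⟨S, -, rfl⟩ := List.mem_map.1 hx
    exact if_neg fun hS => (cntG_pos_of_inG h hS).ne' hc
  have key : ∀ (L : List (List Bool)) (st : St), st.2.2.2.2.2 = 0 →
      (L.foldl (outer ℓ G) st).2.2.2.2.2 = 0 := by
    intro L
    induction L with
    | nil => exact fun _ h => h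
    | cons v L ih =>
      refine fun st h => ih _ ?_
      unfold outer upd
      split_ifs
      · exact h
      · exact h
      · exact mul_eq_zero_of_right _ (ha _ _)
  exact key _ _ rfl

theorem Sz.final_prob (H : Sz n ℓ G) (hn : Even n) (k : ℕ) (hk : k ≤ pJ ℓ) :
    Pr (k * rS ℓ) (fun l => ¬ Inv n ℓ G k ((chunks k (rS ℓ) l).foldl (outer ℓ G) (st0 ℓ n))) ≤
      k * (2 / ((2 : ℝ) ^ ℓ) ^ 12) := by
  induction k with
  | zero =>
    refine (Pr_mono (Q := fun _ => False) fun l _ hl => hl ?_).trans (by simp [Pr_false])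
    rw [List.length_eq_zero_iff.mp (length_chunks 0 _ l)]
    exact Or.inr ⟨rfl, H.live_zero hn⟩
  | succ k ih =>
    refine (final_Pr_succ k (rS ℓ) fun L =>
      ¬ Inv n ℓ G (k + 1) (L.foldl (outer ℓ G) (st0 ℓ n))).trans_le
      ((final_Ex_le (c := 2 / ((2 : ℝ) ^ ℓ) ^ 12)
      (fun l => ¬ Inv n ℓ G k ((chunks k (rS ℓ) l).foldl (outer ℓ G) (st0 ℓ n)))
      (by positivity) (fun u => Pr_le_one _ _) fun u hu => ?_).trans ?_)
    · simp only [List.foldl_append, List.foldl_cons, List.foldl_nil]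
      exact H.outer_inv hn hk (not_not.mp hu)
    · push_cast
      linarith [ih (by omega)]

/-- If `cntG = 0` use `est_zero`.  Otherwise `n` is even (`card_low`); induction on the number of chunks (`Ex_chunks_succ'`, compare `anneal_Pr_succ` and
`anneal_Ex_le` in `R309/Anneal.lean`, to be copied, not imported), `Sz.live_zero`, `Sz.outer_inv`, `Live.not_final`. -/
theorem Sz.est_good (H : Sz n ℓ G) : Pr (rTot ℓ) (fun ω => ¬ Acc n ℓ G (est ℓ G ω)) ≤ 1 / 16 := by
  rcases Nat.eq_zero_or_pos (cntG n G) with hc | hc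
  · refine (Pr_mono (Q := fun _ => False) fun ω _ h => h ?_).trans (by rw [Pr_false]; norm_num)
    rw [est_zero H.len hc, Acc, hc]
    simp
  have hn : Even n := by
    obtain ⟨S, -⟩ := card_pos.1 hc
    exact ⟨_, by rw [← two_mul]; exact (card_low S).symm⟩
  have h1 := H.final_prob hn (pJ ℓ) le_rfl
  have h2 : ((pJ ℓ : ℕ) : ℝ) * (2 / ((2 : ℝ) ^ ℓ) ^ 12) ≤ 1 / 16 := by
    have hs := final_s H
    rw [pJ, pw_cast]
    generalize (2 : ℝ) ^ ℓ = s at hs
    have hs0 : 0 < s := by linarith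
    rw [show s ^ 11 * (2 / s ^ 12) = 2 / s by field_simp, div_le_div_iff₀ hs0 (by norm_num)]
    linarith
  have h3 : ∀ st : St, Inv n ℓ G (pJ ℓ) st → Acc n ℓ G st.2.2.2.2.2 := fun st hI =>
    hI.elim (fun h => h.2) fun h => (h.2.not_final H hc).elim
  refine le_trans ?_ (h1.trans h2)
  rw [rTot]
  refine Pr_mono fun ω _ h hI => h ?_
  rw [est, H.len]
  exact h3 _ hI

theorem med_mem_or (l : List ℚ) : med l ∈ l ∨ med l = 0 := by
  unfold med
  cases h : List.argmin (fun z => z) (l.filter _) with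
  | none => exact Or.inr rfl
  | some z => exact Or.inl (List.mem_filter.1 (List.argmin_mem h)).1

theorem med_between {l : List ℚ} {a b : ℚ}
    (h : l.length < 2 * l.countP fun z => decide (a ≤ z ∧ z ≤ b)) : a ≤ med l ∧ med l ≤ b := by
  obtain ⟨g, hg, hm⟩ := exists_max_image (l.filter fun z => decide (a ≤ z ∧ z ≤ b)).toFinset id
    (by
      obtain ⟨z, hz⟩ := List.countP_pos_iff.1 (Nat.pos_of_mul_pos_left (Nat.zero_lt_of_lt h))
      exact ⟨z, List.mem_toFinset.2 (List.mem_filter.2 hz)⟩)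
  simp only [List.mem_toFinset, List.mem_filter, decide_eq_true_eq, id] at hg hm
  have hc : g ∈ l.filter fun z => decide (l.length < 2 * l.countP fun y => decide (y ≤ z)) :=
    List.mem_filter.2 ⟨hg.1, decide_eq_true (h.trans_le (Nat.mul_le_mul_left _
      (List.countP_mono_left fun y hy e => decide_eq_true (hm y ⟨hy, of_decide_eq_true e⟩))))⟩
  unfold med
  cases e : List.argmin (fun z => z) (l.filter _) with
  | none => simp [List.argmin_eq_none.1 e] at hc
  | some z =>
    refine ⟨not_lt.1 fun hz => ?_, (List.le_of_mem_argmin hc e).trans hg.2.2⟩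
    have h1 := of_decide_eq_true (List.mem_filter.1 (List.argmin_mem e)).2
    have h2 := List.length_eq_countP_add_countP (fun y => decide (y ≤ z)) (l := l)
    have h3 : (l.countP fun z => decide (a ≤ z ∧ z ≤ b)) ≤
        l.countP fun y => decide ¬ decide (y ≤ z) = true :=
      List.countP_mono_left fun y _ e => by
        simpa using hz.trans_le (of_decide_eq_true e).1
    omega

theorem best_nonneg (ℓ : ℕ) (G : List (List Bool)) (t : ℕ) (ω : List Bool) : 0 ≤ best ℓ G t ω := by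
  rcases med_mem_or _ with h | h
  · obtain ⟨u, -, e⟩ := List.mem_map.1 h
    exact (est_nonneg _ _ u).trans_eq e
  · exact h.ge

theorem best_zero (h : G.length = n) (hc : cntG n G = 0) (t : ℕ) (ω : List Bool) : best ℓ G t ω = 0 := by
  rcases med_mem_or _ with h' | h'
  · obtain ⟨u, -, e⟩ := List.mem_map.1 h'
    exact e.symm.trans (est_zero h hc u)
  · exact h'

theorem best_take (ℓ : ℕ) (G : List (List Bool)) (t : ℕ) (ω : List Bool) :
    best ℓ G t (ω.take (t * rTot ℓ)) = best ℓ G t ω := by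
  rw [best, chunks_take le_rfl, best]

/-- `est_good`, `Pr_majority`, `med_between` (as `TSz.best_good` in `R309/Boost.lean`) -/
theorem Sz.best_good (H : Sz n ℓ G) (t : ℕ) :
    Pr (t * rTot ℓ) (fun ω => ¬ Acc n ℓ G (best ℓ G t ω)) ≤ (1 / 2) ^ t := by
  have hg := H.est_good
  unfold Acc at hg ⊢
  refine (Pr_mono fun ω _ h => not_lt.1 fun c => h (med_between ?_)).trans
    (Pr_majority t _ _ hg)
  have := List.length_eq_countP_add_countP (fun u => decide ((1 - 1 / (2 : ℚ) ^ ℓ) * cntG n G ≤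
    est ℓ G u ∧ est ℓ G u ≤ (1 + 1 / (2 : ℚ) ^ ℓ) * cntG n G)) (l := chunks t (rTot ℓ) ω)
  rw [List.length_map, List.countP_map]
  simp only [length_chunks, decide_eq_true_eq, Function.comp_def] at this c ⊢
  refine lt_of_not_ge fun d => c.not_ge (le_trans ?_ (Nat.mul_le_mul_left 2
    (List.countP_mono_left fun u _ e => @decide_eq_true _ (_) (of_decide_eq_true e))))
  omega

end Crest.Agent.R304
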