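import Crest.Agent.R304.Tutte

/-! Row 304: gluing laws along a tight odd cut. -/

set_option autoImplicit false

namespace Crest.Agent.R304

open Finset

variable {V E : Type} [DecidableEq V] [Fintype E] [DecidableEq E]

/-- contraction of `S` to `s₀` -/
def glueCon (S : Finset V) (s₀ : V) (v : V) : V := if v ∈ S then s₀ else v

/-- ends after contraction -/
def glueEnds (ends : E → V × V) (S : Finset V) (s₀ : V) (e : E) : V × V :=
  (glueCon S s₀ (ends e).1, glueCon S s₀ (ends e).2)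

/-- weights after contraction -/
def glueX (ends : E → V × V) (S : Finset V) (x : E → ℝ) (e : E) : ℝ :=
  if (ends e).1 ∈ S ∧ (ends e).2 ∈ S then 0 else x e

/-- the preimage of a vertex set under the contraction -/
def glueUp (S : Finset V) (s₀ : V) (T : Finset V) : Finset V := if s₀ ∈ T then T ∪ S else T

theorem glueCon_mem {U S T : Finset V} {s₀ : V} (hT : T ⊆ insert s₀ (U \ S)) (v : V) :
    glueCon S s₀ v ∈ T ↔ v ∈ glueUp S s₀ T := by
  unfold glueCon glueUp
  by_cases hv : v ∈ S <;> by_cases hs : s₀ ∈ T <;> simp [hv, hs]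
  intro hvT
  have := hT hvT
  simp only [mem_insert, mem_sdiff] at this
  rcases this with rfl | h
  · exact hs hvT
  · exact h.2 hv

omit [DecidableEq E] in
theorem glue_cut {ends : E → V × V} {U S T : Finset V} {s₀ : V} (hT : T ⊆ insert s₀ (U \ S)) :
    cut (glueEnds ends S s₀) T = cut ends (glueUp S s₀ T) := by
  ext e
  simp only [cut, glueEnds, mem_filter, mem_univ, true_and, glueCon_mem hT]

omit [DecidableEq E] in
theorem glue_sum {ends : E → V × V} {U S T : Finset V} {s₀ : V} (hT : T ⊆ insert s₀ (U \ S))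
    (x : E → ℝ) :
    ∑ e ∈ cut (glueEnds ends S s₀) T, glueX ends S x e = ∑ e ∈ cut ends (glueUp S s₀ T), x e := by
  rw [← glue_cut hT]
  refine sum_congr rfl fun e he => ?_
  unfold glueX
  rw [if_neg]
  rintro ⟨a, b⟩
  rw [cut, mem_filter] at he
  simp [glueEnds, glueCon, a, b] at he

theorem glueUp_self {S : Finset V} {s₀ : V} (hs : s₀ ∈ S) : glueUp S s₀ {s₀} = S := by
  simp [glueUp, hs]

theorem glueUp_single {S : Finset V} {s₀ v : V} (hs : s₀ ∈ S) (hv : v ∉ S) :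
    glueUp S s₀ {v} = {v} := by
  have : s₀ ≠ v := fun h => hv (h ▸ hs)
  simp [glueUp, this]

omit [DecidableEq E] in
theorem glue_inQ {ends : E → V × V} {U : Finset V} {x : E → ℝ} (h : InQ ends U x)
    {S : Finset V} (hS : S ∈ Tight ends U x) {s₀ : V} (hs : s₀ ∈ S) :
    InQ (glueEnds ends S s₀) (insert s₀ (U \ S)) (glueX ends S x) := by
  obtain ⟨hSU, hSo, hS1⟩ := hS
  refine ⟨fun e => ?_, fun e he => ?_, fun v hv => ?_, fun T hT hTo => ?_⟩
  · unfold glueX
    split_ifs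
    · exact le_rfl
    · exact h.nonneg e
  · unfold glueX at he
    split_ifs at he with hb
    · exact absurd rfl he
    obtain ⟨a, b, c⟩ := h.supp e he
    simp only [glueEnds, glueCon]
    by_cases h1 : (ends e).1 ∈ S <;> by_cases h2 : (ends e).2 ∈ S
    · exact absurd ⟨h1, h2⟩ hb
    · simp only [h1, h2, if_true, if_false, mem_insert, mem_sdiff, true_or, true_and, b,
        not_false_eq_true, and_self, or_true]
      exact fun hh => h2 (hh ▸ hs)
    · simp only [h1, h2, if_true, if_false, mem_insert, mem_sdiff, true_or, true_and, a,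
        not_false_eq_true, and_self, or_true]
      exact fun hh => h1 (hh ▸ hs)
    · simp only [h1, h2, if_false, mem_insert, mem_sdiff, a, b, not_false_eq_true, and_self,
        or_true, true_and]
      exact c
  · rw [glue_sum (singleton_subset_iff.mpr hv)]
    rcases mem_insert.mp hv with rfl | hv'
    · rw [glueUp_self hs]; exact hS1
    · rw [glueUp_single hs (mem_sdiff.mp hv').2]
      exact h.deg v (mem_sdiff.mp hv').1
  · rw [glue_sum hT]
    have hTU : T ⊆ U := fun v hv => by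
      rcases mem_insert.mp (hT hv) with rfl | hv'
      · exact hSU hs
      · exact (mem_sdiff.mp hv').1
    apply h.odd
    · unfold glueUp
      split_ifs
      · exact union_subset hTU hSU
      · exact hTU
    · unfold glueUp
      split_ifs with h0
      · have hi : T ∩ S = {s₀} := by
          ext v
          simp only [mem_inter, mem_singleton]
          constructor
          · rintro ⟨a, b⟩
            rcases mem_insert.mp (hT a) with rfl | hv'
            · rfl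
            · exact absurd b (mem_sdiff.mp hv').2
          · rintro rfl
            exact ⟨h0, hs⟩
        have hc := card_union_add_card_inter T S
        rw [hi, card_singleton] at hc
        obtain ⟨a, ha⟩ := hTo
        obtain ⟨b, hb⟩ := hSo
        exact ⟨a + b, by omega⟩
      · exact hTo

omit [DecidableEq V] in
theorem glue_le_marg {p : Finset E → ℝ} (hp : ∀ M, 0 ≤ p M) {M : Finset E} {e : E} (he : e ∈ M) :
    p M ≤ marg p e :=
  single_le_sum (f := p) (fun M _ => hp M) (by simpa using he)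

/-- what is used about the law of one contracted side -/
structure GlueSide (ends : E → V × V) (U S : Finset V) (x : E → ℝ) (p : Finset E → ℝ) : Prop where
  nonneg : ∀ M, 0 ≤ p M
  total : ∑ M, p M = 1
  supp : ∀ M, p M ≠ 0 → ∀ e ∈ M, x e ≠ 0 ∧ ¬ ((ends e).1 ∈ S ∧ (ends e).2 ∈ S)
  deg : ∀ M, p M ≠ 0 → ∀ v ∈ U \ S, (M ∩ cut ends {v}).card = 1
  one : ∀ M, p M ≠ 0 → (M ∩ cut ends S).card = 1
  marg_eq : ∀ e, ¬ ((ends e).1 ∈ S ∧ (ends e).2 ∈ S) → marg p e = x e

theorem glue_side {ends : E → V × V} {U : Finset V} {x : E → ℝ} (h : InQ ends U x)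
    (ih : ∀ (ends' : E → V × V) (U' : Finset V) (x' : E → ℝ), U'.card < U.card → InQ ends' U' x' →
      ∃ p, IsLawOn ends' U' p ∧ marg p = x')
    {S : Finset V} (hS : S ∈ Tight ends U x) (h1 : 3 ≤ S.card) :
    ∃ p, GlueSide ends U S x p := by
  obtain ⟨s₀, hs⟩ : S.Nonempty := card_pos.mp (by omega)
  have hc : (insert s₀ (U \ S)).card < U.card := by
    have a := card_insert_le s₀ (U \ S)
    have b := card_sdiff_add_card_eq_card hS.1
    omega
  obtain ⟨p, ⟨hp0, hp1, hp⟩, hm⟩ := ih _ _ _ hc (glue_inQ h hS hs)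
  refine ⟨p, hp0, hp1, fun M hM e he => ?_, fun M hM v hv => ?_, fun M hM => ?_, fun e he => ?_⟩
  · have a := glue_le_marg hp0 he
    have b : 0 < p M := lt_of_le_of_ne (hp0 M) (Ne.symm hM)
    rw [hm] at a
    unfold glueX at a
    split_ifs at a with hb
    · linarith
    · exact ⟨by linarith, hb⟩
  · have := (hp M hM).2 v (mem_insert_of_mem hv)
    rwa [glue_cut (singleton_subset_iff.mpr (mem_insert_of_mem hv)),
      glueUp_single hs (mem_sdiff.mp hv).2] at this
  · have := (hp M hM).2 s₀ (mem_insert_self _ _)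
    rwa [glue_cut (U := U) (singleton_subset_iff.mpr (mem_insert_self _ _)), glueUp_self hs] at this
  · rw [hm]
    unfold glueX
    rw [if_neg he]

omit [DecidableEq V] in
theorem glue_row {C : Finset E} {x : E → ℝ} {p₁ p₂ : Finset E → ℝ} (hx : ∀ e ∈ C, x e ≠ 0)
    (h1 : ∀ M, p₁ M ≠ 0 → (M ∩ C).card = 1) (h2 : ∀ e ∈ C, marg p₂ e = x e) (M₁ : Finset E) :
    ∑ M₂, ∑ e ∈ C, (if e ∈ M₁ ∧ e ∈ M₂ then p₁ M₁ * p₂ M₂ / x e else 0) = p₁ M₁ := by
  by_cases hM : p₁ M₁ = 0
  · simp [hM]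
  rw [sum_comm]
  have : ∀ e ∈ C, ∑ M₂, (if e ∈ M₁ ∧ e ∈ M₂ then p₁ M₁ * p₂ M₂ / x e else 0)
      = if e ∈ M₁ then p₁ M₁ else 0 := by
    intro e he
    by_cases a : e ∈ M₁
    · simp only [a, true_and, if_true]
      rw [← sum_filter, ← sum_div, ← mul_sum]
      have := h2 e he
      unfold marg at this
      rw [this, mul_div_assoc, div_self (hx e he), mul_one]
    · simp [a]
  rw [sum_congr rfl this, ← sum_filter, sum_const, filter_mem_eq_inter, inter_comm, h1 M₁ hM]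
  simp

omit [DecidableEq V] in
theorem glue_coupling {C : Finset E} {x : E → ℝ} {p₁ p₂ : Finset E → ℝ} (hx0 : ∀ e, 0 ≤ x e)
    (hx : ∀ e ∈ C, x e ≠ 0) (n1 : ∀ M, 0 ≤ p₁ M) (n2 : ∀ M, 0 ≤ p₂ M)
    (c1 : ∀ M, p₁ M ≠ 0 → (M ∩ C).card = 1) (c2 : ∀ M, p₂ M ≠ 0 → (M ∩ C).card = 1)
    (m1 : ∀ e ∈ C, marg p₁ e = x e) (m2 : ∀ e ∈ C, marg p₂ e = x e) :
    ∃ w : Finset E → Finset E → ℝ, (∀ M₁ M₂, 0 ≤ w M₁ M₂) ∧ (∀ M₁, ∑ M₂, w M₁ M₂ = p₁ M₁) ∧
      (∀ M₂, ∑ M₁, w M₁ M₂ = p₂ M₂) ∧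
      ∀ M₁ M₂, w M₁ M₂ ≠ 0 → p₁ M₁ ≠ 0 ∧ p₂ M₂ ≠ 0 ∧ M₁ ∩ C = M₂ ∩ C := by
  refine ⟨fun M₁ M₂ => ∑ e ∈ C, (if e ∈ M₁ ∧ e ∈ M₂ then p₁ M₁ * p₂ M₂ / x e else 0),
    fun M₁ M₂ => ?_, glue_row hx c1 m2, fun M₂ => ?_, fun M₁ M₂ hw => ?_⟩
  · refine sum_nonneg fun e _ => ?_
    split_ifs
    · exact div_nonneg (mul_nonneg (n1 _) (n2 _)) (hx0 e)
    · exact le_rfl
  · rw [← glue_row hx c2 m1 M₂]
    refine sum_congr rfl fun M₁ _ => sum_congr rfl fun e _ => ?_
    simp only [and_comm, mul_comm]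
  · obtain ⟨e, he, hne⟩ := exists_ne_zero_of_sum_ne_zero hw
    split_ifs at hne with hb
    · have a1 : p₁ M₁ ≠ 0 := fun h0 => hne (by simp [h0])
      have a2 : p₂ M₂ ≠ 0 := fun h0 => hne (by simp [h0])
      refine ⟨a1, a2, ?_⟩
      obtain ⟨e1, he1⟩ := card_eq_one.mp (c1 M₁ a1)
      obtain ⟨e2, he2⟩ := card_eq_one.mp (c2 M₂ a2)
      have b1 : e ∈ M₁ ∩ C := mem_inter.mpr ⟨hb.1, he⟩
      have b2 : e ∈ M₂ ∩ C := mem_inter.mpr ⟨hb.2, he⟩
      rw [he1, mem_singleton] at b1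
      rw [he2, mem_singleton] at b2
      rw [he1, he2, ← b1, ← b2]
    · exact absurd rfl hne

/-- Gluing along a tight odd cut.  Contract `S` to a vertex `s₀ ∈ S`: `ends' e = (π (ends e).1, π (ends e).2)`
with `π v = if v ∈ S then s₀ else v`, vertex set `insert s₀ (U \ S)`, `x' e = 0` if both ends are in `S`, else
`x e`; this satisfies `InQ` (an odd set `T ∋ s₀` corresponds to `T ∪ S`, which is odd).  The same for
`U \ S` (odd since `|U|` is even: otherwise `InQ.odd` fails for `U`).  Both vertex sets are smaller than `U`,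
so `ih` gives laws `p₁`, `p₂`.  Every matching in the supports contains exactly one edge `e` of `cut S`, and
`marg p₁ e = marg p₂ e = x e` there.  Glue: `p M = ∑ e ∈ cut S, ∑ M₁ ∋ e, ∑ M₂ ∋ e with M₁ ∪ M₂ = M,`
`p₁ M₁ * p₂ M₂ / x e`. -/
theorem InQ.glue {ends : E → V × V} {U : Finset V} {x : E → ℝ} (h : InQ ends U x)
    (ih : ∀ (ends' : E → V × V) (U' : Finset V) (x' : E → ℝ), U'.card < U.card → InQ ends' U' x' →
      ∃ p, IsLawOn ends' U' p ∧ marg p = x')
    {S : Finset V} (hS : S ∈ Tight ends U x) (h1 : 3 ≤ S.card) (h2 : S.card + 3 ≤ U.card) :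
    ∃ p, IsLawOn ends U p ∧ marg p = x := by
  classical
  obtain ⟨hSU, hSo, hS1⟩ := hS
  -- `|U|` is even
  have hU : ¬ Odd U.card := by
    intro ho
    have a := h.odd U subset_rfl ho
    have b : ∑ e ∈ cut ends U, x e = 0 := by
      refine sum_eq_zero fun e he => ?_
      by_contra hx
      obtain ⟨u1, u2, -⟩ := h.supp e hx
      simp [cut, u1, u2] at he
    linarith
  have hcard := card_sdiff_add_card_eq_card hSU
  have hcut : ∀ e, x e ≠ 0 → (e ∈ cut ends (U \ S) ↔ e ∈ cut ends S) := by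
    intro e hx
    obtain ⟨u1, u2, -⟩ := h.supp e hx
    simp only [cut, mem_filter, mem_univ, true_and, mem_sdiff, u1, u2]
    tauto
  set C : Finset E := (cut ends S).filter fun e => x e ≠ 0 with hC
  have hC' : (cut ends (U \ S)).filter (fun e => x e ≠ 0) = C := by
    ext e
    simp only [hC, mem_filter]
    constructor
    · rintro ⟨a, b⟩
      exact ⟨(hcut e b).mp a, b⟩
    · rintro ⟨a, b⟩
      exact ⟨(hcut e b).mpr a, b⟩
  have hS' : U \ S ∈ Tight ends U x := by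
    refine ⟨sdiff_subset, ?_, ?_⟩
    · rw [Nat.not_odd_iff_even] at hU
      obtain ⟨a, ha⟩ := hU
      obtain ⟨b, hb⟩ := hSo
      exact ⟨a - b - 1, by omega⟩
    · rw [← sum_filter_ne_zero, hC', hC, sum_filter_ne_zero, hS1]
  obtain ⟨p₁, g₁⟩ := glue_side h ih ⟨hSU, hSo, hS1⟩ h1
  obtain ⟨p₂, g₂⟩ := glue_side h ih hS' (by omega)
  have c1 : ∀ M, p₁ M ≠ 0 → (M ∩ C).card = 1 := by
    intro M hM
    rw [← g₁.one M hM]
    congr 1
    ext e
    simp only [hC, mem_inter, mem_filter]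
    exact ⟨fun ⟨a, b, _⟩ => ⟨a, b⟩, fun ⟨a, b⟩ => ⟨a, b, (g₁.supp M hM e a).1⟩⟩
  have c2 : ∀ M, p₂ M ≠ 0 → (M ∩ C).card = 1 := by
    intro M hM
    rw [← g₂.one M hM, ← hC']
    congr 1
    ext e
    simp only [mem_inter, mem_filter]
    exact ⟨fun ⟨a, b, _⟩ => ⟨a, b⟩, fun ⟨a, b⟩ => ⟨a, b, (g₂.supp M hM e a).1⟩⟩
  have m1 : ∀ e ∈ C, marg p₁ e = x e := by
    intro e he
    refine g₁.marg_eq e ?_
    rintro ⟨a, b⟩
    simp [hC, cut, a, b] at he
  have m2 : ∀ e ∈ C, marg p₂ e = x e := by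
    intro e he
    rw [← hC'] at he
    refine g₂.marg_eq e ?_
    rintro ⟨a, b⟩
    have := (mem_filter.mp he).1
    simp only [cut, mem_filter, mem_univ, true_and] at this
    exact this (iff_of_true a b)
  obtain ⟨w, w0, w1, w2, w3⟩ := glue_coupling (C := C) h.nonneg
    (fun e he => (mem_filter.mp he).2) g₁.nonneg g₂.nonneg c1 c2 m1 m2
  -- an edge with ends in `U` that is inside neither side is in `C`
  have hinC : ∀ f, x f ≠ 0 → ¬ ((ends f).1 ∈ S ∧ (ends f).2 ∈ S) →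
      ¬ ((ends f).1 ∈ U \ S ∧ (ends f).2 ∈ U \ S) → f ∈ C := by
    intro f hx a b
    obtain ⟨u1, u2, -⟩ := h.supp f hx
    simp only [mem_sdiff, u1, u2, true_and] at b
    simp only [hC, cut, mem_filter, mem_univ, true_and]
    exact ⟨by tauto, hx⟩
  have k1 : ∀ M₁ M₂, w M₁ M₂ ≠ 0 → ∀ f, ¬ ((ends f).1 ∈ S ∧ (ends f).2 ∈ S) →
      (f ∈ M₁ ∪ M₂ ↔ f ∈ M₁) := by
    intro M₁ M₂ hw f hf
    obtain ⟨a1, a2, a3⟩ := w3 M₁ M₂ hw
    refine ⟨fun hm => ?_, fun hm => mem_union_left _ hm⟩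
    rcases mem_union.mp hm with hm | hm
    · exact hm
    · obtain ⟨b1, b2⟩ := g₂.supp M₂ a2 f hm
      have : f ∈ M₂ ∩ C := mem_inter.mpr ⟨hm, hinC f b1 hf b2⟩
      rw [← a3] at this
      exact (mem_inter.mp this).1
  have k2 : ∀ M₁ M₂, w M₁ M₂ ≠ 0 → ∀ f, ¬ ((ends f).1 ∈ U \ S ∧ (ends f).2 ∈ U \ S) →
      (f ∈ M₁ ∪ M₂ ↔ f ∈ M₂) := by
    intro M₁ M₂ hw f hf
    obtain ⟨a1, a2, a3⟩ := w3 M₁ M₂ hw
    refine ⟨fun hm => ?_, fun hm => mem_union_right _ hm⟩
    rcases mem_union.mp hm with hm | hm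
    · obtain ⟨b1, b2⟩ := g₁.supp M₁ a1 f hm
      have : f ∈ M₁ ∩ C := mem_inter.mpr ⟨hm, hinC f b1 b2 hf⟩
      rw [a3] at this
      exact (mem_inter.mp this).1
    · exact hm
  let p : Finset E → ℝ := fun M => ∑ M₁, ∑ M₂, if M₁ ∪ M₂ = M then w M₁ M₂ else 0
  have hsum : ∀ P : Finset E → Prop, ∑ M ∈ univ.filter P, p M
      = ∑ M₁, ∑ M₂, if P (M₁ ∪ M₂) then w M₁ M₂ else 0 := by
    intro P
    simp only [p]
    rw [sum_comm]
    refine sum_congr rfl fun M₁ _ => ?_
    rw [sum_comm]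
    refine sum_congr rfl fun M₂ _ => ?_
    rw [sum_ite_eq]
    simp
  have hmarg : ∀ f, marg p f = ∑ M₁, ∑ M₂, if f ∈ M₁ ∪ M₂ then w M₁ M₂ else 0 := by
    intro f
    have := hsum fun M => f ∈ M
    unfold marg
    convert this
  refine ⟨p, ⟨fun M => ?_, ?_, fun M hM => ?_⟩, ?_⟩
  · refine sum_nonneg fun M₁ _ => sum_nonneg fun M₂ _ => ?_
    split_ifs
    · exact w0 _ _
    · exact le_rfl
  · have := hsum fun _ => True
    simp only [filter_true, if_true, w1, g₁.total] at this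
    exact this
  · obtain ⟨M₁, -, hM1⟩ := exists_ne_zero_of_sum_ne_zero hM
    obtain ⟨M₂, -, hM2⟩ := exists_ne_zero_of_sum_ne_zero hM1
    split_ifs at hM2 with hb
    swap
    · exact absurd rfl hM2
    subst hb
    obtain ⟨a1, a2, a3⟩ := w3 M₁ M₂ hM2
    refine ⟨fun e he => ?_, fun v hv => ?_⟩
    · rcases mem_union.mp he with he | he
      · exact h.supp e (g₁.supp M₁ a1 e he).1
      · exact h.supp e (g₂.supp M₂ a2 e he).1
    · by_cases hvS : v ∈ S
      · rw [← g₂.deg M₂ a2 v (by simp [hv, hvS])]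
        congr 1
        ext f
        simp only [mem_inter]
        refine and_congr_left fun hf => k2 M₁ M₂ hM2 f ?_
        rintro ⟨b1, b2⟩
        have c1 : (ends f).1 ≠ v := fun hh => (mem_sdiff.mp b1).2 (hh ▸ hvS)
        have c2 : (ends f).2 ≠ v := fun hh => (mem_sdiff.mp b2).2 (hh ▸ hvS)
        simp [cut, c1, c2] at hf
      · rw [← g₁.deg M₁ a1 v (by simp [hv, hvS])]
        congr 1
        ext f
        simp only [mem_inter]
        refine and_congr_left fun hf => k1 M₁ M₂ hM2 f ?_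
        rintro ⟨b1, b2⟩
        have c1 : (ends f).1 ≠ v := fun hh => hvS (hh ▸ b1)
        have c2 : (ends f).2 ≠ v := fun hh => hvS (hh ▸ b2)
        simp [cut, c1, c2] at hf
  · funext f
    rw [hmarg]
    by_cases hf : (ends f).1 ∈ S ∧ (ends f).2 ∈ S
    · have hf' : ¬ ((ends f).1 ∈ U \ S ∧ (ends f).2 ∈ U \ S) :=
        fun hh => (mem_sdiff.mp hh.1).2 hf.1
      rw [← g₂.marg_eq f hf', sum_comm]
      unfold marg
      rw [sum_filter]
      refine sum_congr rfl fun M₂ _ => ?_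
      have : ∀ M₁, (if f ∈ M₁ ∪ M₂ then w M₁ M₂ else 0) = if f ∈ M₂ then w M₁ M₂ else 0 := by
        intro M₁
        by_cases hw : w M₁ M₂ = 0
        · simp [hw]
        · simp only [k2 M₁ M₂ hw f hf']
      simp only [this]
      split_ifs
      · exact w2 M₂
      · simp
    · rw [← g₁.marg_eq f hf]
      unfold marg
      rw [sum_filter]
      refine sum_congr rfl fun M₁ _ => ?_
      have : ∀ M₂, (if f ∈ M₁ ∪ M₂ then w M₁ M₂ else 0) = if f ∈ M₁ then w M₁ M₂ else 0 := by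
        intro M₂
        by_cases hw : w M₁ M₂ = 0
        · simp [hw]
        · simp only [k1 M₁ M₂ hw f hf]
      simp only [this]
      split_ifs
      · exact w1 M₁
      · simp

end Crest.Agent.R304
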