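import Crest.Agent.R304.Stage

/-! Row 304: the invariant of the outer loop (definitions). -/

set_option autoImplicit false

namespace Crest.Agent.R304

open Finset Crest.Agent.Lib.PT Crest.Agent.R309

variable {n : ℕ}

/-- the invariant after `j` outer steps, before the flag is raised -/
structure Live (n ℓ : ℕ) (G : List (List Bool)) (j : ℕ) (sched : List KM) (prev cur : KM) (z : ℚ) :
    Prop where
  sch : Sched n ℓ G sched
  len : sched.length ≤ 1 + j * pu ℓ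
  last : sched.getLast? = some cur
  okp : KOk n ℓ prev
  okc : KOk n ℓ cur
  bd : ∀ u v : Fin n, pK ℓ ≤ ent2 cur u v + j * pu ℓ ∧ ent2 cur u v ≤ pK ℓ + j * pu ℓ
  near : ∀ u v : Fin n, ent2 prev u v ≤ ent2 cur u v + pu ℓ ∧ ent2 cur u v ≤ ent2 prev u v + pu ℓ
  vml : ∀ u v : Fin n, u ≠ v → 1 / ((2 : ℝ) ^ ℓ) ^ 3 / 4 ≤ vm (gR n G) (omR n ℓ cur) u v
  phi : Phi (gR n G) (omR n ℓ cur) (1 / ((2 : ℝ) ^ ℓ) ^ 3) ≤
    ((2 : ℝ) ^ ℓ) ^ 3 - j / (4 * ((2 : ℝ) ^ ℓ) ^ 7)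
  lo : (1 - 8 / ((2 : ℝ) ^ ℓ) ^ 13) ^ (j + 1) * ((pD ℓ : ℝ) ^ (n / 2) * Zf (gR n G + omR n ℓ prev)) ≤ z
  hi : (z : ℝ) ≤ (1 + 8 / ((2 : ℝ) ^ ℓ) ^ 13) ^ (j + 1) * ((pD ℓ : ℝ) ^ (n / 2) * Zf (gR n G + omR n ℓ prev))

/-- an accurate answer -/
def Acc (n ℓ : ℕ) (G : List (List Bool)) (a : ℚ) : Prop :=
  (1 - 1 / (2 : ℚ) ^ ℓ) * cntG n G ≤ a ∧ a ≤ (1 + 1 / (2 : ℚ) ^ ℓ) * cntG n G

/-- the invariant after `j` outer steps -/
def Inv (n ℓ : ℕ) (G : List (List Bool)) (j : ℕ) (st : St) : Prop :=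
  (st.2.2.2.2.1 = true ∧ Acc n ℓ G st.2.2.2.2.2) ∨
    (st.2.2.2.2.1 = false ∧ Live n ℓ G j st.1 st.2.1 st.2.2.1 st.2.2.2.1)

/-- The observables estimated in an outer step: half the ratio of the weights, the probability that all edges are real,
the probabilities of the virtual edges. -/
noncomputable def obs (n ℓ : ℕ) (G : List (List Bool)) (prev cur : KM) :
    Bool ⊕ Fin n × Fin n → PM n → ℝ
  | .inl true, S => wt (gR n G + omR n ℓ prev) S / wt (gR n G + omR n ℓ cur) S / 2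
  | .inl false, S => wt (gR n G) S / wt (gR n G + omR n ℓ cur) S
  | .inr q, S => if S q.1 = q.2 then
      omR n ℓ cur q.1 q.2 / (gR n G q.1 q.2 + omR n ℓ cur q.1 q.2) else 0

theorem obs_true (ℓ : ℕ) (G : List (List Bool)) (prev cur : KM) (S : PM n) :
    obs n ℓ G prev cur (.inl true) S =
      wt (gR n G + omR n ℓ prev) S / wt (gR n G + omR n ℓ cur) S / 2 := obs.eq_1 ..
theorem obs_false (ℓ : ℕ) (G : List (List Bool)) (prev cur : KM) (S : PM n) :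
    obs n ℓ G prev cur (.inl false) S = wt (gR n G) S / wt (gR n G + omR n ℓ cur) S := obs.eq_2 ..
theorem obs_inr (ℓ : ℕ) (G : List (List Bool)) (prev cur : KM) (q : Fin n × Fin n) (S : PM n) :
    obs n ℓ G prev cur (.inr q) S = if S q.1 = q.2 then
      omR n ℓ cur q.1 q.2 / (gR n G q.1 q.2 + omR n ℓ cur q.1 q.2) else 0 := obs.eq_3 ..

/-- all empirical means are accurate -/
def Good (n ℓ : ℕ) (G : List (List Bool)) (prev cur : KM) (x : Fin (pN ℓ) → PM n) : Prop :=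
  ∀ c, |(∑ i, obs n ℓ G prev cur c (x i)) / (pN ℓ : ℝ) -
    ∑ S, mu (gR n G + omR n ℓ cur) S * obs n ℓ G prev cur c S| < 1 / ((2 : ℝ) ^ ℓ) ^ 13

end Crest.Agent.R304
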