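import Crest.Agent.R304.PAbs2

/-! Row 304: the particle system on `Fin N → Ω`. -/

set_option autoImplicit false

namespace Crest.Agent.R304

open Finset

variable {Ω : Type} [Fintype Ω]

/-- inner product for the product law on pairs -/
def ip2 (μ : Ω → ℝ) (φ ψ : Ω × Ω → ℝ) : ℝ := ∑ x : Ω × Ω, μ x.1 * μ x.2 * (φ x * ψ x)

/-- variance -/
def var (μ f : Ω → ℝ) : ℝ := ∑ a, μ a * (f a - ∑ b, μ b * f b) ^ 2

/-- a collision operator with a spectral gap on additive observables -/
structure PairOp (μ : Ω → ℝ) (Q : (Ω × Ω → ℝ) →ₗ[ℝ] (Ω × Ω → ℝ)) (C : ℝ) : Prop where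
  pos : ∀ a, 0 < μ a
  sum : ∑ a, μ a = 1
  const : Q (fun _ => 1) = fun _ => 1
  sym : ∀ φ ψ, ip2 μ (Q φ) ψ = ip2 μ φ (Q ψ)
  firm : ∀ φ, ip2 μ (Q φ) (Q φ) ≤ ip2 μ φ (Q φ)
  gap : ∀ f g : Ω → ℝ, var μ f + var μ g ≤
    C * (ip2 μ (fun x => f x.1 + g x.2) (fun x => f x.1 + g x.2) -
      ip2 μ (fun x => f x.1 + g x.2) (Q fun x => f x.1 + g x.2))

/-- one step of the particle system -/
noncomputable def Pop (N : ℕ) (Q : (Ω × Ω → ℝ) →ₗ[ℝ] (Ω × Ω → ℝ)) (g : (Fin N → Ω) → ℝ)
    (x : Fin N → Ω) : ℝ :=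
  (∑ i, ∑ j, if i = j then g x else
    Q (fun y => g (Function.update (Function.update x i y.1) j y.2)) (x i, x j)) / (N : ℝ) ^ 2

/-- expectation for the product law -/
def EX {N : ℕ} (μ : Ω → ℝ) (φ : (Fin N → Ω) → ℝ) : ℝ := ∑ x : Fin N → Ω, (∏ i, μ (x i)) * φ x

section aux

open Function
open scoped RealInnerProductSpace

variable {N : ℕ} {μ : Ω → ℝ}

theorem pconc_EX_one (h1 : ∑ a, μ a = 1) : EX μ (fun _ : Fin N → Ω => (1 : ℝ)) = 1 := by
  classical
  unfold EX
  simp only [mul_one]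
  have := Finset.prod_univ_sum (fun _ : Fin N => (univ : Finset Ω)) (fun _ a => μ a)
  rw [Fintype.piFinset_univ] at this
  rw [← this]
  simp [h1]

theorem pconc_EX_mono (h0 : ∀ a, 0 < μ a) {φ ψ : (Fin N → Ω) → ℝ} (h : ∀ x, φ x ≤ ψ x) :
    EX μ φ ≤ EX μ ψ := by
  unfold EX
  exact Finset.sum_le_sum fun x _ =>
    mul_le_mul_of_nonneg_left (h x) (Finset.prod_nonneg fun i _ => (h0 _).le)

theorem pconc_EX_const (h1 : ∑ a, μ a = 1) (c : ℝ) : EX μ (fun _ : Fin N → Ω => c) = c := by
  have := pconc_EX_one (N := N) h1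
  unfold EX at *
  simp only [mul_one] at this
  rw [← Finset.sum_mul, this, one_mul]

theorem pconc_EX_add (φ ψ : (Fin N → Ω) → ℝ) :
    EX μ (fun x => φ x + ψ x) = EX μ φ + EX μ ψ := by
  unfold EX
  simp only [mul_add, Finset.sum_add_distrib]

theorem pconc_EX_sub (φ ψ : (Fin N → Ω) → ℝ) :
    EX μ (fun x => φ x - ψ x) = EX μ φ - EX μ ψ := by
  unfold EX
  simp only [mul_sub, Finset.sum_sub_distrib]

theorem pconc_EX_mul (c : ℝ) (φ : (Fin N → Ω) → ℝ) :
    EX μ (fun x => c * φ x) = c * EX μ φ := by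
  unfold EX
  rw [Finset.mul_sum]
  exact Finset.sum_congr rfl fun x _ => by ring

omit [Fintype Ω] in
theorem pconc_w_update (x : Fin N → Ω) (i : Fin N) (a : Ω) :
    (∏ k, μ (update x i a k)) * μ (x i) = (∏ k, μ (x k)) * μ a := by
  rw [← Finset.mul_prod_erase univ (fun k => μ (update x i a k)) (mem_univ i),
    ← Finset.mul_prod_erase univ (fun k => μ (x k)) (mem_univ i)]
  have : ∏ k ∈ univ.erase i, μ (update x i a k) = ∏ k ∈ univ.erase i, μ (x k) :=
    Finset.prod_congr rfl fun k hk => by rw [update_of_ne (Finset.ne_of_mem_erase hk)]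
  rw [this, update_self]
  ring

/-- resampling one coordinate preserves the product law -/
theorem pconc_EX_update (h1 : ∑ a, μ a = 1) (i : Fin N) (φ : (Fin N → Ω) → ℝ) :
    EX μ (fun x => ∑ a, μ a * φ (update x i a)) = EX μ φ := by
  let σ : (Fin N → Ω) × Ω ≃ (Fin N → Ω) × Ω :=
    { toFun := fun p => (update p.1 i p.2, p.1 i)
      invFun := fun p => (update p.1 i p.2, p.1 i)
      left_inv := fun p => by simp
      right_inv := fun p => by simp }
  have e1 : EX μ (fun x => ∑ a, μ a * φ (update x i a)) =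
      ∑ p : (Fin N → Ω) × Ω, (∏ k, μ ((σ p).1 k)) * μ (σ p).2 * φ (σ p).1 := by
    unfold EX
    rw [Fintype.sum_prod_type]
    refine Finset.sum_congr rfl fun x _ => ?_
    rw [Finset.mul_sum]
    refine Finset.sum_congr rfl fun a _ => ?_
    show _ = (∏ k, μ (update x i a k)) * μ (x i) * φ (update x i a)
    rw [pconc_w_update]
    ring
  rw [e1, σ.sum_comp (fun p => (∏ k, μ (p.1 k)) * μ p.2 * φ p.1), Fintype.sum_prod_type]
  unfold EX
  refine Finset.sum_congr rfl fun x _ => ?_
  have : ∀ a, (∏ k, μ (x k)) * μ a * φ x = μ a * ((∏ k, μ (x k)) * φ x) := fun a => by ring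
  simp only [this]
  rw [← Finset.sum_mul, h1, one_mul]

/-- the fibre of a function over the coordinates `i`, `j` -/
def pconcFib (i j : Fin N) (x : Fin N → Ω) (g : (Fin N → Ω) → ℝ) : Ω × Ω → ℝ :=
  fun y => g (update (update x i y.1) j y.2)

theorem pconc_EX_fib (h1 : ∑ a, μ a = 1) (i j : Fin N) (g h : (Fin N → Ω) → ℝ) :
    EX μ (fun x => g x * h x) = EX μ (fun x => ip2 μ (pconcFib i j x g) (pconcFib i j x h)) := by
  rw [← pconc_EX_update h1 j, ← pconc_EX_update h1 i]
  congr 1
  funext x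
  unfold ip2 pconcFib
  rw [Fintype.sum_prod_type]
  refine Finset.sum_congr rfl fun a _ => ?_
  rw [Finset.mul_sum]
  refine Finset.sum_congr rfl fun b _ => ?_
  ring

omit [Fintype Ω] in
theorem pconc_fib_update {i j : Fin N} (hij : i ≠ j) (x : Fin N → Ω) (a b : Ω) (g : (Fin N → Ω) → ℝ) :
    pconcFib i j (update (update x i a) j b) g = pconcFib i j x g := by
  funext y
  unfold pconcFib
  congr 1
  funext k
  by_cases hk : k = j
  · subst hk; simp
  · by_cases hk' : k = i
    · subst hk'; simp [update_of_ne hk]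
    · simp [update_of_ne hk, update_of_ne hk']

/-- functions on the configuration space, with the inner product of the product law -/
def PW (μ : Ω → ℝ) (_h : ∀ a, 0 < μ a) (N : ℕ) : Type := (Fin N → Ω) → ℝ

variable {hμ : ∀ a, 0 < μ a}

noncomputable instance : AddCommGroup (PW μ hμ N) := inferInstanceAs (AddCommGroup ((Fin N → Ω) → ℝ))

noncomputable instance : Module ℝ (PW μ hμ N) := inferInstanceAs (Module ℝ ((Fin N → Ω) → ℝ))

/-- the inner product -/
@[reducible] noncomputable def pconcCore (μ : Ω → ℝ) (hμ : ∀ a, 0 < μ a) (N : ℕ) :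
    InnerProductSpace.Core ℝ (PW μ hμ N) where
  inner g h := EX μ (fun x => g x * h x)
  conj_inner_symm g h := by
    simp only [conj_trivial]
    congr 1
    funext x
    ring
  re_inner_nonneg g := by
    simp only [RCLike.re_to_real]
    unfold EX
    exact Finset.sum_nonneg fun x _ =>
      mul_nonneg (Finset.prod_nonneg fun i _ => (hμ _).le) (mul_self_nonneg _)
  add_left f g h := by
    rw [← pconc_EX_add]
    congr 1
    funext x
    show (f x + g x) * h x = _
    ring
  smul_left f g r := by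
    simp only [conj_trivial]
    rw [← pconc_EX_mul]
    congr 1
    funext x
    show (r * f x) * g x = _
    ring
  definite g hg := by
    funext x
    have hg' : EX μ (fun x => g x * g x) = 0 := hg
    unfold EX at hg'
    rw [Finset.sum_eq_zero_iff_of_nonneg fun x _ =>
      mul_nonneg (Finset.prod_nonneg fun i _ => (hμ _).le) (mul_self_nonneg _)] at hg'
    have := hg' x (mem_univ x)
    have hp : 0 < ∏ i, μ (x i) := Finset.prod_pos fun i _ => hμ _
    have h2 : g x * g x = 0 := by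
      rcases mul_eq_zero.1 this with h | h
      · exact absurd h hp.ne'
      · exact h
    exact mul_self_eq_zero.1 h2

noncomputable instance : NormedAddCommGroup (PW μ hμ N) :=
  @InnerProductSpace.Core.toNormedAddCommGroup ℝ (PW μ hμ N) _ _ _ (pconcCore μ hμ N)

noncomputable instance : InnerProductSpace ℝ (PW μ hμ N) :=
  InnerProductSpace.ofCore (pconcCore μ hμ N).toCore

theorem pconc_inner (g h : PW μ hμ N) : ⟪g, h⟫ = EX μ (fun x => g x * h x) := rfl

theorem pconc_norm_sq (g : PW μ hμ N) : ‖g‖ ^ 2 = EX μ (fun x => g x * g x) := by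
  rw [← real_inner_self_eq_norm_sq]; rfl

/-- resampling of the coordinate `i` -/
noncomputable def pconcE (μ : Ω → ℝ) (hμ : ∀ a, 0 < μ a) (N : ℕ) (i : Fin N) :
    PW μ hμ N →ₗ[ℝ] PW μ hμ N where
  toFun g := fun x => ∑ a, μ a * g (update x i a)
  map_add' g h := by
    funext x
    show ∑ a, μ a * (g (update x i a) + h (update x i a)) =
      ∑ a, μ a * g (update x i a) + ∑ a, μ a * h (update x i a)
    simp only [mul_add, Finset.sum_add_distrib]
  map_smul' r g := by
    funext x
    show ∑ a, μ a * (r * g (update x i a)) = r * ∑ a, μ a * g (update x i a)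
    rw [Finset.mul_sum]
    exact Finset.sum_congr rfl fun a _ => by ring

/-- collision of the coordinates `i`, `j` -/
noncomputable def pconcQ (μ : Ω → ℝ) (hμ : ∀ a, 0 < μ a) (N : ℕ) (Q : (Ω × Ω → ℝ) →ₗ[ℝ] (Ω × Ω → ℝ))
    (i j : Fin N) : PW μ hμ N →ₗ[ℝ] PW μ hμ N where
  toFun g := fun x => Q (pconcFib i j x g) (x i, x j)
  map_add' g h := by
    funext x
    show Q (pconcFib i j x g + pconcFib i j x h) (x i, x j) =
      Q (pconcFib i j x g) (x i, x j) + Q (pconcFib i j x h) (x i, x j)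
    rw [map_add]; rfl
  map_smul' r g := by
    funext x
    show Q (r • pconcFib i j x g) (x i, x j) = r * Q (pconcFib i j x g) (x i, x j)
    rw [map_smul]; rfl

theorem pconcE_apply (i : Fin N) (g : PW μ hμ N) (x : Fin N → Ω) :
    pconcE μ hμ N i g x = ∑ a, μ a * g (update x i a) := rfl

omit [Fintype Ω] in
theorem pconcQ_apply (Q : (Ω × Ω → ℝ) →ₗ[ℝ] (Ω × Ω → ℝ)) (i j : Fin N) (g : PW μ hμ N) (x : Fin N → Ω) :
    pconcQ μ hμ N Q i j g x = Q (pconcFib i j x g) (x i, x j) := rfl

theorem pconcE_update (i : Fin N) (g : PW μ hμ N) (x : Fin N → Ω) (b : Ω) :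
    pconcE μ hμ N i g (update x i b) = pconcE μ hμ N i g x := by
  simp only [pconcE_apply, update_idem]

theorem pconc_fix_update {i : Fin N} {g : PW μ hμ N} (h : pconcE μ hμ N i g = g) (x : Fin N → Ω) (b : Ω) :
    g (update x i b) = g x := by
  rw [← h, pconcE_update]

theorem pconcE_of_update (h1 : ∑ a, μ a = 1) {i : Fin N} {g : PW μ hμ N}
    (h : ∀ x b, g (update x i b) = g x) : pconcE μ hμ N i g = g := by
  funext x
  rw [pconcE_apply]
  simp only [h]
  rw [← Finset.sum_mul, h1, one_mul]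

theorem pconcE_comm (i j : Fin N) (g : PW μ hμ N) :
    pconcE μ hμ N i (pconcE μ hμ N j g) = pconcE μ hμ N j (pconcE μ hμ N i g) := by
  by_cases hij : i = j
  · subst hij; rfl
  funext x
  simp only [pconcE_apply, Finset.mul_sum]
  rw [Finset.sum_comm]
  refine Finset.sum_congr rfl fun a _ => Finset.sum_congr rfl fun b _ => ?_
  rw [update_comm hij]
  ring

theorem pconc_fib_Q (Q : (Ω × Ω → ℝ) →ₗ[ℝ] (Ω × Ω → ℝ)) {i j : Fin N} (hij : i ≠ j) (x : Fin N → Ω)
    (g : PW μ hμ N) : pconcFib i j x (pconcQ μ hμ N Q i j g) = Q (pconcFib i j x g) := by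
  funext y
  show pconcQ μ hμ N Q i j g (update (update x i y.1) j y.2) = _
  rw [pconcQ_apply, pconc_fib_update hij]
  simp [update_of_ne hij]

theorem pconc_var (h1 : ∑ a, μ a = 1) {f : Ω → ℝ} (hf : ∑ a, μ a * f a = 0) :
    var μ f = ip2 μ (fun y => f y.1) (fun y => f y.1) ∧ var μ f = ip2 μ (fun y => f y.2) (fun y => f y.2) := by
  unfold var ip2
  rw [hf]
  constructor
  · rw [Fintype.sum_prod_type]
    refine Finset.sum_congr rfl fun a _ => ?_
    have : ∀ b, μ a * μ b * (f a * f a) = μ b * (μ a * (f a - 0) ^ 2) := fun b => by ring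
    simp only [this]
    rw [← Finset.sum_mul, h1, one_mul]
  · rw [Fintype.sum_prod_type_right]
    refine Finset.sum_congr rfl fun a _ => ?_
    have : ∀ b, μ b * μ a * (f a * f a) = μ b * (μ a * (f a - 0) ^ 2) := fun b => by ring
    simp only [this]
    rw [← Finset.sum_mul, h1, one_mul]

theorem pconc_sys {Q : (Ω × Ω → ℝ) →ₗ[ℝ] (Ω × Ω → ℝ)} {C : ℝ} (H : PairOp μ Q C) (N : ℕ) :
    Sys (pconcE μ H.pos N) (pconcQ μ H.pos N Q) C where
  idem i g := pconcE_of_update H.sum fun x b => pconcE_update i g x b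
  symE i g h := by
    rw [pconc_inner, pconc_inner, ← pconc_EX_update H.sum i, ← pconc_EX_update H.sum i
      (fun x => g x * pconcE μ H.pos N i h x)]
    congr 1
    funext x
    simp only [pconcE_update]
    rw [pconcE_apply, pconcE_apply]
    have e1 : ∀ (c : ℝ) a, μ a * (c * h (update x i a)) = c * (μ a * h (update x i a)) := fun c a => by ring
    have e2 : ∀ (c : ℝ) a, μ a * (g (update x i a) * c) = (μ a * g (update x i a)) * c := fun c a => by ring
    simp only [e1, e2]
    rw [← Finset.mul_sum, ← Finset.sum_mul]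
  comm := pconcE_comm
  symQ i j hij g h := by
    rw [pconc_inner, pconc_inner, pconc_EX_fib H.sum i j, pconc_EX_fib H.sum i j g]
    simp only [pconc_fib_Q Q hij, H.sym]
  firm i j hij g := by
    rw [pconc_norm_sq, pconc_inner, pconc_EX_fib H.sum i j, pconc_EX_fib H.sum i j g]
    simp only [pconc_fib_Q Q hij]
    exact pconc_EX_mono H.pos fun x => H.firm _
  commQ i j k hij hki hkj g := by
    funext x
    rw [pconcQ_apply, pconcE_apply]
    have e1 : pconcFib i j x (pconcE μ H.pos N k g) = ∑ a, μ a • pconcFib i j (update x k a) g := by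
      funext y
      rw [Finset.sum_apply]
      show ∑ a, μ a * g (update (update (update x i y.1) j y.2) k a) =
        ∑ a, μ a * g (update (update (update x k a) i y.1) j y.2)
      refine Finset.sum_congr rfl fun a _ => ?_
      rw [update_comm hki, update_comm hkj]
    rw [e1, map_sum, Finset.sum_apply]
    refine Finset.sum_congr rfl fun a _ => ?_
    rw [map_smul, pconcQ_apply, update_of_ne hki.symm, update_of_ne hkj.symm]
    rfl
  fix i j hij g := by
    funext x
    rw [pconcQ_apply]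
    have e1 : pconcFib i j x (pconcE μ H.pos N i (pconcE μ H.pos N j g)) =
        pconcE μ H.pos N i (pconcE μ H.pos N j g) x • fun _ => (1 : ℝ) := by
      funext y
      show pconcE μ H.pos N i (pconcE μ H.pos N j g) (update (update x i y.1) j y.2) =
        pconcE μ H.pos N i (pconcE μ H.pos N j g) x * 1
      rw [pconcE_comm, pconcE_update, pconcE_comm, pconcE_update, mul_one]
    rw [e1, map_smul, H.const]
    show _ * (1 : ℝ) = _
    rw [mul_one]
  gap i j hij a b ha ha' hb hb' := by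
    rw [pconc_norm_sq, pconc_norm_sq, pconc_norm_sq, pconc_inner, pconc_EX_fib H.sum i j,
      pconc_EX_fib H.sum i j b, pconc_EX_fib H.sum i j (a + b), pconc_EX_fib H.sum i j (a + b),
      ← pconc_EX_add, ← pconc_EX_sub, ← pconc_EX_mul]
    refine pconc_EX_mono H.pos fun x => ?_
    have ea : pconcFib i j x a = fun y => a (update x i y.1) := by
      funext y
      exact pconc_fix_update ha _ _
    have eb : pconcFib i j x b = fun y => b (update x j y.2) := by
      funext y
      show b (update (update x i y.1) j y.2) = _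
      rw [update_comm hij]
      exact pconc_fix_update hb _ _
    have eab : pconcFib i j x (a + b) = fun y => a (update x i y.1) + b (update x j y.2) := by
      funext y
      show pconcFib i j x a y + pconcFib i j x b y = _
      rw [ea, eb]
    have za : ∑ s, μ s * a (update x i s) = 0 := congrFun ha' x
    have zb : ∑ s, μ s * b (update x j s) = 0 := congrFun hb' x
    rw [pconc_fib_Q Q hij, ea, eb, eab, ← (pconc_var H.sum za).1, ← (pconc_var H.sum zb).2]
    exact H.gap (fun s => a (update x i s)) (fun s => b (update x j s))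

/-- evaluation -/
noncomputable def pconcEv (μ : Ω → ℝ) (hμ : ∀ a, 0 < μ a) (N : ℕ) (x : Fin N → Ω) : PW μ hμ N →ₗ[ℝ] ℝ where
  toFun g := g x
  map_add' _ _ := rfl
  map_smul' _ _ := rfl

theorem pconc_Pav (Q : (Ω × Ω → ℝ) →ₗ[ℝ] (Ω × Ω → ℝ)) (g : PW μ hμ N) :
    Pav (pconcQ μ hμ N Q) g = Pop N Q g := by
  funext x
  show pconcEv μ hμ N x (Pav (pconcQ μ hμ N Q) g) = _
  unfold Pav Pop
  rw [LinearMap.smul_apply, map_smul, LinearMap.sum_apply, map_sum, Fintype.card_fin, smul_eq_mul,
    one_div, inv_mul_eq_div]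
  congr 1
  refine Finset.sum_congr rfl fun i _ => ?_
  rw [LinearMap.sum_apply, map_sum]
  refine Finset.sum_congr rfl fun j _ => ?_
  split_ifs
  · rfl
  · rfl

theorem pconc_const_of_fix {c : PW μ hμ N} (hc : ∀ i, pconcE μ hμ N i c = c) (x y : Fin N → Ω) :
    c x = c y := by
  have : ∀ s : Finset (Fin N), c (s.piecewise y x) = c x := by
    intro s
    induction s using Finset.induction_on with
    | empty => simp
    | insert j s _ ih => rw [Finset.piecewise_insert, pconc_fix_update (hc j), ih]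
  rw [← this univ, Finset.piecewise_univ]

theorem pconc_prod_bound {κ : Type} [DecidableEq κ] {z : κ → ℝ} {δ : ℝ} (hδ : 0 ≤ δ) (hz : ∀ k, |z k| ≤ δ)
    (s : Finset κ) :
    |∏ k ∈ s, (1 + z k) - 1 - ∑ k ∈ s, z k| ≤ (1 + δ) ^ s.card - 1 - s.card * δ := by
  induction s using Finset.induction_on with
  | empty => simp
  | insert j s hj ih =>
    rw [Finset.prod_insert hj, Finset.sum_insert hj, Finset.card_insert_of_notMem hj]
    have e : (1 + z j) * ∏ k ∈ s, (1 + z k) - 1 - (z j + ∑ k ∈ s, z k) =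
        (∏ k ∈ s, (1 + z k) - 1 - ∑ k ∈ s, z k) * (1 + z j) + (∑ k ∈ s, z k) * z j := by ring
    have h1 : |1 + z j| ≤ 1 + δ := (abs_add_le _ _).trans (by rw [abs_one]; linarith [hz j])
    have h2 : |∑ k ∈ s, z k| ≤ s.card * δ := by
      refine (Finset.abs_sum_le_sum_abs _ _).trans ?_
      have := Finset.sum_le_card_nsmul s (fun k => |z k|) δ fun k _ => hz k
      simpa using this
    rw [e]
    refine (abs_add_le _ _).trans ?_
    rw [abs_mul, abs_mul]
    have h3 : |∏ k ∈ s, (1 + z k) - 1 - ∑ k ∈ s, z k| * |1 + z j| ≤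
        ((1 + δ) ^ s.card - 1 - s.card * δ) * (1 + δ) :=
      mul_le_mul ih h1 (abs_nonneg _) ((abs_nonneg _).trans ih)
    have h4 : |∑ k ∈ s, z k| * |z j| ≤ (s.card * δ) * δ :=
      mul_le_mul h2 (hz j) (abs_nonneg _) (by positivity)
    push_cast
    rw [pow_succ]
    nlinarith

theorem pconc_pow_bound {δ : ℝ} (hδ : 0 ≤ δ) {n : ℕ} (h : n * δ ≤ 1) :
    (1 + δ) ^ n - 1 - n * δ ≤ (n * δ) ^ 2 := by
  have h1 : (1 + δ) ^ n ≤ Real.exp (n * δ) := by
    rw [Real.exp_nat_mul]
    exact pow_le_pow_left₀ (by linarith) (by linarith [Real.add_one_le_exp δ]) n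
  have h2 := Real.abs_exp_sub_one_sub_id_le (x := n * δ) (by rw [abs_of_nonneg (by positivity)]; exact h)
  linarith [(abs_le.1 h2).2]

end aux

open scoped RealInnerProductSpace in
/-- Instantiate `Sys` on a type synonym `W` of `(Fin N → Ω) → ℝ` with the inner product `⟪g, h⟫ = EX μ (g * h)`
(`InnerProductSpace.Core`, `InnerProductSpace.ofCore`), `E i g x = ∑ a, μ a * g (update x i a)` and
`Q i j g x = Q (fun y => g (update (update x i y.1) j y.2)) (x i, x j)`.  All pair properties follow fibrewise from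
`EX μ φ = EX μ (fun x => ∑ a, ∑ b, μ a * μ b * φ (update (update x i a) j b))` (`E i` preserves `EX`); on a fibre a vector with `E j a = a` is a function of
the first coordinate.  Invariant vectors are constant.  Write `∏ i, h (x i) = 1 + lin x + rem x` for `h = μ₀ / μ`, with
`lin x = ∑ i, (h (x i) - 1)` centred of degree `≤ 1` and norm `≤ ν δ` (orthogonal summands), `|rem x| ≤ (N δ)²`
(induction: `|∏ (1 + z i) - 1 - ∑ z i| ≤ (1 + δ)^N - 1 - N δ ≤ (N δ)²`).  Then
`EX μ₀ (P^T φ) - EX μ φ = ⟪P^T lin, φ⟫ + ⟪rem, P^T φ⟫` (`sym_Pav`, `Pav_fix`); use `two_level`, `norm_Pav_le`, `‖φ‖ ≤ 1`. -/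
theorem PairOp.particle {μ μ₀ : Ω → ℝ} {Q : (Ω × Ω → ℝ) →ₗ[ℝ] (Ω × Ω → ℝ)} {C δ : ℝ}
    (H : PairOp μ Q C) (hC : 1 ≤ C) {N ν : ℕ} (hN : N = ν ^ 2) (hν : 100 * C ≤ ν) {T : ℕ}
    (hT : 16 * C * (ν : ℝ) ^ 4 + 2 ≤ T) (h1 : ∑ a, μ₀ a = 1) (h2 : ∀ a, |μ₀ a - μ a| ≤ δ * μ a)
    (h3 : N * δ ≤ 1) {φ : (Fin N → Ω) → ℝ} (hφ : ∀ x, 0 ≤ φ x ∧ φ x ≤ 1) :
    |EX μ₀ ((Pop N Q)^[T] φ) - EX μ φ| ≤ 10 ^ 4 * C ^ 2 * δ / ν + (N * δ) ^ 2 := by
  classical
  have hνpos : (0 : ℝ) < ν := by linarith
  have hν0 : 0 < ν := by exact_mod_cast hνpos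
  have hN0 : 0 < N := by rw [hN]; positivity
  have : Nonempty (Fin N) := ⟨⟨0, hN0⟩⟩
  have hΩ : Nonempty Ω := by
    by_contra hne
    rw [not_nonempty_iff] at hne
    have := H.sum
    simp at this
  obtain ⟨a₀⟩ := hΩ
  have hδ : 0 ≤ δ := by
    have := (abs_nonneg _).trans (h2 a₀)
    exact nonneg_of_mul_nonneg_left this (H.pos a₀)
  have S := pconc_sys H N
  set E := pconcE μ H.pos N with hE
  set P := Pav (pconcQ μ H.pos N Q) with hP
  let z : Ω → ℝ := fun a => μ₀ a / μ a - 1
  have hz : ∀ a, |z a| ≤ δ := fun a => by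
    have hp := H.pos a
    have : z a = (μ₀ a - μ a) / μ a := by simp only [z]; field_simp
    rw [this, abs_div, abs_of_pos hp, div_le_iff₀ hp]
    exact h2 a
  have hz0 : ∑ a, μ a * z a = 0 := by
    have : ∀ a, μ a * z a = μ₀ a - μ a := fun a => by
      have hp := H.pos a
      simp only [z]; field_simp
    simp only [this]
    rw [Finset.sum_sub_distrib, h1, H.sum, sub_self]
  let L : Fin N → PW μ H.pos N := fun k x => z (x k)
  have hL0 : ∀ k, E k (L k) = 0 := fun k => by
    funext x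
    rw [hE, pconcE_apply]
    simp only [L, Function.update_self]
    exact hz0
  have hL1 : ∀ k l, l ≠ k → E l (L k) = L k := fun k l hkl =>
    pconcE_of_update H.sum fun x b => by simp only [L, Function.update_of_ne hkl.symm]
  let one : PW μ H.pos N := fun _ => 1
  let lin : PW μ H.pos N := ∑ k, L k
  let rem : PW μ H.pos N := fun x => ∏ k, (1 + z (x k)) - 1 - ∑ k, z (x k)
  have hlin : ∀ x, lin x = ∑ k, z (x k) := fun x => by
    show pconcEv μ H.pos N x (∑ k, L k) = _
    rw [map_sum]; rfl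
  have hdeg : DegOn E univ 1 lin := by
    intro l hl _ hlen
    match l, hl, hlen with
    | [i, j], hl, _ =>
      have hij : i ≠ j := by simpa using hl
      show Dm E i (Dm E j lin) = 0
      simp only [lin, map_sum]
      refine Finset.sum_eq_zero fun k _ => ?_
      by_cases hk : j = k
      · subst hk
        simp only [Dm, LinearMap.sub_apply, LinearMap.id_apply, hL0, sub_zero, hL1 j i hij, sub_self]
      · simp only [Dm, LinearMap.sub_apply, LinearMap.id_apply, hL1 k j hk, sub_self, map_zero]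
  have hcen : Cen E lin := by
    intro c hc
    simp only [lin, inner_sum]
    refine Finset.sum_eq_zero fun k _ => ?_
    rw [← hc k, S.symE, hL0, inner_zero_right]
  have hnl : ‖lin‖ ≤ ν * δ := by
    have : ‖lin‖ ^ 2 ≤ (ν * δ) ^ 2 := by
      rw [← real_inner_self_eq_norm_sq]
      simp only [lin, sum_inner, inner_sum]
      have e : ∀ k, ∑ l, ⟪L l, L k⟫ ≤ δ ^ 2 := fun k => by
        rw [Finset.sum_eq_single k]
        · rw [pconc_inner, ← pconc_EX_const (N := N) H.sum (δ ^ 2)]
          refine pconc_EX_mono H.pos fun x => ?_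
          show z (x k) * z (x k) ≤ δ ^ 2
          have := hz (x k)
          rw [← sq, ← sq_abs]
          exact pow_le_pow_left₀ (abs_nonneg _) this 2
        · intro l _ hl
          rw [← hL1 l k hl.symm, S.symE, hL0, inner_zero_right]
        · intro h; exact absurd (mem_univ k) h
      refine (Finset.sum_le_sum fun k _ => e k).trans (le_of_eq ?_)
      simp only [Finset.sum_const, Finset.card_univ, Fintype.card_fin, nsmul_eq_mul, hN]
      push_cast
      ring
    exact (pow_le_pow_iff_left₀ (norm_nonneg _) (by positivity) two_ne_zero).1 this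
  have hnorm : ∀ (g : PW μ H.pos N) (c : ℝ), 0 ≤ c → (∀ x, |g x| ≤ c) → ‖g‖ ≤ c := fun g c hc hg => by
    have : ‖g‖ ^ 2 ≤ c ^ 2 := by
      rw [pconc_norm_sq, ← pconc_EX_const (N := N) H.sum (c ^ 2)]
      refine pconc_EX_mono H.pos fun x => ?_
      rw [← sq, ← sq_abs]
      exact pow_le_pow_left₀ (abs_nonneg _) (hg x) 2
    exact (pow_le_pow_iff_left₀ (norm_nonneg _) hc two_ne_zero).1 this
  have hnr : ‖rem‖ ≤ (N * δ) ^ 2 := hnorm _ _ (by positivity) fun x => by
    have := pconc_prod_bound hδ (fun k : Fin N => hz (x k)) univ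
    rw [Finset.card_univ, Fintype.card_fin] at this
    exact this.trans (pconc_pow_bound hδ h3)
  let ψ : PW μ H.pos N := φ
  have hnφ : ‖ψ‖ ≤ 1 := hnorm _ _ zero_le_one fun x => by
    rw [abs_le]; exact ⟨by linarith [(hφ x).1], (hφ x).2⟩
  have hit : ∀ n : ℕ, (Pop N Q)^[n] φ = (P^[n] ψ : PW μ H.pos N) := fun n => by
    induction n with
    | zero => rfl
    | succ n ih => rw [Function.iterate_succ_apply', Function.iterate_succ_apply', ih, hP, pconc_Pav]
  have hsym : ∀ (n : ℕ) (g h : PW μ H.pos N), ⟪g, P^[n] h⟫ = ⟪P^[n] g, h⟫ := fun n => by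
    induction n with
    | zero => intro g h; rfl
    | succ n ih =>
      intro g h
      rw [Function.iterate_succ_apply', Function.iterate_succ_apply, ← ih, hP, S.sym_Pav]
  have hle : ∀ (n : ℕ) (g : PW μ H.pos N), ‖P^[n] g‖ ≤ ‖g‖ := fun n g => by
    induction n with
    | zero => exact le_rfl
    | succ n ih => rw [Function.iterate_succ_apply']; exact (S.norm_Pav_le _).trans ih
  have hone : P^[T] one = one :=
    Function.iterate_fixed (S.Pav_fix fun i => pconcE_of_update H.sum fun _ _ => rfl) T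
  have hdec : ∀ g : PW μ H.pos N, EX μ₀ g = ⟪one, g⟫ + ⟪lin, g⟫ + ⟪rem, g⟫ := fun g => by
    rw [← inner_add_left, ← inner_add_left, pconc_inner]
    unfold EX
    refine Finset.sum_congr rfl fun x _ => ?_
    have e : (one + lin + rem) x = ∏ k, (1 + z (x k)) := by
      show (1 : ℝ) + lin x + (∏ k, (1 + z (x k)) - 1 - ∑ k, z (x k)) = _
      rw [hlin]; ring
    show _ = (∏ i, μ (x i)) * ((one + lin + rem) x * g x)
    rw [e, ← mul_assoc, ← Finset.prod_mul_distrib]
    congr 1
    refine Finset.prod_congr rfl fun k _ => ?_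
    have hp := H.pos (x k)
    simp only [z]; field_simp; ring
  have hφ1 : EX μ φ = ⟪one, ψ⟫ := by
    rw [pconc_inner]
    congr 1
    funext x
    show φ x = 1 * φ x
    rw [one_mul]
  have h2l := S.two_level hC hν (by rw [Fintype.card_fin, hN]) hT hdeg hcen
  rw [hit, hdec, hsym T one, hone, hφ1, hsym T lin]
  have e : ⟪one, ψ⟫ + ⟪P^[T] lin, ψ⟫ + ⟪rem, P^[T] ψ⟫ - ⟪one, ψ⟫ = ⟪P^[T] lin, ψ⟫ + ⟪rem, P^[T] ψ⟫ := by ring
  rw [e]
  refine (abs_add_le _ _).trans (add_le_add ?_ ?_)
  · refine (abs_real_inner_le_norm _ _).trans ?_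
    calc ‖P^[T] lin‖ * ‖ψ‖ ≤ (10 ^ 4 * C ^ 2 / (ν : ℝ) ^ 2 * (ν * δ)) * 1 :=
          mul_le_mul (h2l.trans (mul_le_mul_of_nonneg_left hnl (by positivity))) hnφ (norm_nonneg _)
            (by positivity)
      _ = 10 ^ 4 * C ^ 2 * δ / ν := by field_simp
  · refine (abs_real_inner_le_norm _ _).trans ?_
    calc ‖rem‖ * ‖P^[T] ψ‖ ≤ (N * δ) ^ 2 * 1 :=
          mul_le_mul hnr ((hle T ψ).trans hnφ) (norm_nonneg _) (by positivity)
      _ = (N * δ) ^ 2 := mul_one _

end Crest.Agent.R304
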