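import Crest.Agent.R304.Move
import Crest.Agent.R304.PConc

/-! Row 304: the collision operator on pairs of matchings. -/

set_option autoImplicit false

namespace Crest.Agent.R304

open Finset

variable {n : ℕ}

/-- dyadic acceptance probability of a move from weight `w` to weight `w'` -/
noncomputable def accN (w w' : ℕ) : ℝ := w' / 2 ^ Nat.size (max w w')

/-- the collision operator: every label is proposed with probability `q₀` -/
noncomputable def Qop (L : Fin n → Fin n → ℕ) (q₀ : ℝ) :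
    (PM n × PM n → ℝ) →ₗ[ℝ] (PM n × PM n → ℝ) where
  toFun φ x := φ x + q₀ * ∑ l : Lab n, accN (w2 L x) (w2 L (mv x l)) * (φ (mv x l) - φ x)
  map_add' φ ψ := by
    funext x
    simp only [Pi.add_apply]
    rw [add_add_add_comm, ← mul_add, ← Finset.sum_add_distrib]
    congr 2
    exact Finset.sum_congr rfl fun l _ => by ring
  map_smul' c φ := by
    funext x
    simp only [Pi.smul_apply, smul_eq_mul, RingHom.id_apply]
    rw [mul_add, ← mul_assoc, mul_comm c q₀, mul_assoc, Finset.mul_sum univ _ c]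
    congr 2
    exact Finset.sum_congr rfl fun l _ => by ring

theorem Qop_apply (L : Fin n → Fin n → ℕ) (q₀ : ℝ) (φ : PM n × PM n → ℝ) (x : PM n × PM n) :
    Qop L q₀ φ x = φ x + q₀ * ∑ l : Lab n, accN (w2 L x) (w2 L (mv x l)) * (φ (mv x l) - φ x) := rfl

theorem kernel_acc_nonneg (w w' : ℕ) : 0 ≤ accN w w' := by
  unfold accN
  positivity

theorem kernel_acc_le (w w' : ℕ) : accN w w' ≤ 1 := by
  unfold accN
  rw [div_le_one (by positivity)]
  exact_mod_cast ((le_max_right w w').trans (Nat.lt_size_self _).le)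

theorem kernel_acc_symm (w w' : ℕ) : (w' : ℝ) * accN w' w = w * accN w w' := by
  unfold accN
  rw [max_comm]
  ring

theorem kernel_min_le (w w' : ℕ) : min (w : ℝ) w' ≤ 2 * (w * accN w w') := by
  rcases Nat.eq_zero_or_pos (max w w') with h | h
  · have h1 : w = 0 := by omega
    have h2 : w' = 0 := by omega
    simp [h1, h2]
  · have h1 : 0 < Nat.size (max w w') := Nat.size_pos.2 h
    have h2 : 2 ^ (Nat.size (max w w') - 1) ≤ max w w' := Nat.lt_size.1 (by omega)
    have h3 : 2 ^ Nat.size (max w w') ≤ 2 * max w w' := by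
      rw [show Nat.size (max w w') = (Nat.size (max w w') - 1) + 1 by omega, pow_succ]
      omega
    have h4 : (2 : ℝ) ^ Nat.size (max w w') ≤ 2 * max (w : ℝ) w' := by exact_mod_cast h3
    unfold accN
    rw [← mul_div_assoc, ← mul_div_assoc, le_div_iff₀ (by positivity), ← min_mul_max (w : ℝ) w',
      mul_left_comm]
    exact mul_le_mul_of_nonneg_left h4 (le_min (Nat.cast_nonneg _) (Nat.cast_nonneg _))

/-- conductance -/
noncomputable def kernelK (L : Fin n → Fin n → ℕ) (x : PM n × PM n) (l : Lab n) : ℝ :=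
  (w2 L x : ℕ) * accN (w2 L x) (w2 L (mv x l))

theorem kernelK_nonneg (L : Fin n → Fin n → ℕ) (x : PM n × PM n) (l : Lab n) : 0 ≤ kernelK L x l :=
  mul_nonneg (Nat.cast_nonneg _) (kernel_acc_nonneg _ _)

theorem kernelK_rl (L : Fin n → Fin n → ℕ) (x : PM n × PM n) (l : Lab n) :
    kernelK L (mv x l) (rl x l) = kernelK L x l := by
  unfold kernelK
  rw [mv_rl, kernel_acc_symm]

theorem kernel_w2_cast (L : Fin n → Fin n → ℕ) (x : PM n × PM n) :
    ((w2 L x : ℕ) : ℝ) = w2 (fun u v => (L u v : ℝ)) x := by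
  rw [w2, w2, Nat.cast_mul, wt_cast, wt_cast]

/-- the unnormalised Dirichlet form -/
noncomputable def kernelE (L : Fin n → Fin n → ℕ) (φ ψ : PM n × PM n → ℝ) : ℝ :=
  ∑ x, ∑ l, kernelK L x l * ((φ (mv x l) - φ x) * (ψ (mv x l) - ψ x))

theorem kernelE_comm (L : Fin n → Fin n → ℕ) (φ ψ : PM n × PM n → ℝ) :
    kernelE L φ ψ = kernelE L ψ φ := by
  simp only [kernelE, mul_comm (φ _ - φ _)]

theorem kernelE_nonneg (L : Fin n → Fin n → ℕ) (φ : PM n × PM n → ℝ) : 0 ≤ kernelE L φ φ :=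
  sum_nonneg fun x _ => sum_nonneg fun l _ => mul_nonneg (kernelK_nonneg L x l) (mul_self_nonneg _)

theorem kernelE_eq (L : Fin n → Fin n → ℕ) (φ ψ : PM n × PM n → ℝ) :
    2 * ∑ x, ∑ l, kernelK L x l * (φ x * (ψ (mv x l) - ψ x)) = -kernelE L φ ψ := by
  have h := sum_mv fun x l => kernelK L x l * (φ x * (ψ (mv x l) - ψ x))
  simp only [kernelK_rl, mv_rl] at h
  rw [two_mul]
  nth_rewrite 1 [← h]
  rw [kernelE, ← sum_add_distrib, ← sum_neg_distrib]
  refine sum_congr rfl fun x _ => ?_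
  rw [← sum_add_distrib, ← sum_neg_distrib]
  exact sum_congr rfl fun l _ => by ring

theorem kernel_ip2_comm {Ω : Type} [Fintype Ω] (μ : Ω → ℝ) (φ ψ : Ω × Ω → ℝ) :
    ip2 μ φ ψ = ip2 μ ψ φ := by
  simp only [ip2, mul_comm (φ _)]

theorem kernel_var_eq {Ω : Type} [Fintype Ω] {μ : Ω → ℝ} (h : ∑ a, μ a = 1) (f : Ω → ℝ) :
    ∑ x : Ω × Ω, μ x.1 * μ x.2 * (f x.1 - f x.2) ^ 2 = 2 * var μ f := by
  set m := ∑ b, μ b * f b with hm
  have h0 : ∑ a, μ a * (f a - m) = 0 := by
    simp only [mul_sub, sum_sub_distrib, ← sum_mul, h, ← hm, one_mul, sub_self]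
  have e : ∀ x : Ω × Ω, μ x.1 * μ x.2 * (f x.1 - f x.2) ^ 2 =
      μ x.1 * (f x.1 - m) ^ 2 * μ x.2 + μ x.1 * (μ x.2 * (f x.2 - m) ^ 2) -
        2 * (μ x.1 * (f x.1 - m) * (μ x.2 * (f x.2 - m))) := fun x => by ring
  simp only [e, sum_sub_distrib, sum_add_distrib, ← mul_sum, Fintype.sum_prod_type, ← sum_mul, h, h0,
    var, ← hm]
  ring

theorem kernel_var_add {Ω : Type} [Fintype Ω] (μ f g : Ω → ℝ) :
    var μ f + var μ g = 2 * var μ (fun a => (f a + g a) / 2) + 2 * var μ (fun a => (f a - g a) / 2) := by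
  have e1 : ∑ b, μ b * ((f b + g b) / 2) = (∑ b, μ b * f b + ∑ b, μ b * g b) / 2 := by
    rw [← sum_add_distrib, sum_div]
    exact sum_congr rfl fun b _ => by ring
  have e2 : ∑ b, μ b * ((f b - g b) / 2) = (∑ b, μ b * f b - ∑ b, μ b * g b) / 2 := by
    rw [← sum_sub_distrib, sum_div]
    exact sum_congr rfl fun b _ => by ring
  simp only [var, e1, e2]
  rw [mul_sum, mul_sum, ← sum_add_distrib, ← sum_add_distrib]
  exact sum_congr rfl fun b _ => by ring

/-- Let `lam` be the cast of `L`, `κ x l = w2 x * accN (w2 x) (w2 (mv x l))`; `κ (mv x l) (rl x l) = κ x l`,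
`min (w2 x) (w2 (mv x l)) / 2 ≤ κ x l` and `0 ≤ accN ≤ 1`.  By `sum_mv`,
`ip2 φ ψ - ip2 φ (Q ψ) = q₀ / (2 Z²) ∑ x l, κ x l (φ (mv x l) - φ x) (ψ (mv x l) - ψ x)` (symmetric; call it `𝓔`).  `firm`: `Q' = 2 Q - 1` is
a stationary Markov operator (`q₀ * 4 n² ≤ 1 / 2`), so `‖Q' φ‖² ≤ ‖φ‖²` by Jensen.  `gap`: `var f = (1 / (2 Z²)) ∑ ∑ wt wt (f A - f B)² ≤ C₁ 𝓔 (two f)` with
`C₁ = 2 CP / q₀`.  For `F = f ⊕ g` put `s = (f + g) / 2`, `d = (f - g) / 2`, so `two s = F - (d ⊖ d)`, `𝓔 (two s) ≤ 2 𝓔 F + 2 𝓔 (d ⊖ d)`,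
`𝓔 (d ⊖ d) ≤ ‖d ⊖ d‖² = 2 var d`; one label `(0, a, a)` gives `𝓔 F ≥ q₀ / 4 * ‖F ∘ swap - F‖² = 2 q₀ var d` (if `n = 0` all variances vanish), and
`var f + var g = 2 var s + 2 var d ≤ (4 C₁ + (8 C₁ + 2) / (2 q₀)) 𝓔 F ≤ 10 C₁ / q₀ 𝓔 F`. -/
theorem pairOp [Nonempty (PM n)] {L : Fin n → Fin n → ℕ} (hL : Pos fun u v => (L u v : ℝ)) {q₀ CP : ℝ}
    (h0 : 0 < q₀) (h1 : q₀ ≤ 1) (h2 : q₀ * (4 * (n : ℝ) ^ 2) ≤ 1 / 2) (hCP : 1 ≤ CP)
    (hP : ∀ f : PM n → ℝ, ∑ A : PM n, ∑ B : PM n,
      wt (fun u v => (L u v : ℝ)) A * wt (fun u v => (L u v : ℝ)) B * (f A - f B) ^ 2 ≤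
        CP * Dir (fun u v => (L u v : ℝ)) (two f)) :
    PairOp (mu fun u v => (L u v : ℝ)) (Qop L q₀) (20 * CP / q₀ ^ 2) := by
  set lam : Fin n → Fin n → ℝ := fun u v => (L u v : ℝ) with hlam
  have hZ : 0 < Zf lam := sum_pos (fun S _ => hL.wt_pos S) univ_nonempty
  have hpos : ∀ a, 0 < mu lam a := fun a => div_pos (hL.wt_pos a) hZ
  have hsum : ∑ a, mu lam a = 1 := by
    simp only [mu, ← sum_div]
    exact div_self hZ.ne'
  have hπ : ∀ x : PM n × PM n, mu lam x.1 * mu lam x.2 = (Zf lam ^ 2)⁻¹ * (w2 L x : ℕ) := by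
    intro x
    rw [kernel_w2_cast, mu, mu, w2]
    field_simp
    rfl
  set c : ℝ := q₀ / (2 * Zf lam ^ 2) with hc
  have hc0 : 0 < c := by positivity
  have hA : ∀ φ ψ, ip2 (mu lam) φ (Qop L q₀ ψ) = ip2 (mu lam) φ ψ - c * kernelE L φ ψ := by
    intro φ ψ
    have e : ip2 (mu lam) φ (Qop L q₀ ψ) = ip2 (mu lam) φ ψ +
        c * (2 * ∑ x, ∑ l, kernelK L x l * (φ x * (ψ (mv x l) - ψ x))) := by
      rw [ip2, ip2, mul_sum, mul_sum, ← sum_add_distrib]
      refine sum_congr rfl fun x _ => ?_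
      rw [Qop_apply, mul_add, mul_add, hπ]
      congr 1
      simp only [mul_sum, kernelK]
      refine sum_congr rfl fun l _ => ?_
      rw [hc]
      field_simp
    rw [e, kernelE_eq]
    ring
  have hfirm : ∀ φ, ip2 (mu lam) (Qop L q₀ φ) (Qop L q₀ φ) ≤ ip2 (mu lam) φ (Qop L q₀ φ) := by
    intro φ
    have e : ip2 (mu lam) (Qop L q₀ φ) (Qop L q₀ φ) = 2 * ip2 (mu lam) φ (Qop L q₀ φ) -
        ip2 (mu lam) φ φ + ∑ x, mu lam x.1 * mu lam x.2 * (Qop L q₀ φ x - φ x) ^ 2 := by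
      simp only [ip2]
      rw [mul_sum, ← sum_sub_distrib, ← sum_add_distrib]
      exact sum_congr rfl fun x _ => by ring
    have h3 : ∑ x, mu lam x.1 * mu lam x.2 * (Qop L q₀ φ x - φ x) ^ 2 ≤ c * kernelE L φ φ := by
      rw [kernelE, mul_sum]
      refine sum_le_sum fun x _ => ?_
      have h4 := sum_sq_le_sum_mul_sum_of_sq_le_mul (univ : Finset (Lab n))
        (r := fun l => accN (w2 L x) (w2 L (mv x l)) * (φ (mv x l) - φ x))
        (f := fun l => accN (w2 L x) (w2 L (mv x l)))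
        (g := fun l => accN (w2 L x) (w2 L (mv x l)) * ((φ (mv x l) - φ x) * (φ (mv x l) - φ x)))
        (fun l _ => kernel_acc_nonneg _ _)
        (fun l _ => mul_nonneg (kernel_acc_nonneg _ _) (mul_self_nonneg _))
        (fun l _ => le_of_eq (by ring))
      have h5 : ∑ l : Lab n, accN (w2 L x) (w2 L (mv x l)) ≤ 4 * (n : ℝ) ^ 2 := by
        refine (sum_le_card_nsmul _ _ 1 fun l _ => kernel_acc_le _ _).trans (le_of_eq ?_)
        simp only [card_univ, Fintype.card_prod, Fintype.card_fin, nsmul_eq_mul]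
        push_cast
        ring
      set G := ∑ l : Lab n, accN (w2 L x) (w2 L (mv x l)) *
        ((φ (mv x l) - φ x) * (φ (mv x l) - φ x)) with hG
      have hG0 : 0 ≤ G :=
        sum_nonneg fun l _ => mul_nonneg (kernel_acc_nonneg _ _) (mul_self_nonneg _)
      have e2 : ∑ l, kernelK L x l * ((φ (mv x l) - φ x) * (φ (mv x l) - φ x)) =
          (w2 L x : ℕ) * G := by
        rw [hG, mul_sum]
        exact sum_congr rfl fun l _ => by rw [kernelK, mul_assoc]
      have h6 : (Qop L q₀ φ x - φ x) ^ 2 ≤ q₀ / 2 * G := by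
        rw [Qop_apply, add_sub_cancel_left, mul_pow]
        calc _ ≤ q₀ ^ 2 * (4 * (n : ℝ) ^ 2 * G) :=
              mul_le_mul_of_nonneg_left (h4.trans (mul_le_mul_of_nonneg_right h5 hG0)) (sq_nonneg _)
          _ = q₀ * (4 * (n : ℝ) ^ 2) * (q₀ * G) := by ring
          _ ≤ 1 / 2 * (q₀ * G) := mul_le_mul_of_nonneg_right h2 (mul_nonneg h0.le hG0)
          _ = _ := by ring
      rw [e2, hπ]
      refine (mul_le_mul_of_nonneg_left h6 (by positivity)).trans (le_of_eq ?_)
      rw [hc]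
      field_simp
    rw [e, hA]
    linarith
  have hle : ∀ φ, c * kernelE L φ φ ≤ ip2 (mu lam) φ φ := by
    intro φ
    have h3 := hfirm φ
    have h4 : 0 ≤ ip2 (mu lam) (Qop L q₀ φ) (Qop L q₀ φ) :=
      sum_nonneg fun x _ => mul_nonneg (mul_pos (hpos _) (hpos _)).le (mul_self_nonneg _)
    rw [hA φ φ] at h3
    linarith
  refine ⟨hpos, hsum, funext fun x => by simp [Qop_apply], fun φ ψ => ?_, hfirm, fun f g => ?_⟩
  · rw [kernel_ip2_comm, hA, hA, kernel_ip2_comm, kernelE_comm]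
  · set F : PM n × PM n → ℝ := fun x => f x.1 + g x.2 with hF
    set s : PM n → ℝ := fun a => (f a + g a) / 2 with hs
    set d : PM n → ℝ := fun a => (f a - g a) / 2 with hd
    set D : PM n × PM n → ℝ := fun x => d x.1 - d x.2 with hD
    rw [hA, sub_sub_cancel, kernel_var_add]
    have hE0 := mul_nonneg hc0.le (kernelE_nonneg L F)
    -- the Poincaré inequality
    have h3 : q₀ * (2 * var (mu lam) s) ≤ 4 * CP * (c * kernelE L (two s) (two s)) := by
      have h4 : Dir lam (two s) ≤ 2 * kernelE L (two s) (two s) := by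
        rw [Dir, kernelE, mul_sum]
        refine sum_le_sum fun x _ => ?_
        rw [loc, mul_sum]
        refine sum_le_sum fun l _ => ?_
        rw [← kernel_w2_cast, ← kernel_w2_cast, ← pow_two, ← mul_assoc]
        exact mul_le_mul_of_nonneg_right (kernel_min_le _ _) (sq_nonneg _)
      have h5 := (hP s).trans (mul_le_mul_of_nonneg_left h4 (by linarith))
      have e : 2 * var (mu lam) s = (Zf lam ^ 2)⁻¹ *
          ∑ A : PM n, ∑ B : PM n, wt lam A * wt lam B * (s A - s B) ^ 2 := by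
        rw [← kernel_var_eq hsum, ← Fintype.sum_prod_type', mul_sum]
        refine sum_congr rfl fun x _ => ?_
        rw [hπ, kernel_w2_cast, mul_assoc]
        rfl
      rw [e]
      refine (mul_le_mul_of_nonneg_left (mul_le_mul_of_nonneg_left h5 (by positivity))
        h0.le).trans (le_of_eq ?_)
      rw [hc]
      field_simp
      ring
    have h4 : kernelE L (two s) (two s) ≤ 2 * kernelE L F F + 2 * kernelE L D D := by
      simp only [kernelE]
      rw [mul_sum, mul_sum, ← sum_add_distrib]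
      refine sum_le_sum fun x _ => ?_
      rw [mul_sum, mul_sum, ← sum_add_distrib]
      refine sum_le_sum fun l _ => ?_
      have e : two s (mv x l) - two s x = (F (mv x l) - F x) - (D (mv x l) - D x) := by
        simp only [two, hF, hD, hs, hd]
        ring
      rw [e]
      have := kernelK_nonneg L x l
      nlinarith [mul_nonneg this (sq_nonneg ((F (mv x l) - F x) + (D (mv x l) - D x)))]
    have hDD : ip2 (mu lam) D D = 2 * var (mu lam) d := by
      rw [← kernel_var_eq hsum, ip2]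
      exact sum_congr rfl fun x _ => by rw [pow_two]
    have h5 : c * kernelE L D D ≤ 2 * var (mu lam) d := hDD ▸ hle D
    have h6 : q₀ * (2 * var (mu lam) d) ≤ c * kernelE L F F := by
      rw [← kernel_var_eq hsum]
      rcases Nat.eq_zero_or_pos n with hn | hn
      · subst hn
        rw [sum_eq_zero, mul_zero]
        · exact hE0
        · intro x _
          rw [show x.1 = x.2 from PM.ext fun v => v.elim0, sub_self]
          simp
      · rw [kernelE, mul_sum, mul_sum]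
        refine sum_le_sum fun x _ => ?_
        have h7 := single_le_sum (f := fun l : Lab n =>
          kernelK L x l * ((F (mv x l) - F x) * (F (mv x l) - F x)))
          (fun l _ => mul_nonneg (kernelK_nonneg L x l) (mul_self_nonneg _))
          (mem_univ ((0 : Fin 4), (⟨0, hn⟩ : Fin n), (⟨0, hn⟩ : Fin n)))
        refine le_trans ?_ (mul_le_mul_of_nonneg_left h7 hc0.le)
        have e1 : mv x ((0 : Fin 4), (⟨0, hn⟩ : Fin n), (⟨0, hn⟩ : Fin n)) = (x.2, x.1) := by
          simp [mv]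
        have e2 : w2 L (x.2, x.1) = w2 L x := mul_comm _ _
        have h8 := kernel_min_le (w2 L x) (w2 L x)
        rw [min_self] at h8
        have e3 : (F (x.2, x.1) - F x) * (F (x.2, x.1) - F x) = 4 * (d x.1 - d x.2) ^ 2 := by
          simp only [hF, hd]
          ring
        rw [kernelK, e1, e2, e3, hπ]
        calc _ = c * (2 * (d x.1 - d x.2) ^ 2) * (w2 L x : ℕ) := by
              rw [hc]
              field_simp
          _ ≤ c * (2 * (d x.1 - d x.2) ^ 2) * (2 * ((w2 L x : ℕ) * accN (w2 L x) (w2 L x))) :=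
              mul_le_mul_of_nonneg_left h8 (by positivity)
          _ = _ := by ring
    set E := c * kernelE L F F with hE
    set vs := 2 * var (mu lam) s
    set vd := 2 * var (mu lam) d
    have h7 : c * kernelE L (two s) (two s) ≤ 2 * E + 2 * vd := by
      have := mul_le_mul_of_nonneg_left h4 hc0.le
      linarith
    have h8 : q₀ * vs ≤ 4 * CP * (2 * E + 2 * vd) :=
      h3.trans (mul_le_mul_of_nonneg_left h7 (by linarith))
    rw [div_mul_eq_mul_div, le_div_iff₀ (by positivity)]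
    have h9 := mul_le_mul_of_nonneg_left h8 h0.le
    have h10 := mul_le_mul_of_nonneg_left h6 (by linarith : 0 ≤ 8 * CP)
    have h11 := mul_le_mul_of_nonneg_left h6 h0.le
    have h12 : q₀ * E ≤ E := mul_le_of_le_one_left hE0 h1
    have h13 := mul_le_mul_of_nonneg_left h12 (by linarith : 0 ≤ 8 * CP)
    have h14 : E ≤ CP * E := le_mul_of_one_le_left hE0 hCP
    nlinarith

end Crest.Agent.R304
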