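import Crest.Agent.R304.Move

/-! Row 304: learning the weights of the virtual edges. -/

set_option autoImplicit false

namespace Crest.Agent.R304

open Finset

variable {n : ℕ}

/-- the adjacency matrix of a graph -/
structure Gr (g : Fin n → Fin n → ℝ) : Prop where
  zo : ∀ u v, g u v = 0 ∨ g u v = 1
  symm : ∀ u v, g u v = g v u

/-- the probability that the virtual edge `u v` is used -/
noncomputable def vm (g om : Fin n → Fin n → ℝ) (u v : Fin n) : ℝ :=
  Ze (g + om) u v * (om u v / (g u v + om u v)) / Zf (g + om)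

/-- the potential -/
noncomputable def Phi (g om : Fin n → Fin n → ℝ) (b : ℝ) : ℝ :=
  Real.log (Zf (g + om)) -
    2 * b * ∑ q ∈ univ.filter (fun q : Fin n × Fin n => q.1 < q.2), Real.log (om q.1 q.2)

/-- entrywise within a factor `r` -/
def Close (r : ℝ) (lam lam' : Fin n → Fin n → ℝ) : Prop :=
  ∀ u v, lam' u v ≤ r * lam u v ∧ lam u v ≤ r * lam' u v

variable {g om om' lam lam' : Fin n → Fin n → ℝ} {r b : ℝ}

theorem Close.symm (h : Close r lam lam') : Close r lam' lam := fun u v => (h u v).symm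

theorem learn_nonneg (hg : Gr g) (u v : Fin n) : 0 ≤ g u v := by
  rcases hg.zo u v with h | h <;> simp [h]

theorem learn_le_one (hg : Gr g) (u v : Fin n) : g u v ≤ 1 := by
  rcases hg.zo u v with h | h <;> simp [h]

theorem learn_Ze_nonneg (h : Pos lam) (u v : Fin n) : 0 ≤ Ze lam u v :=
  sum_nonneg fun S _ => (h.wt_pos S).le

theorem learn_wt_le (hl' : Pos lam') (h : Close r lam lam') (S : PM n) :
    wt lam' S ≤ r ^ (n / 2) * wt lam S := by
  rw [← wt_const_mul]
  exact prod_le_prod (fun v _ => (hl'.pos _ _).le) fun v _ => (h _ _).1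

theorem learn_wt_init (hg : Gr g) {W : ℝ} (hW : 0 < W) (S : PM n) :
    W ^ (n / 2) ≤ wt (g + fun _ _ => W) S ∧ wt (g + fun _ _ => W) S ≤ (W + 1) ^ (n / 2) := by
  have h := card_low S
  have h2 : n / 2 = (univ.filter fun v => v < S v).card := by omega
  rw [h2, ← prod_const, ← prod_const]
  refine ⟨prod_le_prod (fun _ _ => hW.le) fun v _ => ?_, prod_le_prod (fun v _ => ?_) fun v _ => ?_⟩
  · exact le_add_of_nonneg_left (learn_nonneg hg _ _)
  · exact add_nonneg (learn_nonneg hg _ _) hW.le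
  · have := learn_le_one hg v (S v)
    simp only [Pi.add_apply]
    linarith

theorem learn_prod_one_sub {ι : Type} (s : Finset ι) (x : ι → ℝ) (h0 : ∀ i, 0 ≤ x i)
    (h1 : ∀ i, x i ≤ 1) : 1 - ∑ i ∈ s, x i ≤ ∏ i ∈ s, (1 - x i) := by
  classical
  induction s using Finset.induction_on with
  | empty => simp
  | insert a s ha ih =>
    rw [sum_insert ha, prod_insert ha]
    have h2 : 0 ≤ ∑ i ∈ s, x i := sum_nonneg fun i _ => h0 i
    nlinarith [mul_le_mul_of_nonneg_left ih (sub_nonneg.2 (h1 a)), mul_nonneg (h0 a) h2]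

theorem learn_card_pairs (n : ℕ) :
    2 * (univ.filter (fun q : Fin n × Fin n => q.1 < q.2)).card ≤ n ^ 2 := by
  have h1 : (univ.filter (fun q : Fin n × Fin n => q.1 < q.2)).card ≤
      (univ.filter (fun q : Fin n × Fin n => ¬ q.1 < q.2)).card := by
    refine card_le_card_of_injOn Prod.swap (fun q hq => ?_) Prod.swap_injective.injOn
    simp only [coe_filter, mem_univ, true_and, Set.mem_ofPred_eq, Prod.fst_swap, Prod.snd_swap,
      not_lt] at hq ⊢
    exact hq.le
  have h2 := card_filter_add_card_filter_not (s := (univ : Finset (Fin n × Fin n)))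
    fun q => q.1 < q.2
  rw [card_univ, Fintype.card_prod, Fintype.card_fin] at h2
  rw [sq]
  omega

theorem Gr.pos_add (hg : Gr g) (ho : Pos om) : Pos (g + om) := by
  refine ⟨fun u v => add_pos_of_nonneg_of_pos (learn_nonneg hg u v) (ho.pos u v), fun u v => ?_⟩
  simp only [Pi.add_apply, hg.symm u v, ho.symm u v]

theorem Pos.Zf_pos [Nonempty (PM n)] (h : Pos lam) : 0 < Zf lam := by
  exact sum_pos (fun S _ => h.wt_pos S) univ_nonempty

theorem Pos.mu_pos [Nonempty (PM n)] (h : Pos lam) (S : PM n) : 0 < mu lam S := by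
  exact div_pos (h.wt_pos S) h.Zf_pos

theorem Pos.sum_mu [Nonempty (PM n)] (h : Pos lam) : ∑ S, mu lam S = 1 := by
  unfold mu
  rw [← sum_div]
  exact div_self h.Zf_pos.ne'

theorem mu_const_mul {c : ℝ} (hc : 0 < c) (lam : Fin n → Fin n → ℝ) :
    mu (fun u v => c * lam u v) = mu lam := by
  funext S
  unfold mu Zf
  simp only [wt_const_mul, ← mul_sum]
  exact mul_div_mul_left _ _ (pow_pos hc _).ne'

theorem Bal.const_mul {c K : ℝ} (hc : 0 < c) (h : Bal lam K) : Bal (fun u v => c * lam u v) K := by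
  intro u v huv
  have h1 := h u v huv
  unfold Zf Ze at *
  simp only [wt_const_mul, ← mul_sum]
  rw [mul_left_comm]
  exact mul_le_mul_of_nonneg_left h1 (pow_pos hc _).le

theorem Close.add (hg : Gr g) (hr : 1 ≤ r) (h : Close r om om') : Close r (g + om) (g + om') := by
  intro u v
  have h1 := h u v
  have h2 := learn_nonneg hg u v
  simp only [Pi.add_apply]
  constructor <;> nlinarith [h1.1, h1.2]

theorem Close.wt_le (hl : Pos lam) (hl' : Pos lam') (hr : 1 ≤ r) (h : Close r lam lam') (S : PM n) :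
    wt lam' S ≤ r ^ n * wt lam S := by
  exact (learn_wt_le hl' h S).trans (mul_le_mul_of_nonneg_right
    (pow_le_pow_right₀ hr (Nat.div_le_self _ _)) (hl.wt_pos S).le)

theorem Close.mu_le [Nonempty (PM n)] (hl : Pos lam) (hl' : Pos lam') (hr : 1 ≤ r)
    (h : Close r lam lam') (S : PM n) : mu lam' S ≤ r ^ (2 * n) * mu lam S := by
  have h1 := h.wt_le hl hl' hr S
  have h2 : Zf lam ≤ r ^ n * Zf lam' := by
    unfold Zf
    rw [mul_sum]
    exact sum_le_sum fun T _ => h.symm.wt_le hl' hl hr T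
  have h3 := hl.Zf_pos
  have h4 := hl'.Zf_pos
  have h5 := hl.wt_pos S
  have h6 : 0 < r ^ n := by positivity
  unfold mu
  rw [← mul_div_assoc, div_le_div_iff₀ h4 h3, two_mul, pow_add]
  calc wt lam' S * Zf lam ≤ (r ^ n * wt lam S) * (r ^ n * Zf lam') := by gcongr
    _ = _ := by ring

/-- the numerator is a sum of products of `om u v` and `n / 2 - 1` entries of `g + om` -/
theorem Close.vm_le [Nonempty (PM n)] (hg : Gr g) (ho : Pos om) (ho' : Pos om') (hr : 1 ≤ r)
    (h : Close r om om') {u v : Fin n} (huv : u ≠ v) : vm g om u v ≤ r ^ (2 * n) * vm g om' u v := by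
  have hl := hg.pos_add ho
  have hl' := hg.pos_add ho'
  have hc := h.add hg hr
  have h1 : Ze (g + om) u v ≤ r ^ (n / 2) * Ze (g + om') u v := by
    unfold Ze
    rw [mul_sum]
    exact sum_le_sum fun T _ => learn_wt_le hl hc.symm T
  have h2 : Zf (g + om') ≤ r ^ (n / 2) * Zf (g + om) := by
    unfold Zf
    rw [mul_sum]
    exact sum_le_sum fun T _ => learn_wt_le hl' hc T
  have g0 := learn_nonneg hg u v
  have o1 := ho.pos u v
  have o2 := ho'.pos u v
  have h3 : om u v / (g u v + om u v) ≤ r * (om' u v / (g u v + om' u v)) := by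
    rw [← mul_div_assoc, div_le_div_iff₀ (by positivity) (by positivity)]
    have := (h u v).2
    nlinarith [mul_le_mul_of_nonneg_left this g0, mul_pos o1 o2]
  have h4 : r ^ (n / 2) * r * r ^ (n / 2) ≤ r ^ (2 * n) := by
    rw [← pow_succ, ← pow_add]
    have := u.2
    exact pow_le_pow_right₀ hr (by omega)
  have z1 := hl.Zf_pos
  have z2 := hl'.Zf_pos
  have e1 := learn_Ze_nonneg hl' u v
  have r0 : 0 < r := by linarith
  unfold vm
  rw [← mul_div_assoc (r ^ (2 * n)), div_le_div_iff₀ z1 z2]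
  calc Ze (g + om) u v * (om u v / (g u v + om u v)) * Zf (g + om')
      ≤ (r ^ (n / 2) * Ze (g + om') u v) * (r * (om' u v / (g u v + om' u v))) *
        (r ^ (n / 2) * Zf (g + om)) := by gcongr
    _ = (r ^ (n / 2) * r * r ^ (n / 2)) *
        (Ze (g + om') u v * (om' u v / (g u v + om' u v)) * Zf (g + om)) := by ring
    _ ≤ r ^ (2 * n) * (Ze (g + om') u v * (om' u v / (g u v + om' u v)) * Zf (g + om)) := by gcongr
    _ = _ := by ring

theorem bal_of_vm [Nonempty (PM n)] (hg : Gr g) (ho : Pos om) {β : ℝ} (hβ : 0 < β)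
    (h : ∀ u v, u ≠ v → β ≤ vm g om u v) : Bal (g + om) (1 / β) := by
  intro u v huv
  have hl := hg.pos_add ho
  have h1 := h u v huv
  have g0 := learn_nonneg hg u v
  have o1 := ho.pos u v
  have e1 := learn_Ze_nonneg hl u v
  have h2 : om u v / (g u v + om u v) ≤ 1 := (div_le_one (by positivity)).2 (by linarith)
  unfold vm at h1
  rw [le_div_iff₀ hl.Zf_pos] at h1
  rw [one_div, ← div_eq_inv_mul, le_div_iff₀ hβ]
  nlinarith

theorem vm_eq [Nonempty (PM n)] (g om : Fin n → Fin n → ℝ) (u v : Fin n) :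
    vm g om u v = ∑ S, mu (g + om) S * if S u = v then om u v / (g u v + om u v) else 0 := by
  unfold vm Ze mu
  rw [sum_filter, sum_mul, sum_div]
  refine sum_congr rfl fun S _ => ?_
  split_ifs
  · ring
  · simp

/-- `wt g S / wt (g + om) S = ∏ (1 - r e) ≥ 1 - ∑ r e` with `r = om / (g + om)`; `sum_wt_sum_low`; there are at most `n² / 2` pairs -/
theorem real_frac [Nonempty (PM n)] (hg : Gr g) (ho : Pos om) (hb : 0 ≤ b) (hn : 4 * (n : ℝ) ^ 2 * b ≤ 1)
    (h : ∀ u v, u ≠ v → vm g om u v ≤ 4 * b) : Zf (g + om) ≤ 2 * Zf g := by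
  have hl := hg.pos_add ho
  have z1 := hl.Zf_pos
  set ρ : Fin n → Fin n → ℝ := fun u v => om u v / (g u v + om u v) with hρ
  have h1 : ∀ S : PM n, wt (g + om) S - wt (g + om) S * ∑ v ∈ univ.filter (fun v => v < S v),
      ρ v (S v) ≤ wt g S := by
    intro S
    have e1 : wt g S = wt (g + om) S * ∏ v ∈ univ.filter (fun v => v < S v), (1 - ρ v (S v)) := by
      unfold wt
      rw [← prod_mul_distrib]
      refine prod_congr rfl fun v _ => ?_
      have := (hl.pos v (S v)).ne'
      simp only [Pi.add_apply] at this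
      simp only [hρ, Pi.add_apply]
      field_simp
      ring
    have e2 := learn_prod_one_sub (univ.filter (fun v => v < S v)) (fun v => ρ v (S v))
      (fun v => div_nonneg (ho.pos _ _).le (hl.pos _ _).le)
      (fun v => (div_le_one (hl.pos _ _)).2 (le_add_of_nonneg_left (learn_nonneg hg _ _)))
    rw [e1, ← mul_one_sub]
    exact mul_le_mul_of_nonneg_left e2 (hl.wt_pos S).le
  have h2 := sum_le_sum fun S (_ : S ∈ (univ : Finset (PM n))) => h1 S
  rw [sum_sub_distrib, sum_wt_sum_low (g + om) ρ] at h2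
  have h3 : ∑ q ∈ univ.filter (fun q : Fin n × Fin n => q.1 < q.2), ρ q.1 q.2 * Ze (g + om) q.1 q.2 ≤
      (univ.filter (fun q : Fin n × Fin n => q.1 < q.2)).card • (4 * b * Zf (g + om)) := by
    refine sum_le_card_nsmul _ _ _ fun q hq => ?_
    have := h q.1 q.2 (mem_filter.1 hq).2.ne
    unfold vm at this
    rw [div_le_iff₀ z1] at this
    rw [mul_comm]
    exact this
  rw [nsmul_eq_mul] at h3
  have h4 : 2 * ((univ.filter (fun q : Fin n × Fin n => q.1 < q.2)).card : ℝ) ≤ (n : ℝ) ^ 2 := by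
    exact_mod_cast learn_card_pairs n
  have h5 : 0 ≤ b * Zf (g + om) := by positivity
  change Zf (g + om) - _ ≤ Zf g at h2
  nlinarith [mul_le_mul_of_nonneg_right h4 h5, mul_le_mul_of_nonneg_right hn z1.le]

/-- conjugation by a transposition: the number of matchings with `S u = v` does not depend on `v ≠ u` -/
theorem card_filter_eq {u v : Fin n} (h : u ≠ v) :
    (n - 1) * (univ.filter fun S : PM n => S u = v).card = Fintype.card (PM n) := by
  have key : ∀ w : Fin n, w ≠ u → (univ.filter fun S : PM n => S u = w).card =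
      (univ.filter fun S : PM n => S u = v).card := by
    intro w hw
    by_cases hwv : w = v
    · rw [hwv]
    refine card_bij' (fun S _ => shift [w, v] S) (fun S _ => shift [w, v] S) ?_ ?_ ?_ ?_
    · intro S hS
      rw [mem_filter] at hS ⊢
      refine ⟨mem_univ _, ?_⟩
      rw [shift_pair_apply hwv, Equiv.swap_apply_of_ne_of_ne hw.symm h, hS.2, Equiv.swap_apply_left]
    · intro S hS
      rw [mem_filter] at hS ⊢
      refine ⟨mem_univ _, ?_⟩
      rw [shift_pair_apply hwv, Equiv.swap_apply_of_ne_of_ne hw.symm h, hS.2, Equiv.swap_apply_right]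
    · intro S _
      exact shift_shift _ _
    · intro S _
      exact shift_shift _ _
  rw [← card_univ, card_eq_sum_card_fiberwise (s := (univ : Finset (PM n))) (t := univ.erase u)
    (f := fun S : PM n => S u) fun S _ => by simpa using S.ne u,
    sum_congr rfl fun w hw => key w (ne_of_mem_erase hw), sum_const, card_erase_of_mem (mem_univ u),
    card_univ, Fintype.card_fin, smul_eq_mul]

/-- `log Z ≥ 0` as `Z ≥ wt (g + om) S₀ ≥ 1`, and `log Z ≥ ∑ e ∈ S, log (om e)` for every `S`; averaging over `S` (`card_filter_eq`,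
`sum_wt_sum_low` for the weights `1`) gives `(n - 1) log Z ≥ ∑ e, log (om e)`. -/
theorem phi_nonneg (hg : Gr g) (ho : Pos om) {S₀ : PM n} (h₀ : ∀ v, g v (S₀ v) = 1) (hb : 0 ≤ b)
    (hn : 2 * n * b ≤ 1) : 0 ≤ Phi g om b := by
  have : Nonempty (PM n) := ⟨S₀⟩
  have hl := hg.pos_add ho
  have hle : ∀ S, wt (g + om) S ≤ Zf (g + om) := fun S =>
    single_le_sum (f := fun S => wt (g + om) S) (fun T _ => (hl.wt_pos T).le) (mem_univ S)
  have h1 : 0 ≤ Real.log (Zf (g + om)) := by
    refine Real.log_nonneg (le_trans ?_ (hle S₀))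
    refine Finset.one_le_prod fun v _ => ?_
    have := ho.pos v (S₀ v)
    simp only [Pi.add_apply, h₀]
    linarith
  have h2 : ∀ S : PM n, wt (fun _ _ => (1 : ℝ)) S * ∑ v ∈ univ.filter (fun v => v < S v),
      Real.log (om v (S v)) ≤ Real.log (Zf (g + om)) := by
    intro S
    have e1 : wt (fun _ _ => (1 : ℝ)) S = 1 := prod_const_one
    rw [e1, one_mul, ← Real.log_prod fun v _ => (ho.pos v (S v)).ne']
    refine Real.log_le_log (ho.wt_pos S) (le_trans ?_ (hle S))
    exact prod_le_prod (fun v _ => (ho.pos _ _).le) fun v _ =>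
      le_add_of_nonneg_left (learn_nonneg hg _ _)
  have h3 := sum_le_card_nsmul univ _ _ fun S _ => h2 S
  rw [sum_wt_sum_low (fun _ _ => (1 : ℝ)) fun u v => Real.log (om u v), nsmul_eq_mul, card_univ] at h3
  have h4 : ((n - 1 : ℕ) : ℝ) * ∑ q ∈ univ.filter (fun q : Fin n × Fin n => q.1 < q.2),
      Real.log (om q.1 q.2) * Ze (fun _ _ => (1 : ℝ)) q.1 q.2 = Fintype.card (PM n) *
        ∑ q ∈ univ.filter (fun q : Fin n × Fin n => q.1 < q.2), Real.log (om q.1 q.2) := by
    rw [mul_sum, mul_sum]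
    refine sum_congr rfl fun q hq => ?_
    rw [← card_filter_eq (mem_filter.1 hq).2.ne]
    have e1 : Ze (fun _ _ => (1 : ℝ)) q.1 q.2 = (univ.filter fun S : PM n => S q.1 = q.2).card := by
      simp [Ze, wt]
    rw [e1]
    push_cast
    ring
  have h5 : (0 : ℝ) < Fintype.card (PM n) := by exact_mod_cast Fintype.card_pos
  have h6 : ∑ q ∈ univ.filter (fun q : Fin n × Fin n => q.1 < q.2), Real.log (om q.1 q.2) ≤
      ((n - 1 : ℕ) : ℝ) * Real.log (Zf (g + om)) := by
    refine le_of_mul_le_mul_left ?_ h5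
    rw [← h4, mul_left_comm]
    exact mul_le_mul_of_nonneg_left h3 (Nat.cast_nonneg _)
  have h7 : ((n - 1 : ℕ) : ℝ) ≤ n := by exact_mod_cast Nat.sub_le n 1
  unfold Phi
  have h8 := mul_le_mul_of_nonneg_left (h6.trans (mul_le_mul_of_nonneg_right h7 h1)) hb
  nlinarith [mul_le_mul_of_nonneg_right hn h1]

theorem Zf_init_le (hg : Gr g) {W : ℝ} (hW : 0 < W) :
    W ^ (n / 2) * Fintype.card (PM n) ≤ Zf (g + fun _ _ => W) ∧
      Zf (g + fun _ _ => W) ≤ (W + 1) ^ (n / 2) * Fintype.card (PM n) := by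
  unfold Zf
  constructor
  · rw [mul_comm, ← nsmul_eq_mul, ← card_univ]
    exact card_nsmul_le_sum _ _ _ fun S _ => (learn_wt_init hg hW S).1
  · rw [mul_comm, ← nsmul_eq_mul, ← card_univ]
    exact sum_le_card_nsmul _ _ _ fun S _ => (learn_wt_init hg hW S).2

/-- `(1 + 1 / W) ^ (n / 2) ≤ 2` -/
theorem vm_init [Nonempty (PM n)] (hg : Gr g) {W : ℝ} (hW : 1 ≤ W) (hn : n ≤ W) {u v : Fin n}
    (h : u ≠ v) : 1 / (2 * (n : ℝ)) ≤ vm g (fun _ _ => W) u v := by
  have hW0 : 0 < W := by linarith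
  have hl : Pos (g + fun _ _ => W) := hg.pos_add ⟨fun _ _ => hW0, fun _ _ => rfl⟩
  have z1 := hl.Zf_pos
  have z2 := (Zf_init_le hg hW0).2
  have hc := card_filter_eq h
  have hn2 : 2 ≤ n := by
    have := u.2
    have := v.2
    have := Fin.val_ne_of_ne h
    omega
  have hn2' : (2 : ℝ) ≤ n := by exact_mod_cast hn2
  have hc' : ((n : ℝ) - 1) * (univ.filter fun S : PM n => S u = v).card = Fintype.card (PM n) := by
    rw [← hc]
    push_cast [Nat.cast_sub (show 1 ≤ n by omega)]
    ring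
  set c : ℝ := ((univ.filter fun S : PM n => S u = v).card : ℝ) with hcdef
  have c0 : 0 ≤ c := Nat.cast_nonneg _
  have h1 : c * W ^ (n / 2) ≤ Ze (g + fun _ _ => W) u v := by
    rw [hcdef, ← nsmul_eq_mul]
    exact card_nsmul_le_sum _ _ _ fun S _ => (learn_wt_init hg hW0 S).1
  have g0 := learn_nonneg hg u v
  have g1 := learn_le_one hg u v
  have h2 : W / (W + 1) ≤ W / (g u v + W) :=
    div_le_div_of_nonneg_left hW0.le (by positivity) (by linarith)
  have h3 : (n : ℝ) / (2 * (n + 1)) ≤ (W / (W + 1)) ^ (n / 2 + 1) := by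
    have e1 : W / (W + 1) = 1 + -(1 / (W + 1)) := by field_simp; ring
    have e2 : 1 / (W + 1) ≤ 1 / (n + 1) := by gcongr
    have e3 : 0 ≤ 1 / (W + 1) := by positivity
    have e4 : 1 / (W + 1) ≤ 1 := (div_le_one (by linarith)).2 (by linarith)
    have e5 : (2 : ℝ) * (n / 2 : ℕ) ≤ n := by exact_mod_cast Nat.mul_div_le n 2
    have e6 := one_add_mul_le_pow (a := -(1 / (W + 1))) (by linarith) (n / 2 + 1)
    rw [e1]
    refine le_trans ?_ e6
    have e7 : (n : ℝ) / (2 * (n + 1)) = 1 - (n / 2 + 1) * (1 / (n + 1)) := by field_simp; ring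
    have e8 : (((n / 2 : ℕ) : ℝ) + 1) * (1 / (W + 1)) ≤ (n / 2 + 1) * (1 / (n + 1)) := by
      gcongr
      linarith
    rw [Nat.cast_add, Nat.cast_one]
    linarith
  unfold vm
  rw [le_div_iff₀ z1]
  have h4 : 1 / (2 * (n : ℝ)) * (n - 1) ≤ n / (2 * (n + 1)) := by
    rw [one_div, ← div_eq_inv_mul, div_le_div_iff₀ (by positivity) (by positivity)]
    nlinarith
  calc 1 / (2 * (n : ℝ)) * Zf (g + fun _ _ => W)
      ≤ 1 / (2 * (n : ℝ)) * ((W + 1) ^ (n / 2) * Fintype.card (PM n)) := by gcongr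
    _ = 1 / (2 * (n : ℝ)) * (n - 1) * ((W + 1) ^ (n / 2) * c) := by rw [← hc']; ring
    _ ≤ (W / (W + 1)) ^ (n / 2 + 1) * ((W + 1) ^ (n / 2) * c) :=
        mul_le_mul_of_nonneg_right (h4.trans h3) (by positivity)
    _ = c * W ^ (n / 2) * (W / (W + 1)) := by
        rw [pow_succ, div_pow]
        field_simp
    _ ≤ _ := mul_le_mul h1 h2 (by positivity) (learn_Ze_nonneg hl u v)

/-- `card (PM n) ≤ n ^ n` -/
theorem phi_init [Nonempty (PM n)] (hg : Gr g) {W : ℝ} (hW : 1 ≤ W) (hb : 0 ≤ b) :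
    Phi g (fun _ _ => W) b ≤ n * Real.log (W + 1) + (n : ℝ) ^ 2 := by
  have hW0 : 0 < W := by linarith
  have hl : Pos (g + fun _ _ => W) := hg.pos_add ⟨fun _ _ => hW0, fun _ _ => rfl⟩
  have z1 := hl.Zf_pos
  have z2 := (Zf_init_le hg hW0).2
  have h1 : Fintype.card (PM n) ≤ n ^ n := by
    simpa using Fintype.card_le_of_injective _ (PM.toFun_injective (n := n))
  have h2 : (0 : ℝ) < Fintype.card (PM n) := by exact_mod_cast Fintype.card_pos
  have h3 : Real.log (Fintype.card (PM n)) ≤ (n : ℝ) ^ 2 := by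
    refine (Real.log_le_log h2 (show _ ≤ (n : ℝ) ^ n by exact_mod_cast h1)).trans ?_
    rw [Real.log_pow, sq]
    exact mul_le_mul_of_nonneg_left (Real.log_le_self (Nat.cast_nonneg _)) (Nat.cast_nonneg _)
  have h4 := Real.log_le_log z1 z2
  rw [Real.log_mul (by positivity) h2.ne', Real.log_pow] at h4
  have h5 : 0 ≤ Real.log (W + 1) := Real.log_nonneg (by linarith)
  have h6 : ((n / 2 : ℕ) : ℝ) ≤ n := by exact_mod_cast Nat.div_le_self n 2
  have h7 : 0 ≤ 2 * b * ∑ _q ∈ univ.filter (fun q : Fin n × Fin n => q.1 < q.2), Real.log W :=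
    mul_nonneg (by positivity) (sum_nonneg fun _ _ => Real.log_nonneg hW)
  unfold Phi
  nlinarith [mul_le_mul_of_nonneg_right h6 h5]

end Crest.Agent.R304
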