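import Crest.Agent.R304.Learn

/-! Row 304: one update of the virtual weights. -/

set_option autoImplicit false

namespace Crest.Agent.R304

open Finset

variable {n : ℕ} {g om τ : Fin n → Fin n → ℝ} {b U d : ℝ}

theorem learnStep_wt {lam lam' z : Fin n → Fin n → ℝ} (h : ∀ u v, lam' u v = lam u v * (1 + z u v))
    (S : PM n) :
    wt lam' S = wt lam S * ∏ v ∈ univ.filter (fun v => v < S v), (1 + z v (S v)) := by
  rw [wt, wt, ← prod_mul_distrib]
  exact prod_congr rfl fun v _ => h _ _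

theorem learnStep_card (S : PM n) : ((univ.filter fun v => v < S v).card : ℝ) ≤ n := by
  have := card_low S
  exact_mod_cast (by omega : (univ.filter fun v => v < S v).card ≤ n)

theorem learnStep_prod_le {ι : Type} (s : Finset ι) (z : ι → ℝ) {N U : ℝ} (hN : (s.card : ℝ) ≤ N)
    (hU : 0 ≤ U) (hU1 : U ≤ 1) (hNU : N * U ≤ 1) (hz : ∀ i ∈ s, |z i| ≤ U) :
    ∏ i ∈ s, (1 + z i) ≤ 1 + ∑ i ∈ s, (z i + N * z i ^ 2) := by
  have h1 : ∏ i ∈ s, (1 + z i) ≤ Real.exp (∑ i ∈ s, z i) := by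
    rw [Real.exp_sum]
    exact prod_le_prod (fun i hi => by linarith [(abs_le.1 (hz i hi)).1])
      fun i _ => by linarith [Real.add_one_le_exp (z i)]
  have h2 : |∑ i ∈ s, z i| ≤ 1 := by
    refine (abs_sum_le_sum_abs _ _).trans ?_
    have := sum_le_card_nsmul s _ _ hz
    rw [nsmul_eq_mul] at this
    nlinarith
  have h3 := (abs_le.1 (Real.abs_exp_sub_one_sub_id_le h2)).2
  have h4 : (∑ i ∈ s, z i) ^ 2 ≤ s.card * ∑ i ∈ s, z i ^ 2 := sq_sum_le_card_mul_sum_sq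
  have h5 : 0 ≤ ∑ i ∈ s, z i ^ 2 := sum_nonneg fun i _ => sq_nonneg _
  rw [sum_add_distrib, ← mul_sum]
  nlinarith

theorem learnStep_le_prod {ι : Type} (s : Finset ι) (z : ι → ℝ) {N d : ℝ} (hN : (s.card : ℝ) ≤ N)
    (hd : 0 ≤ d) (hd1 : d ≤ 1) (hz : ∀ i ∈ s, -d ≤ z i) : 1 - N * d ≤ ∏ i ∈ s, (1 + z i) := by
  have h1 : ∏ _i ∈ s, (1 + -d) ≤ ∏ i ∈ s, (1 + z i) :=
    prod_le_prod (fun _ _ => by linarith) fun i hi => by linarith [hz i hi]
  rw [prod_const] at h1
  have h2 := one_add_mul_le_pow (a := -d) (by linarith) s.card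
  nlinarith

theorem learnStep_up {N U b p : ℝ} (hb : 0 < b) (hN : 0 ≤ N) (hU : 0 < U) (hNU : (N + 2) * U ≤ 1)
    (hp : p ≤ b) : p * (U + N * U ^ 2) - 2 * b * Real.log (1 + U) ≤ 0 := by
  have h1 := Real.one_sub_inv_le_log_of_pos (show 0 < 1 + U by linarith)
  have h2 : (U + N * U ^ 2) / 2 ≤ 1 - (1 + U)⁻¹ := by
    have : 1 - (1 + U)⁻¹ = U / (1 + U) := by field_simp; ring
    rw [this, div_le_div_iff₀ (by norm_num) (by linarith)]
    have h3 : N * U ≤ 1 := by nlinarith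
    have h4 : N * U * U ≤ U := by nlinarith
    have h5 : (1 + N * U) * (1 + U) ≤ 2 := by nlinarith
    nlinarith
  have h3 : 0 ≤ U + N * U ^ 2 := by positivity
  nlinarith

theorem learnStep_down {N d b p : ℝ} (hb : 0 < b) (hN : 0 ≤ N) (hd : 0 < d)
    (hNd : 8 * (N + 1) * d ≤ 1) (hp : 3 * b ≤ p) :
    p * (-d + N * (-d) ^ 2) - 2 * b * Real.log (1 - d) ≤ -(b * d / 2) := by
  have hd1 : d ≤ 1 / 8 := by nlinarith
  have h1 := Real.one_sub_inv_le_log_of_pos (show 0 < 1 - d by linarith)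
  have h2 : (1 - d)⁻¹ ≤ 1 + d + 3 / 2 * d ^ 2 := by
    rw [inv_le_iff_one_le_mul₀ (by linarith)]
    nlinarith [mul_pos hd hd]
  have h3 : -d + N * (-d) ^ 2 ≤ 0 := by nlinarith
  have h4 : p * (-d + N * (-d) ^ 2) ≤ 3 * b * (-d + N * (-d) ^ 2) := by nlinarith
  have h5 : 3 * (-d + N * (-d) ^ 2) + 2 * (d + 3 / 2 * d ^ 2) ≤ -(d / 2) := by nlinarith
  nlinarith

/-- Let `π = vm g om`, `r = om / (g + om) ∈ (0, 1]`, `z = r (τ - 1)`, `om' = om τ`.  Then `wt (g + om') S = wt (g + om) S * ∏ e ∈ S, (1 + z e)` and, with at most `n`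
factors, `∏ (1 + z) ≤ exp (∑ z) ≤ 1 + ∑ z + (∑ z)² ≤ 1 + ∑ (z + n z²) ≤ 1 + ∑ r ((τ - 1) + n (τ - 1)²)` (as `∑ z ≤ 1`; `exp y ≤ 1 + y + y²` for `y ≤ 1`).  By `sum_wt_sum_low`,
`Z' / Z ≤ 1 + ∑ e, π e ((τ e - 1) + n (τ e - 1)²)`; up edges contribute at most `2 b U` each, down edges at most `0`, so `Z' / Z ≤ 1 + n² b U ≤ 1 + U / 4`.
Numerator: `π' e * Z' / Z ≥ π e * τ e * (1 - d) ^ n ≥ π e * τ e * (1 - n d)`.  For an up edge `(1 + U) (1 - U / 4) ≥ 1 + U / 4`; otherwise `π e ≥ b / 2` and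
`(1 - d) (1 - n d) / (1 + U / 4) ≥ 1 / 2`.  Potential: `log (Z' / Z) ≤ Z' / Z - 1`; an up edge contributes
`b (U + n U²) - 2 b log (1 + U) ≤ b (U + n U² - 2 U + 2 U²) ≤ 0`, a down edge
`- 3 b d (1 - n d) - 2 b log (1 - d) ≤ - 3 b d (1 - n d) + 2 b (d + 2 d²) ≤ - b d / 2`. -/
theorem learn_step [Nonempty (PM n)] (hg : Gr g) (ho : Pos om) (hτ : ∀ u v, τ u v = τ v u)
    (hτ0 : ∀ u v, 0 < τ u v) (hb : 0 < b) (hnb : 4 * (n : ℝ) ^ 2 * b ≤ 1) (hU : 0 < U)
    (hnU : (n + 2) * U ≤ 1) (hd : 0 < d) (hdU : 4 * (n + 1) * d ≤ U)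
    (h0 : ∀ u v, u ≠ v → b / 4 ≤ vm g om u v)
    (h : ∀ u v, u ≠ v → (τ u v = 1 + U ∧ vm g om u v ≤ b) ∨ (τ u v = 1 - d ∧ 3 * b ≤ vm g om u v) ∨
      (τ u v = 1 ∧ b / 2 ≤ vm g om u v)) :
    (∀ u v, u ≠ v → b / 4 ≤ vm g (fun u v => om u v * τ u v) u v) ∧
      ((∃ u v, u ≠ v ∧ τ u v = 1 - d) →
        Phi g (fun u v => om u v * τ u v) b ≤ Phi g om b - b * d / 2) := by
  have hn0 : (0 : ℝ) ≤ n := Nat.cast_nonneg n
  have hU2 : U ≤ 1 / 2 := by nlinarith
  have hnU1 : n * U ≤ 1 := by nlinarith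
  have hnd : n * d ≤ U / 4 := by nlinarith
  have hdU' : d ≤ U / 4 := by nlinarith
  have ho' : Pos fun u v => om u v * τ u v :=
    ⟨fun u v => mul_pos (ho.pos u v) (hτ0 u v), fun u v => by rw [ho.symm, hτ]⟩
  have hl := hg.pos_add ho
  have hl' := hg.pos_add ho'
  have hZ := hl.Zf_pos
  have hZ' := hl'.Zf_pos
  set r : Fin n → Fin n → ℝ := fun u v => om u v / (g u v + om u v) with hr
  have hg0 : ∀ u v, 0 ≤ g u v := fun u v => by rcases hg.zo u v with h | h <;> rw [h]; norm_num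
  have hlp : ∀ u v, 0 < g u v + om u v := hl.pos
  have hr0 : ∀ u v, 0 < r u v := fun u v => div_pos (ho.pos u v) (hlp u v)
  have hr1 : ∀ u v, r u v ≤ 1 := fun u v => (div_le_one (hlp u v)).2 (by linarith [hg0 u v])
  have hfac : ∀ u v, (g + fun u v => om u v * τ u v) u v =
      (g + om) u v * (1 + r u v * (τ u v - 1)) := fun u v => by
    have := (hlp u v).ne'
    simp only [Pi.add_apply, hr]
    field_simp
    ring
  have hτb : ∀ u v, u ≠ v → -d ≤ τ u v - 1 ∧ τ u v - 1 ≤ U := fun u v huv => by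
    rcases h u v huv with ⟨h1, -⟩ | ⟨h1, -⟩ | ⟨h1, -⟩ <;> rw [h1] <;> constructor <;> linarith
  have hzb : ∀ u v, u ≠ v → -d ≤ r u v * (τ u v - 1) ∧ r u v * (τ u v - 1) ≤ U := fun u v huv => by
    obtain ⟨h1, h2⟩ := hτb u v huv
    have := hr0 u v
    have := hr1 u v
    constructor <;> nlinarith
  set P := univ.filter (fun q : Fin n × Fin n => q.1 < q.2) with hP
  set c : Fin n × Fin n → ℝ := fun q =>
    vm g om q.1 q.2 * ((τ q.1 q.2 - 1) + n * (τ q.1 q.2 - 1) ^ 2) with hc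
  have hvm : ∀ u v, vm g om u v * Zf (g + om) = Ze (g + om) u v * r u v := fun u v => by
    rw [vm, div_mul_cancel₀ _ hZ.ne']
  have hup : Zf (g + fun u v => om u v * τ u v) ≤ Zf (g + om) * (1 + ∑ q ∈ P, c q) := by
    have h1 : ∀ S ∈ (univ : Finset (PM n)), wt (g + fun u v => om u v * τ u v) S ≤ wt (g + om) S +
        wt (g + om) S * ∑ v ∈ univ.filter (fun v => v < S v),
          r v (S v) * ((τ v (S v) - 1) + n * (τ v (S v) - 1) ^ 2) := by
      intro S _
      rw [learnStep_wt hfac, ← mul_one_add]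
      refine mul_le_mul_of_nonneg_left ?_ (hl.wt_pos S).le
      refine (learnStep_prod_le _ (fun v => r v (S v) * (τ v (S v) - 1)) (learnStep_card S) hU.le
        (by linarith) hnU1 fun v _ => ?_).trans ?_
      · obtain ⟨h1, h2⟩ := hzb v (S v) (S.ne v).symm
        exact abs_le.2 ⟨by linarith, h2⟩
      · refine add_le_add_right (sum_le_sum fun v _ => ?_) _
        have h2 := hr0 v (S v)
        have h3 := hr1 v (S v)
        have h4 : 0 ≤ n * (τ v (S v) - 1) ^ 2 * (r v (S v) * (1 - r v (S v))) :=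
          mul_nonneg (by positivity) (mul_nonneg h2.le (by linarith))
        nlinarith
    have h2 := sum_le_sum h1
    rw [sum_add_distrib, sum_wt_sum_low (g + om)
      fun u v => r u v * ((τ u v - 1) + n * (τ u v - 1) ^ 2)] at h2
    refine h2.trans (le_of_eq ?_)
    rw [mul_add, mul_one, mul_sum]
    refine congrArg₂ _ rfl (sum_congr rfl fun q _ => ?_)
    rw [hc]
    linear_combination (-((τ q.1 q.2 - 1) + n * (τ q.1 q.2 - 1) ^ 2)) * hvm q.1 q.2
  have hne : ∀ q ∈ P, q.1 ≠ q.2 := fun q hq => (mem_filter.1 hq).2.ne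
  have hA : ∑ q ∈ P, c q ≤ U / 2 := by
    have h1 : ∀ q ∈ P, c q ≤ 2 * b * U := by
      intro q hq
      have hp := h0 _ _ (hne q hq)
      have hbU := mul_pos hb hU
      simp only [hc]
      rcases h _ _ (hne q hq) with ⟨h1, h2⟩ | ⟨h1, h2⟩ | ⟨h1, h2⟩ <;> rw [h1]
      · have h3 : 1 + U - 1 + n * (1 + U - 1) ^ 2 ≤ 2 * U := by nlinarith
        have h4 : 0 ≤ 1 + U - 1 + n * (1 + U - 1) ^ 2 := by nlinarith
        nlinarith
      · have h3 : 1 - d - 1 + n * (1 - d - 1) ^ 2 ≤ 0 := by nlinarith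
        nlinarith
      · nlinarith
    have h2 := sum_le_card_nsmul _ _ _ h1
    have h3 : (P.card : ℝ) ≤ n ^ 2 := by
      have := card_le_univ P
      rw [Fintype.card_prod, Fintype.card_fin] at this
      rw [sq]
      exact_mod_cast this
    rw [nsmul_eq_mul] at h2
    have h4 := mul_le_mul_of_nonneg_right h3 (show 0 ≤ 2 * b * U by positivity)
    nlinarith
  constructor
  · intro u v huv
    have hz : 0 < 1 + r u v * (τ u v - 1) := by linarith [(hzb u v huv).1]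
    have h1 : Ze (g + om) u v * ((1 + r u v * (τ u v - 1)) * (1 - n * d)) ≤
        Ze (g + fun u v => om u v * τ u v) u v := by
      rw [Ze, Ze, sum_mul]
      refine sum_le_sum fun S hS => ?_
      have hS' : S u = v := (mem_filter.1 hS).2
      rw [learnStep_wt hfac]
      refine mul_le_mul_of_nonneg_left ?_ (hl.wt_pos S).le
      obtain ⟨w, hw, e⟩ : ∃ w ∈ univ.filter (fun v => v < S v),
          r w (S w) * (τ w (S w) - 1) = r u v * (τ u v - 1) := by
        rcases lt_or_gt_of_ne huv with h' | h'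
        · exact ⟨u, mem_filter.2 ⟨mem_univ _, by rwa [hS']⟩, by rw [hS']⟩
        · have hS'' : S v = u := S.eq_iff.1 hS'
          exact ⟨v, mem_filter.2 ⟨mem_univ _, by rwa [hS'']⟩, by
            rw [hS'', hτ v u]; simp only [hr]; rw [hg.symm v u, ho.symm v u]⟩
      rw [← mul_prod_erase _ _ hw, e]
      refine mul_le_mul_of_nonneg_left ?_ hz.le
      refine learnStep_le_prod _ (fun v => r v (S v) * (τ v (S v) - 1)) ?_ hd.le (by linarith)
        fun x _ => (hzb x (S x) (S.ne x).symm).1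
      refine le_trans ?_ (learnStep_card S)
      exact_mod_cast card_erase_le
    have h2 : om u v * τ u v / (g u v + om u v * τ u v) =
        r u v * τ u v / (1 + r u v * (τ u v - 1)) := by
      have h3 := hfac u v
      simp only [Pi.add_apply] at h3
      rw [h3, hr]
      have := (hlp u v).ne'
      field_simp
    rw [vm, le_div_iff₀ hZ', h2]
    have h3 := mul_le_mul_of_nonneg_right h1
      (div_pos (mul_pos (hr0 u v) (hτ0 u v)) hz).le
    refine le_trans ?_ h3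
    have h4 : Ze (g + om) u v * ((1 + r u v * (τ u v - 1)) * (1 - n * d)) *
        (r u v * τ u v / (1 + r u v * (τ u v - 1))) =
        Zf (g + om) * (vm g om u v * (τ u v * (1 - n * d))) := by
      have := hvm u v
      field_simp
      linear_combination (-(1 - n * d) * τ u v) * this
    rw [h4]
    have h5 : b / 4 * (1 + U / 2) ≤ vm g om u v * (τ u v * (1 - n * d)) := by
      have hp := h0 u v huv
      have hnd0 : 0 ≤ n * d := by positivity
      rcases h u v huv with ⟨h6, h7⟩ | ⟨h6, h7⟩ | ⟨h6, h7⟩ <;> rw [h6]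
      · exact mul_le_mul hp (by nlinarith) (by linarith) (by linarith)
      · have h8 : (1 + U / 2) / 2 ≤ (1 - d) * (1 - n * d) := by nlinarith
        nlinarith
      · have h8 : (1 + U / 2) / 2 ≤ 1 * (1 - n * d) := by nlinarith
        nlinarith
    calc b / 4 * Zf (g + fun u v => om u v * τ u v)
        ≤ b / 4 * (Zf (g + om) * (1 + U / 2)) :=
          mul_le_mul_of_nonneg_left (hup.trans (mul_le_mul_of_nonneg_left (by linarith) hZ.le))
            (by linarith)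
      _ = Zf (g + om) * (b / 4 * (1 + U / 2)) := by ring
      _ ≤ _ := mul_le_mul_of_nonneg_left h5 hZ.le
  · rintro ⟨u, v, huv, hd'⟩
    have hdown : ∀ q ∈ P, τ q.1 q.2 = 1 - d →
        c q - 2 * b * Real.log (τ q.1 q.2) ≤ -(b * d / 2) := by
      intro q hq e
      rcases h _ _ (hne q hq) with ⟨h1, -⟩ | ⟨-, h2⟩ | ⟨h1, -⟩
      · linarith
      · simp only [hc]
        rw [e, show 1 - d - 1 = -d by ring]
        exact learnStep_down hb hn0 hd (by linarith) h2
      · linarith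
    have hall : ∀ q ∈ P, c q - 2 * b * Real.log (τ q.1 q.2) ≤ 0 := by
      intro q hq
      rcases h _ _ (hne q hq) with ⟨h1, h2⟩ | ⟨h1, -⟩ | ⟨h1, -⟩
      · simp only [hc]
        rw [h1, show 1 + U - 1 = U by ring]
        exact learnStep_up hb hn0 hU hnU h2
      · linarith [hdown q hq h1, mul_pos hb hd]
      · simp [hc, h1]
    obtain ⟨q, hq, e⟩ : ∃ q ∈ P, τ q.1 q.2 = 1 - d := by
      rcases lt_or_gt_of_ne huv with h' | h'
      · exact ⟨(u, v), mem_filter.2 ⟨mem_univ _, h'⟩, hd'⟩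
      · exact ⟨(v, u), mem_filter.2 ⟨mem_univ _, h'⟩, (hτ v u).trans hd'⟩
    have h1 : ∑ q ∈ P, (c q - 2 * b * Real.log (τ q.1 q.2)) ≤ -(b * d / 2) := by
      rw [← add_sum_erase _ _ hq]
      linarith [hdown q hq e, sum_nonpos fun x hx => hall x (mem_of_mem_erase (a := q) hx)]
    rw [sum_sub_distrib, ← mul_sum] at h1
    have h2 := Real.log_le_sub_one_of_pos (div_pos hZ' hZ)
    rw [Real.log_div hZ'.ne' hZ.ne'] at h2
    have h3 : Zf (g + fun u v => om u v * τ u v) / Zf (g + om) ≤ 1 + ∑ q ∈ P, c q := by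
      rw [div_le_iff₀ hZ, mul_comm]; exact hup
    have h4 : ∑ q ∈ P, Real.log (om q.1 q.2 * τ q.1 q.2) =
        ∑ q ∈ P, Real.log (om q.1 q.2) + ∑ q ∈ P, Real.log (τ q.1 q.2) := by
      rw [← sum_add_distrib]
      exact sum_congr rfl fun q _ => Real.log_mul (ho.pos _ _).ne' (hτ0 _ _).ne'
    unfold Phi
    rw [← hP, h4]
    linarith

end Crest.Agent.R304
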