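import Crest.Agent.R304.Move

/-! Row 304: shifting along a list given by a function. -/

set_option autoImplicit false

namespace Crest.Agent.R304

open Finset

variable {n : ℕ} {lam : Fin n → Fin n → ℝ} {f : PM n → ℝ} {S Y : PM n} {p : ℕ → Fin n} {m : ℕ}

/-- injectivity on `[1, m]` -/
def Inj (p : ℕ → Fin n) (m : ℕ) : Prop := ∀ i j, 1 ≤ i → i ≤ m → 1 ≤ j → j ≤ m → p i = p j → i = j

theorem length_lst {α : Type} (p : ℕ → α) (m : ℕ) : (lst p m).length = m := by
  simp [lst]

theorem lst_getElem {α : Type} (p : ℕ → α) (m : ℕ) {i : ℕ} (hi : i < (lst p m).length) :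
    (lst p m)[i] = p (i + 1) := by
  simp [lst]

theorem lst_getElem? {α : Type} (p : ℕ → α) (m i : ℕ) {a : α} :
    (lst p m)[i]? = some a ↔ i < m ∧ p (i + 1) = a := by
  rw [List.getElem?_eq_some_iff]
  constructor
  · rintro ⟨h, rfl⟩
    exact ⟨by rwa [length_lst] at h, (lst_getElem p m h).symm⟩
  · rintro ⟨h, rfl⟩
    exact ⟨by rwa [length_lst], lst_getElem p m _⟩

theorem mem_lst {α : Type} {p : ℕ → α} {m : ℕ} {v : α} : v ∈ lst p m ↔ ∃ s, 1 ≤ s ∧ s ≤ m ∧ p s = v := by
  simp only [lst, List.mem_map, List.mem_range]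
  constructor
  · rintro ⟨s, hs, rfl⟩
    exact ⟨s + 1, by omega, by omega, rfl⟩
  · rintro ⟨s, h1, h2, rfl⟩
    exact ⟨s - 1, by omega, by rw [Nat.sub_add_cancel h1]⟩

theorem lst_congr {α : Type} {p q : ℕ → α} {m : ℕ} (h : ∀ s, 1 ≤ s → s ≤ m → p s = q s) :
    lst p m = lst q m := by
  unfold lst
  refine List.map_congr_left fun s hs => ?_
  rw [List.mem_range] at hs
  exact h _ (by omega) (by omega)

theorem lst_rev {α : Type} (p : ℕ → α) (m : ℕ) : lst (fun s => p (m + 1 - s)) m = (lst p m).reverse := by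
  refine List.ext_getElem (by simp [length_lst]) fun i h1 h2 => ?_
  rw [List.getElem_reverse, lst_getElem, lst_getElem]
  rw [length_lst] at h1
  simp only [length_lst]
  congr 1
  omega

theorem nodup_lst : (lst p m).Nodup ↔ Inj p m := by
  unfold lst
  rw [List.nodup_map_iff_inj_on List.nodup_range]
  simp only [List.mem_range]
  constructor
  · intro h i j hi1 hi2 hj1 hj2 e
    have := h (i - 1) (by omega) (j - 1) (by omega)
      (by rw [Nat.sub_add_cancel hi1, Nat.sub_add_cancel hj1]; exact e)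
    omega
  · intro h i hi j hj e
    have := h (i + 1) (j + 1) (by omega) (by omega) (by omega) (by omega) e
    omega

theorem Inj.le (h : Inj p m) : m ≤ n := by
  have := (nodup_lst.2 h).length_le_card
  rwa [length_lst, Fintype.card_fin] at this

theorem Inj.rv_lst (h : Inj p m) {s : ℕ} (h1 : 1 ≤ s) (h2 : s ≤ m) : rv (lst p m) (p s) = p (m + 1 - s) := by
  have hi : s - 1 < (lst p m).length := by rw [length_lst]; omega
  have := rv_getElem (nodup_lst.2 h) hi
  rw [lst_getElem, lst_getElem, Nat.sub_add_cancel h1] at this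
  rw [this, length_lst]
  congr 1
  omega

theorem pre_lst : Pre (lst p m) S ↔ ∀ s, 2 ≤ s → s < m → s % 2 = 0 → S (p s) = p (s + 1) := by
  constructor
  · intro h s h1 h2 h3
    refine h (s - 1) _ _ (by omega) ((lst_getElem? p m _).2 ⟨by omega, ?_⟩)
      ((lst_getElem? p m _).2 ⟨by omega, ?_⟩)
    · congr 1; omega
    · congr 1; omega
  · intro h i a b hi ha hb
    obtain ⟨-, rfl⟩ := (lst_getElem? p m _).1 ha
    obtain ⟨h2, rfl⟩ := (lst_getElem? p m _).1 hb
    exact h (i + 1) (by omega) h2 (by omega)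

theorem lst_partner (ho : m % 2 = 1) (hS : Pre (lst p m) S) {s : ℕ} (h1 : 1 ≤ s) (h2 : s ≤ m) :
    s = 1 ∨ ∃ t, 2 ≤ t ∧ t ≤ m ∧ S (p s) = p t := by
  rw [pre_lst] at hS
  by_cases hs : s = 1
  · exact Or.inl hs
  refine Or.inr ?_
  rcases Nat.mod_two_eq_zero_or_one s with he | he
  · exact ⟨s + 1, by omega, by omega, hS s (by omega) (by omega) he⟩
  · refine ⟨s - 1, by omega, by omega, S.eq_iff.1 ?_⟩
    rw [hS (s - 1) (by omega) (by omega) (by omega), Nat.sub_add_cancel h1]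

/-- the partner of `p 1` is outside the list -/
theorem Inj.out (h : Inj p m) (ho : m % 2 = 1) (hS : Pre (lst p m) S) {s : ℕ} (h1 : 1 ≤ s) (h2 : s ≤ m) :
    S (p 1) ≠ p s := by
  intro e
  rcases lst_partner ho hS h1 h2 with rfl | ⟨t, ht1, ht2, ht⟩
  · exact S.ne _ e
  · rw [S.eq_iff.1 e] at ht
    have := h 1 t le_rfl (by omega) (by omega) ht2 ht
    omega

theorem Inj.shift_inner (h : Inj p m) (ho : m % 2 = 1) (hS : Pre (lst p m) S) {s : ℕ} (h1 : s % 2 = 1)
    (h2 : s < m) : shift (lst p m) S (p s) = p (s + 1) := by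
  rw [shift_apply (nodup_lst.2 h), h.rv_lst (by omega) h2.le]
  have h3 := pre_lst.1 hS (m - s) (by omega) (by omega) (by omega)
  have e : m + 1 - s = m - s + 1 := by omega
  rw [e, S.eq_iff.1 h3, h.rv_lst (by omega) (by omega)]
  congr 1
  omega

theorem Inj.shift_last (h : Inj p m) (ho : m % 2 = 1) (hS : Pre (lst p m) S) :
    shift (lst p m) S (p m) = S (p 1) := by
  rw [shift_apply (nodup_lst.2 h), h.rv_lst (by omega) le_rfl, Nat.add_sub_cancel_left,
    rv_of_not_mem]
  rw [mem_lst]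
  rintro ⟨s, h1, h2, e⟩
  exact h.out ho hS h1 h2 e.symm

theorem Inj.shift_other (h : Inj p m) (ho : m % 2 = 1) (hS : Pre (lst p m) S) {v : Fin n}
    (h1 : v ≠ S (p 1)) (h2 : ∀ s, 1 ≤ s → s ≤ m → p s ≠ v) : shift (lst p m) S v = S v := by
  have hv : v ∉ lst p m := by
    rw [mem_lst]
    rintro ⟨s, a, b, e⟩
    exact h2 s a b e
  rw [shift_apply (nodup_lst.2 h), rv_of_not_mem hv, rv_of_not_mem]
  rw [mem_lst]
  rintro ⟨s, a, b, e⟩
  have e' : S (p s) = v := S.eq_iff.1 e.symm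
  rcases lst_partner ho hS a b with rfl | ⟨t, ht1, ht2, ht⟩
  · exact h1 e'.symm
  · exact h2 t (by omega) ht2 (ht.symm.trans e')

theorem lst_prod_two (F : ℕ → ℝ) (k : ℕ) :
    ∏ s ∈ range (2 * k), F s = ∏ i ∈ range k, F (2 * i) * F (2 * i + 1) := by
  induction k with
  | zero => simp
  | succ k ih =>
    rw [show 2 * (k + 1) = 2 * k + 1 + 1 by ring, prod_range_succ, prod_range_succ, ih,
      prod_range_succ, mul_assoc]

/-- compare the squares (`wt_sq`), or use induction on `m` in steps of two with `wt_shift_pair` -/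
theorem Inj.wt_shift (hl : Pos lam) (h : Inj p m) (ho : m % 2 = 1) (hS : Pre (lst p m) S) :
    wt lam (shift (lst p m) S) *
        (lam (S (p 1)) (p 1) * ∏ i ∈ range (m / 2), lam (p (2 * i + 2)) (p (2 * i + 3))) =
      wt lam S * (lam (S (p 1)) (p m) * ∏ i ∈ range (m / 2), lam (p (2 * i + 1)) (p (2 * i + 2))) := by
  obtain ⟨k, rfl⟩ : ∃ k, m = 2 * k + 1 := ⟨m / 2, by omega⟩
  have hk : (2 * k + 1) / 2 = k := by omega
  rw [hk]
  set S' := shift (lst p (2 * k + 1)) S with hS'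
  set a := S (p 1) with ha
  set A : Finset (Fin n) := insert a ((range (2 * k + 1)).image fun s => p (s + 1)) with hA
  have hprod : ∀ F : Fin n → ℝ,
      ∏ v ∈ A, F v = F a * ∏ s ∈ range (2 * k + 1), F (p (s + 1)) := by
    intro F
    rw [hA, prod_insert, prod_image]
    · intro i hi j hj e
      rw [coe_range, Set.mem_Iio] at hi hj
      have := h (i + 1) (j + 1) (by omega) (by omega) (by omega) (by omega) e
      omega
    · rw [mem_image]
      rintro ⟨s, hs, e⟩
      rw [mem_range] at hs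
      exact h.out ho hS (by omega) (by omega) e.symm
  have hout : ∏ v ∈ Aᶜ, lam v (S' v) = ∏ v ∈ Aᶜ, lam v (S v) := by
    refine prod_congr rfl fun v hv => ?_
    rw [mem_compl, hA, mem_insert, mem_image, not_or] at hv
    rw [hS', h.shift_other ho hS hv.1]
    intro s h1 h2 e
    exact hv.2 ⟨s - 1, mem_range.2 (by omega), by rw [Nat.sub_add_cancel h1]; exact e⟩
  have hlast : S' (p (2 * k + 1)) = a := h.shift_last ho hS
  have h1 : ∏ v ∈ A, lam v (S' v) =
      (lam a (p (2 * k + 1)) * ∏ i ∈ range k, lam (p (2 * i + 1)) (p (2 * i + 2))) ^ 2 := by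
    rw [hprod, prod_range_succ, lst_prod_two, hlast, S'.eq_iff.1 hlast, hl.symm (p (2 * k + 1)) a,
      mul_pow, ← prod_pow]
    have : ∀ i ∈ range k, lam (p (2 * i + 1)) (S' (p (2 * i + 1))) *
        lam (p (2 * i + 1 + 1)) (S' (p (2 * i + 1 + 1))) =
        lam (p (2 * i + 1)) (p (2 * i + 2)) ^ 2 := by
      intro i hi
      rw [mem_range] at hi
      have e : S' (p (2 * i + 1)) = p (2 * i + 1 + 1) :=
        h.shift_inner ho hS (by omega) (by omega)
      rw [e, S'.eq_iff.1 e, hl.symm (p (2 * i + 1 + 1)), sq]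
    rw [prod_congr rfl this]
    ring
  have h2 : ∏ v ∈ A, lam v (S v) =
      (lam a (p 1) * ∏ i ∈ range k, lam (p (2 * i + 2)) (p (2 * i + 3))) ^ 2 := by
    rw [hprod, prod_range_succ', lst_prod_two, zero_add, ← ha, ha, S.inv, ← ha, hl.symm (p 1) a,
      mul_pow, ← prod_pow]
    have : ∀ i ∈ range k, lam (p (2 * i + 1 + 1)) (S (p (2 * i + 1 + 1))) *
        lam (p (2 * i + 1 + 1 + 1)) (S (p (2 * i + 1 + 1 + 1))) =
        lam (p (2 * i + 2)) (p (2 * i + 3)) ^ 2 := by
      intro i hi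
      rw [mem_range] at hi
      have e : S (p (2 * i + 1 + 1)) = p (2 * i + 1 + 1 + 1) :=
        pre_lst.1 hS _ (by omega) (by omega) (by omega)
      rw [e, S.eq_iff.1 e, hl.symm (p (2 * i + 1 + 1 + 1)), sq]
    rw [prod_congr rfl this]
    ring
  have hp1 : 0 < lam a (p 1) * ∏ i ∈ range k, lam (p (2 * i + 2)) (p (2 * i + 3)) :=
    mul_pos (hl.pos _ _) (prod_pos fun _ _ => hl.pos _ _)
  have hp2 : 0 < lam a (p (2 * k + 1)) * ∏ i ∈ range k, lam (p (2 * i + 1)) (p (2 * i + 2)) :=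
    mul_pos (hl.pos _ _) (prod_pos fun _ _ => hl.pos _ _)
  refine (pow_left_inj₀ (mul_pos (hl.wt_pos _) hp1).le (mul_pos (hl.wt_pos _) hp2).le
    two_ne_zero).1 ?_
  rw [mul_pow (wt lam S'), mul_pow (wt lam S), wt_sq hl.symm, wt_sq hl.symm, ← h1, ← h2,
    ← prod_mul_prod_compl A (fun v => lam v (S' v)), ← prod_mul_prod_compl A (fun v => lam v (S v)),
    hout]
  ring

end Crest.Agent.R304
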