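import Crest.Agent.R304.Defs

/-! Row 304: basic facts on weights, moves and runs. -/

set_option autoImplicit false

namespace Crest.Agent.R304

open Finset

variable {n : ℕ} {lam : Fin n → Fin n → ℝ} {f : PM n → ℝ} {S Y : PM n} {p : ℕ → Fin n} {m : ℕ}

theorem Pos.wt_pos (h : Pos lam) (S : PM n) : 0 < wt lam S :=
  Finset.prod_pos fun v _ => h.pos v (S v)

/-- a product over all vertices is a product over the edges of a matching -/
theorem move_prod_split {R : Type} [CommMonoid R] (S : PM n) (F : Fin n → R) :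
    ∏ v, F v = ∏ v ∈ univ.filter (fun v => v < S v), (F v * F (S v)) := by
  rw [← Finset.prod_filter_mul_prod_filter_not univ (fun v => v < S v), Finset.prod_mul_distrib]
  congr 1
  refine Finset.prod_nbij' (fun v => S v) (fun v => S v) ?_ ?_ ?_ ?_ ?_
  · intro v hv
    simp only [mem_filter, mem_univ, true_and, not_lt] at hv ⊢
    rw [S.inv]
    exact lt_of_le_of_ne hv (S.ne v)
  · intro v hv
    simp only [mem_filter, mem_univ, true_and, not_lt] at hv ⊢
    rw [S.inv]
    exact hv.le
  · intro v _
    exact S.inv v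
  · intro v _
    exact S.inv v
  · intro v _
    rw [S.inv]

/-- `v ↦ S v` exchanges `{v < S v}` and `{S v < v}` -/
theorem wt_sq (h : ∀ u v, lam u v = lam v u) (S : PM n) : wt lam S ^ 2 = ∏ v, lam v (S v) := by
  rw [move_prod_split S, wt, ← Finset.prod_pow]
  refine Finset.prod_congr rfl fun v _ => ?_
  rw [S.inv, h (S v) v, sq]

theorem card_low (S : PM n) : 2 * (univ.filter fun v => v < S v).card = n := by
  have h := move_prod_split S (fun _ => (2 : ℕ))
  rw [Finset.prod_const, Finset.prod_const, Finset.card_univ, Fintype.card_fin, ← sq, ← pow_mul] at h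
  exact (Nat.pow_right_injective (le_refl 2) h).symm

theorem wt_scale (lam : Fin n → Fin n → ℝ) (ψ : Fin n → ℝ) (S : PM n) :
    wt (fun u v => lam u v * ψ u * ψ v) S = wt lam S * ∏ v, ψ v := by
  rw [move_prod_split S ψ, wt, wt, ← Finset.prod_mul_distrib]
  refine Finset.prod_congr rfl fun v _ => ?_
  ring

theorem wt_const_mul (lam : Fin n → Fin n → ℝ) (c : ℝ) (S : PM n) :
    wt (fun u v => c * lam u v) S = c ^ (n / 2) * wt lam S := by
  have h := card_low S
  have h2 : n / 2 = (univ.filter fun v => v < S v).card := by omega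
  rw [wt, wt, Finset.prod_mul_distrib, Finset.prod_const, h2]

theorem wt_cast (lam : Fin n → Fin n → ℕ) (S : PM n) :
    ((wt lam S : ℕ) : ℝ) = wt (fun u v => (lam u v : ℝ)) S := by
  rw [wt, wt, Nat.cast_prod]

/-- sums over the edges of the matchings are sums over pairs -/
theorem sum_wt_sum_low (lam z : Fin n → Fin n → ℝ) :
    ∑ S : PM n, wt lam S * ∑ v ∈ univ.filter (fun v => v < S v), z v (S v) =
      ∑ q ∈ univ.filter (fun q : Fin n × Fin n => q.1 < q.2), z q.1 q.2 * Ze lam q.1 q.2 := by
  simp only [Ze, Finset.mul_sum, Finset.sum_filter, Fintype.sum_prod_type]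
  rw [Finset.sum_comm]
  refine Finset.sum_congr rfl fun u _ => ?_
  have h1 : ∀ v : Fin n, (if u < v then ∑ S : PM n, z u v * (if S u = v then wt lam S else 0) else 0) =
      ∑ S : PM n, if S u = v then (if u < v then z u v * wt lam S else 0) else 0 := by
    intro v
    by_cases huv : u < v
    · simp only [huv, if_true]
      refine Finset.sum_congr rfl fun S _ => ?_
      split_ifs <;> simp
    · simp [huv]
  rw [Finset.sum_congr rfl fun v _ => h1 v, Finset.sum_comm]
  refine Finset.sum_congr rfl fun S _ => ?_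
  rw [Finset.sum_ite_eq]
  simp only [mem_univ, if_true]
  split_ifs
  · ring
  · simp

theorem rv_reverse {α : Type} [DecidableEq α] {g : List α} (h : g.Nodup) : rv g.reverse = rv g := by
  funext v
  by_cases hv : v ∈ g
  · obtain ⟨i, hi, rfl⟩ := List.getElem_of_mem hv
    have h1 : g[i] = g.reverse[g.length - 1 - i]'(by simp; omega) := by
      rw [List.getElem_reverse]
      congr 1
      omega
    rw [rv_getElem h hi]
    conv_lhs => rw [h1]
    rw [rv_getElem (List.nodup_reverse.2 h), List.getElem_reverse]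
    congr 1
    simp only [List.length_reverse]
    omega
  · rw [rv_of_not_mem hv, rv_of_not_mem (by simpa using hv)]

theorem shift_reverse (g : List (Fin n)) (S : PM n) : shift g.reverse S = shift g S := by
  by_cases h : g.Nodup
  · ext v
    rw [shift_apply h, shift_apply (List.nodup_reverse.2 h), rv_reverse h]
  · rw [shift_of_not h, shift_of_not (by simpa using h)]

theorem move_length_seg {α : Type} (Y S : α → α) (x : α) (m : ℕ) : (seg Y S x m).length = m := by
  simp [seg]

theorem move_getElem_seg {α : Type} (Y S : α → α) (x : α) (m : ℕ) {i : ℕ} (hi : i < (seg Y S x m).length) :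
    (seg Y S x m)[i] = walk Y S x i := by
  simp [seg]

/-- walks are equivariant -/
theorem move_walk_shift {g : List (Fin n)} (h : g.Nodup) (Y S : PM n) (a : Fin n) (i : ℕ) :
    walk (shift g Y) (shift g S) (rv g a) i = rv g (walk Y S a i) := by
  induction i with
  | zero => rw [walk_zero, walk_zero]
  | succ i ih =>
    rw [walk_succ, walk_succ, ih]
    split_ifs
    · rw [shift_apply h, rv_rv h]
    · rw [shift_apply h, rv_rv h]

theorem move_rv_walk {α : Type} [DecidableEq α] {Y S : α → α} {a : α} {k : ℕ}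
    (h : (seg Y S a (k + 1)).Nodup) {i : ℕ} (hi : i ≤ k) :
    rv (seg Y S a (k + 1)) (walk Y S a i) = walk Y S a (k - i) := by
  have h1 : i < (seg Y S a (k + 1)).length := by rw [move_length_seg]; omega
  rw [← move_getElem_seg Y S a (k + 1) h1, rv_getElem h h1, move_getElem_seg, move_length_seg]
  congr 1

theorem move_walk_shift_seg {Y S : PM n} {a : Fin n} {k : ℕ} (h : (seg Y S a (k + 1)).Nodup) {i : ℕ}
    (hi : i ≤ k) :
    walk (shift (seg Y S a (k + 1)) Y) (shift (seg Y S a (k + 1)) S) (walk Y S a k) i =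
      walk Y S a (k - i) := by
  have h0 : walk Y S a k = rv (seg Y S a (k + 1)) a := by
    have := move_rv_walk h (Nat.zero_le k)
    rw [walk_zero] at this
    rw [this, Nat.sub_zero]
  rw [h0, move_walk_shift h, move_rv_walk h hi]

/-- the segment of the reverse move is the reversed segment -/
theorem move_seg_shift {Y S : PM n} {a : Fin n} {k : ℕ} (h : (seg Y S a (k + 1)).Nodup) :
    seg (shift (seg Y S a (k + 1)) Y) (shift (seg Y S a (k + 1)) S) (walk Y S a k) (k + 1) =
      (seg Y S a (k + 1)).reverse := by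
  refine List.ext_getElem (by simp [move_length_seg]) fun i h1 h2 => ?_
  have hi : i ≤ k := by
    rw [move_length_seg] at h1
    omega
  rw [move_getElem_seg, move_walk_shift_seg h hi, List.getElem_reverse, move_getElem_seg,
    move_length_seg]
  congr 1

theorem move_mv_three (x : PM n × PM n) (a k : Fin n) :
    mv x (3, a, k) =
      (shift (seg x.2 x.1 a (k + 1)) x.1, shift (seg x.2 x.1 a (k + 1)) x.2) := by
  simp [mv]

theorem move_rl_three_pos (x : PM n × PM n) (a k : Fin n) (h : (seg x.2 x.1 a (k + 1)).Nodup) :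
    rl x (3, a, k) = (3, walk x.2 x.1 a k, k) := by
  simp [rl, h]

theorem move_rl_three_neg (x : PM n × PM n) (a k : Fin n) (h : ¬ (seg x.2 x.1 a (k + 1)).Nodup) :
    rl x (3, a, k) = (3, a, k) := by
  simp [rl, h]

theorem move_rl_of_ne (x : PM n × PM n) {l : Lab n} (h : l.1 ≠ 3) : rl x l = l := by
  simp [rl, h]

/-- walks are equivariant: `walk (σ Y σ) (σ S σ) (σ x) i = σ (walk Y S x i)` for `σ = rv g`, so the segment of the
reverse move is `g.map σ = g.reverse` -/
theorem mv_rl (x : PM n × PM n) (l : Lab n) : mv (mv x l) (rl x l) = x := by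
  obtain ⟨c, a, k⟩ := l
  by_cases hc : c = 3
  · subst hc
    by_cases h : (seg x.2 x.1 a (k + 1)).Nodup
    · rw [move_rl_three_pos x a k h, move_mv_three x, move_mv_three]
      simp only [move_seg_shift h, shift_reverse, shift_shift]
    · rw [move_rl_three_neg x a k h]
      have h1 : mv x (3, a, k) = x := by
        rw [move_mv_three, shift_of_not h, shift_of_not h]
      rw [h1, h1]
  · rw [move_rl_of_ne x hc]
    have h3 : c = 0 ∨ c = 1 ∨ c = 2 := by
      revert hc c
      decide
    rcases h3 with rfl | rfl | rfl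
    · simp [mv]
    · simp [mv, shift_shift]
    · simp [mv, shift_shift]

theorem rl_rl (x : PM n × PM n) (l : Lab n) : rl (mv x l) (rl x l) = l := by
  obtain ⟨c, a, k⟩ := l
  by_cases hc : c = 3
  · subst hc
    by_cases h : (seg x.2 x.1 a (k + 1)).Nodup
    · rw [move_rl_three_pos x a k h, move_mv_three x, move_rl_three_pos]
      · simp only [move_walk_shift_seg h (le_refl _), Nat.sub_self, walk_zero]
      · simp only [move_seg_shift h]
        exact List.nodup_reverse.2 h
    · rw [move_rl_three_neg x a k h]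
      have h1 : mv x (3, a, k) = x := by
        rw [move_mv_three, shift_of_not h, shift_of_not h]
      rw [h1, move_rl_three_neg x a k h]
  · rw [move_rl_of_ne x hc, move_rl_of_ne _ hc]

theorem rl_fst (x : PM n × PM n) (l : Lab n) : (rl x l).1 = l.1 := by
  unfold rl
  split_ifs with h
  · exact h.1.symm
  · rfl

theorem sum_mv (F : PM n × PM n → Lab n → ℝ) :
    ∑ x, ∑ l, F (mv x l) (rl x l) = ∑ x, ∑ l, F x l := by
  have hinv : Function.Involutive
      (fun q : (PM n × PM n) × Lab n => ((mv q.1 q.2, rl q.1 q.2) : (PM n × PM n) × Lab n)) := by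
    intro q
    simp only [mv_rl, rl_rl]
  rw [← Fintype.sum_prod_type', ← Fintype.sum_prod_type']
  exact Equiv.sum_comp hinv.toPerm (fun q => F q.1 q.2)

theorem move_rv_pair {α : Type} [DecidableEq α] {a b : α} (h : a ≠ b) (v : α) :
    rv [a, b] v = Equiv.swap a b v := by
  have hn : [a, b].Nodup := by simp [h]
  by_cases ha : v = a
  · subst ha
    have := rv_getElem hn (i := 0) (by simp)
    simpa using this
  · by_cases hb : v = b
    · subst hb
      have := rv_getElem hn (i := 1) (by simp)
      simpa using this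
    · rw [rv_of_not_mem (by simp [ha, hb]), Equiv.swap_apply_of_ne_of_ne ha hb]

theorem shift_pair_apply {a b : Fin n} (h : a ≠ b) (S : PM n) (v : Fin n) :
    shift [a, b] S v = Equiv.swap a b (S (Equiv.swap a b v)) := by
  rw [shift_apply (by simp [h]), move_rv_pair h, move_rv_pair h]

theorem shift_pair_self (a : Fin n) (S : PM n) : shift [a, a] S = S :=
  shift_of_not (by simp) S

/-- compare the squares (`wt_sq`); only the factors at `a, b, S a, S b` change -/
theorem wt_shift_pair (h : Pos lam) {a b : Fin n} (hab : a ≠ b) (hS : S a ≠ b) :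
    wt lam (shift [a, b] S) * (lam a (S a) * lam b (S b)) = wt lam S * (lam b (S a) * lam a (S b)) := by
  have h1 : S a ≠ a := S.ne a
  have h2 : S b ≠ b := S.ne b
  have h3 : S b ≠ a := fun e => hS (S.eq_iff.1 e)
  have h4 : S a ≠ S b := fun e => hab (S.inj e)
  set T := shift [a, b] S with hT
  have Ta : T a = S b := by
    rw [hT, shift_pair_apply hab, Equiv.swap_apply_left, Equiv.swap_apply_of_ne_of_ne h3 h2]
  have Tb : T b = S a := by
    rw [hT, shift_pair_apply hab, Equiv.swap_apply_right, Equiv.swap_apply_of_ne_of_ne h1 hS]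
  have TSa : T (S a) = b := T.eq_iff.1 Tb
  have TSb : T (S b) = a := T.eq_iff.1 Ta
  have Trest : ∀ v, v ∉ ({a, b, S a, S b} : Finset (Fin n)) → T v = S v := by
    intro v hv
    simp only [mem_insert, mem_singleton, not_or] at hv
    obtain ⟨g1, g2, g3, g4⟩ := hv
    rw [hT, shift_pair_apply hab, Equiv.swap_apply_of_ne_of_ne g1 g2, Equiv.swap_apply_of_ne_of_ne]
    · exact fun e => g3 (S.eq_iff.1 e).symm
    · exact fun e => g4 (S.eq_iff.1 e).symm
  have key : ∀ F : Fin n → ℝ, ∏ v, F v =
      F a * F b * F (S a) * F (S b) * ∏ v ∈ ({a, b, S a, S b} : Finset (Fin n))ᶜ, F v := by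
    intro F
    rw [← Finset.prod_mul_prod_compl ({a, b, S a, S b} : Finset (Fin n)),
      Finset.prod_insert (by simp [hab, h1.symm, h3.symm]),
      Finset.prod_insert (by simp [hS.symm, h2.symm]), Finset.prod_pair h4]
    ring
  have hrest : ∏ v ∈ ({a, b, S a, S b} : Finset (Fin n))ᶜ, lam v (T v) =
      ∏ v ∈ ({a, b, S a, S b} : Finset (Fin n))ᶜ, lam v (S v) :=
    Finset.prod_congr rfl fun v hv => by rw [Trest v (Finset.mem_compl.1 hv)]
  have e1 := wt_sq h.symm T
  have e2 := wt_sq h.symm S
  rw [key, Ta, Tb, TSa, TSb, hrest, h.symm (S a) b, h.symm (S b) a] at e1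
  rw [key, S.inv, S.inv, h.symm (S a) a, h.symm (S b) b] at e2
  have p1 : 0 ≤ wt lam T * (lam a (S a) * lam b (S b)) :=
    (mul_pos (h.wt_pos T) (mul_pos (h.pos _ _) (h.pos _ _))).le
  have p2 : 0 ≤ wt lam S * (lam b (S a) * lam a (S b)) :=
    (mul_pos (h.wt_pos S) (mul_pos (h.pos _ _) (h.pos _ _))).le
  refine (sq_eq_sq₀ p1 p2).1 ?_
  rw [mul_pow, mul_pow (wt lam S), e1, e2]
  ring

end Crest.Agent.R304
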