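import Crest.Agent.R304.Dev

/-! Row 304: splitting an odd run into an odd and an even run. -/

set_option autoImplicit false

namespace Crest.Agent.R304

open Finset

variable {n : ℕ} {lam : Fin n → Fin n → ℝ} {f : PM n → ℝ} {S Y : PM n} {p : ℕ → Fin n} {m : ℕ}

theorem nodea_ext {A B : PM n} (h : ∀ v, A v = B v ∨ ∃ u, A u = v ∧ B u = v) : A = B := by
  ext1 v
  rcases h v with h | ⟨u, h1, h2⟩
  · exact h
  · rw [A.eq_iff.1 h1, B.eq_iff.1 h2]

theorem nodea_zero (R : Run S Y p m) (hm : m % 2 = 1) {s : ℕ} (h1 : 1 ≤ s) (h2 : s ≤ m) :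
    p 0 ≠ p s := by
  have := R.toInj.out hm R.pre h1 h2
  rwa [R.fst_one] at this

theorem nodea_last (R : Run S Y p m) (hm : m % 2 = 1) {s : ℕ} (h1 : 1 ≤ s) (h2 : s ≤ m) :
    p (m + 1) ≠ p s := by
  have := nodea_zero (R.rev_odd hm) hm (s := m + 1 - s) (by omega) (by omega)
  simp only [Nat.sub_zero] at this
  rwa [show m + 1 - (m + 1 - s) = s by omega] at this

theorem nodea_ne (R : Run S Y p m) {s t : ℕ} (h1 : 1 ≤ s) (h2 : s ≤ m) (h3 : 1 ≤ t) (h4 : t ≤ m)
    (h : s ≠ t) : p s ≠ p t := fun e => h (R.inj s t h1 h2 h3 h4 e)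

/-- the first matching after shifting along the left part, on the right part -/
theorem nodea_S1 (R : Run S Y p m) (hm : m % 2 = 1) {i : ℕ} (him : i < m) (hi : i % 2 = 1) {s : ℕ}
    (h1 : i < s) (h2 : s ≤ m) : shift (lst p i) S (p s) = S (p s) := by
  have RL : Run S Y p i := R.left (by omega) him.le
  refine RL.toInj.shift_other hi RL.pre ?_ fun t ht1 ht2 => nodea_ne R ht1 (by omega) (by omega) h2 (by omega)
  rw [RL.fst_one]
  exact (nodea_zero R hm (by omega) h2).symm

theorem nodea_Y1 (R : Run S Y p m) {i : ℕ} (him : i < m) (hi : i % 2 = 1) {s : ℕ}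
    (h1 : i + 1 < s) (h2 : s ≤ m) : shift (lst p i) Y (p s) = Y (p s) := by
  have RL : Run S Y p i := R.left (by omega) him.le
  exact RL.shift_snd_other hi fun t ht1 ht2 => nodea_ne R ht1 (by omega) (by omega) h2 (by omega)

/-- the closed up right part -/
def nodeaQ (p : ℕ → Fin n) (m i : ℕ) (s : ℕ) : Fin n := if s + i + 1 ≤ m then p (s + i + 1) else p (i + 1)

theorem nodea_run (R : Run S Y p m) (hm : m % 2 = 1) {i : ℕ} (him : i < m) (hi : i % 2 = 1) :
    Run (shift (lst p i) S) (shift [p 1, p m] (shift (lst p i) Y)) (nodeaQ p m i) (m - i - 1) := by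
  have RL : Run S Y p i := R.left (by omega) him.le
  have h1m : p 1 ≠ p m := nodea_ne R le_rfl (by omega) (by omega) le_rfl (by omega)
  refine ⟨by omega, fun s t hs1 hs2 ht1 ht2 e => ?_, fun s hs he => ?_, fun s hs ho => ?_⟩
  · simp only [nodeaQ, if_pos (show s + i + 1 ≤ m by omega), if_pos (show t + i + 1 ≤ m by omega)] at e
    have := R.inj _ _ (by omega) (by omega) (by omega) (by omega) e
    omega
  · simp only [nodeaQ, if_pos (show s + i + 1 ≤ m by omega), if_pos (show s + 1 + i + 1 ≤ m by omega)]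
    rw [nodea_S1 R hm him hi (by omega) (by omega), R.ev _ (by omega) (by omega)]
    congr 1; omega
  · rw [shift_pair_apply h1m]
    by_cases hk : s = m - i - 1
    · simp only [nodeaQ, if_pos (show s + i + 1 ≤ m by omega),
        if_neg (show ¬ s + 1 + i + 1 ≤ m by omega)]
      rw [show s + i + 1 = m by omega, Equiv.swap_apply_right, RL.shift_snd_first hi,
        Equiv.swap_apply_of_ne_of_ne (nodea_ne R (by omega) (by omega) le_rfl (by omega) (by omega))
          (nodea_ne R (by omega) (by omega) (by omega) le_rfl (by omega))]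
    · simp only [nodeaQ, if_pos (show s + i + 1 ≤ m by omega),
        if_pos (show s + 1 + i + 1 ≤ m by omega)]
      rw [Equiv.swap_apply_of_ne_of_ne (nodea_ne R (by omega) (by omega) le_rfl (by omega) (by omega))
          (nodea_ne R (by omega) (by omega) (by omega) le_rfl (by omega)),
        nodea_Y1 R him hi (by omega) (by omega), R.od _ (by omega) (by omega),
        Equiv.swap_apply_of_ne_of_ne (nodea_ne R (by omega) (by omega) le_rfl (by omega) (by omega))
          (nodea_ne R (by omega) (by omega) (by omega) le_rfl (by omega))]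
      congr 1; omega

theorem nodea_eq (R : Run S Y p m) (hm : m % 2 = 1) {i : ℕ} (him : i < m) (hi : i % 2 = 1) :
    shift (lst (nodeaQ p m i) (m - i - 1)) (shift (lst p i) S) =
      shift [p 0, p (i + 1)] (shift (lst p m) S) := by
  have RL : Run S Y p i := R.left (by omega) him.le
  have RQ := nodea_run R hm him hi
  have hk : (m - i - 1) % 2 = 1 := by omega
  have h0 : ∀ s, 1 ≤ s → s ≤ m → p 0 ≠ p s := fun s h1 h2 => nodea_zero R hm h1 h2
  have h0i : p 0 ≠ p (i + 1) := h0 _ (by omega) (by omega)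
  have hq : ∀ s, s ≤ m - i - 1 → nodeaQ p m i s = p (s + i + 1) := fun s hs => by
    simp only [nodeaQ, if_pos (show s + i + 1 ≤ m by omega)]
  have hq0 : nodeaQ p m i 0 = p (i + 1) := by rw [hq 0 (by omega), Nat.zero_add]
  set A := shift (lst (nodeaQ p m i) (m - i - 1)) (shift (lst p i) S) with hA
  set B := shift [p 0, p (i + 1)] (shift (lst p m) S) with hB
  have hAo : ∀ v, v ≠ p (i + 1) → (∀ s, i + 1 < s → s ≤ m → p s ≠ v) →
      A v = shift (lst p i) S v := by
    intro v h1 h2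
    refine RQ.toInj.shift_other hk RQ.pre ?_ fun s hs1 hs2 => ?_
    · rw [RQ.fst_one, hq0]; exact h1
    · rw [hq s hs2]; exact h2 _ (by omega) (by omega)
  have hBo : ∀ v, v ≠ p 0 → v ≠ p (i + 1) →
      B v = Equiv.swap (p 0) (p (i + 1)) (shift (lst p m) S v) := by
    intro v h1 h2
    rw [hB, shift_pair_apply h0i, Equiv.swap_apply_of_ne_of_ne h1 h2]
  have hsw : ∀ s, 1 ≤ s → s ≤ m → s ≠ i + 1 → Equiv.swap (p 0) (p (i + 1)) (p s) = p s :=
    fun s h1 h2 h3 => Equiv.swap_apply_of_ne_of_ne (h0 s h1 h2).symm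
      (nodea_ne R h1 h2 (by omega) (by omega) h3)
  have hodd : ∀ s, s % 2 = 1 → s < m → s ≠ i → A (p s) = p (s + 1) ∧ B (p s) = p (s + 1) := by
    intro s h1 h2 h3
    constructor
    · by_cases hs : s < i
      · rw [hAo _ (nodea_ne R (by omega) (by omega) (by omega) (by omega) (by omega))
          fun t ht1 ht2 => nodea_ne R (by omega) (by omega) (by omega) (by omega) (by omega)]
        exact RL.toInj.shift_inner hi RL.pre h1 hs
      · have := RQ.toInj.shift_inner hk RQ.pre (s := s - i - 1) (by omega) (by omega)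
        rw [hq _ (by omega), hq _ (by omega), show s - i - 1 + i + 1 = s by omega,
          show s - i - 1 + 1 + i + 1 = s + 1 by omega] at this
        exact this
    · rw [hBo _ (h0 s (by omega) (by omega)).symm
        (nodea_ne R (by omega) (by omega) (by omega) (by omega) (by omega)),
        R.toInj.shift_inner hm R.pre h1 h2, hsw _ (by omega) (by omega) (by omega)]
  have hi' : A (p i) = p 0 ∧ B (p i) = p 0 := by
    constructor
    · rw [hAo _ (nodea_ne R (by omega) (by omega) (by omega) (by omega) (by omega))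
          fun t ht1 ht2 => nodea_ne R (by omega) (by omega) (by omega) (by omega) (by omega),
        RL.toInj.shift_last hi RL.pre, RL.fst_one]
    · rw [hBo _ (h0 i (by omega) (by omega)).symm
        (nodea_ne R (by omega) (by omega) (by omega) (by omega) (by omega)),
        R.toInj.shift_inner hm R.pre hi him, Equiv.swap_apply_right]
  have hm' : A (p m) = p (i + 1) ∧ B (p m) = p (i + 1) := by
    constructor
    · have := RQ.toInj.shift_last hk RQ.pre
      rw [RQ.fst_one, hq0, hq _ le_rfl, show m - i - 1 + i + 1 = m by omega] at this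
      exact this
    · rw [hBo _ (h0 m (by omega) (by omega)).symm
        (nodea_ne R (by omega) (by omega) (by omega) (by omega) (by omega)),
        R.toInj.shift_last hm R.pre, R.fst_one, Equiv.swap_apply_left]
  refine nodea_ext fun v => ?_
  by_cases hv0 : v = p 0
  · exact Or.inr ⟨p i, hv0 ▸ hi'⟩
  by_cases hv : ∃ s, 1 ≤ s ∧ s ≤ m ∧ p s = v
  · obtain ⟨s, h1, h2, rfl⟩ := hv
    by_cases hsi : s = i
    · subst hsi; exact Or.inl (hi'.1.trans hi'.2.symm)
    by_cases hsm : s = m
    · subst hsm; exact Or.inl (hm'.1.trans hm'.2.symm)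
    by_cases hsi' : s = i + 1
    · subst hsi'; exact Or.inr ⟨p m, hm'⟩
    by_cases ho : s % 2 = 1
    · have := hodd s ho (by omega) hsi
      exact Or.inl (this.1.trans this.2.symm)
    · have := hodd (s - 1) (by omega) (by omega) (by omega)
      rw [show s - 1 + 1 = s by omega] at this
      exact Or.inr ⟨_, this⟩
  · have hv' : ∀ s, 1 ≤ s → s ≤ m → p s ≠ v := fun s h1 h2 e => hv ⟨s, h1, h2, e⟩
    left
    rw [hAo v (hv' _ (by omega) (by omega)).symm fun s h1 h2 => hv' s (by omega) h2,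
      hBo v hv0 (hv' _ (by omega) (by omega)).symm,
      RL.toInj.shift_other hi RL.pre (by rw [RL.fst_one]; exact hv0)
        fun s h1 h2 => hv' s h1 (by omega),
      R.toInj.shift_other hm R.pre (by rw [R.fst_one]; exact hv0) hv',
      Equiv.swap_apply_of_ne_of_ne]
    · intro e
      rw [S.eq_iff, R.ev 0 (by omega) rfl] at e
      exact hv' _ (by omega) (by omega) e
    · intro e
      rw [S.eq_iff, R.ev (i + 1) (by omega) (by omega)] at e
      exact hv' _ (by omega) (by omega) e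

theorem nodea_le3 {W W' K a b c a' b' c' : ℝ} (hW : 0 < W) (ha : 0 < a) (hb : 0 < b) (hc : 0 < c)
    (_hK : 1 ≤ K) (h : W' * (a * b * c) = W * (a' * b' * c')) (h1 : a ≤ K * a') (h2 : b ≤ K * b')
    (h3 : c ≤ K * c') : W ≤ K ^ 3 * W' := by
  have h4 : a * b * c ≤ K * a' * (K * b') * (K * c') :=
    mul_le_mul (mul_le_mul h1 h2 hb.le (by linarith)) h3 hc.le (mul_nonneg (by linarith) (by linarith))
  have h5 : W * (a * b * c) ≤ K ^ 3 * W' * (a * b * c) := by
    calc W * (a * b * c) ≤ W * (K * a' * (K * b') * (K * c')) := mul_le_mul_of_nonneg_left h4 hW.le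
      _ = K ^ 3 * (W * (a' * b' * c')) := by ring
      _ = K ^ 3 * W' * (a * b * c) := by rw [← h]; ring
  exact le_of_mul_le_mul_right h5 (by positivity)

theorem nodea_fin {W W' C E x : ℝ} (hC : 0 ≤ C) (h : W ≤ C * W') (h' : W' * x ^ 2 ≤ E) :
    W * x ^ 2 ≤ C * E :=
  calc W * x ^ 2 ≤ C * W' * x ^ 2 := mul_le_mul_of_nonneg_right h (sq_nonneg _)
    _ = C * (W' * x ^ 2) := by ring
    _ ≤ C * E := mul_le_mul_of_nonneg_left h' hC

/-- Let `g = lst p m`, `L = lst p i`, `R' = (p (i + 2), ..., p m)` (the tail of the right part), `S₁ = shift L S`,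
`S₂ = shift R' S₁`, `S₃ = shift g S`.  Then `S₃ = shift [p 0, p (i + 1)] S₂` (`S₂ ∋ p 0 p i, p (i + 1) p m`;
`S₃ ∋ p i p (i + 1), p 0 p m`) and
`gam p m - gam p i - gam right = -(f S₃ - f S - gam p m) + (f S₃ - f S₂) + (f S₂ - f S₁ - gam right) + (f S₁ - f S - gam p i)`.
Terms 1 and 4: `Run.dev_odd_proper`.  Term 3: `Y₁ = shift L Y ∋ p 1 p (i + 1), p m p (m + 1)`,
`Y₂ = shift [p 1, p m] Y₁ ∋ p m p (i + 1), p 1 p (m + 1)`, `Run.dev_cyc` at `(S₁, Y₂)` (two moves); net change of edges:
`p 0 p 1, p i p (i + 1), p m p (m + 1)` are replaced by `p 0 p i, p (i + 1) p m, p 1 p (m + 1)`, each at most a factor `K`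
lighter (`Run.chord`), so `wt S * wt Y ≤ K ^ 3 * (wt S₁ * wt Y₂)`.  Term 2: `dev_loc` at `(S₃, Y₃)` with `Y₃ = shift g Y`
(one move); `wt S * wt Y ≤ K ^ 2 * (wt S₃ * wt Y₃)` (`Run.wt_col`) and `wt S₂ * wt Y₃ = wt S₁ * wt Y₂` or directly by
`wt_shift_pair`.  Finish with `(a + b + c + d) ^ 2 ≤ 4 (a² + b² + c² + d²)`.  Note that `p 0 = p (m + 1)` is possible. -/
theorem node_odd {K E : ℝ} (hl : Pos lam) (hK : 1 ≤ K) (hQ : QU lam K) (R : Run S Y p m)
    (P : Proper lam p m) (D : Dom lam f (S, Y) E) {i : ℕ} (him : i < m)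
    (hmin : ∀ j, 1 ≤ j → j < m → lam (p i) (p (i + 1)) ≤ lam (p j) (p (j + 1)))
    (hm : m % 2 = 1) (hi : i % 2 = 1) :
    wt lam S * wt lam Y *
      (gam lam f p m - (gam lam f p i + gam lam f (fun s => p (s + i)) (m - i))) ^ 2 ≤
      16 * K ^ 3 * E := by
  have RL : Run S Y p i := R.left (by omega) him.le
  have RQ := nodea_run R hm him hi
  have hk : (m - i - 1) % 2 = 1 := by omega
  have hE : 0 ≤ E := D.nonneg hl
  have hK0 : 0 < K := by linarith
  have hK3 : K ^ 2 ≤ K ^ 3 := pow_le_pow_right₀ hK (by norm_num)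
  have hW : 0 < wt lam S * wt lam Y := mul_pos (hl.wt_pos S) (hl.wt_pos Y)
  have h0 : ∀ s, 1 ≤ s → s ≤ m → p 0 ≠ p s := fun s h1 h2 => nodea_zero R hm h1 h2
  have h0i : p 0 ≠ p (i + 1) := h0 _ (by omega) (by omega)
  have h1m : p 1 ≠ p m := nodea_ne R le_rfl (by omega) (by omega) le_rfl (by omega)
  -- chords
  have c0 : ∀ j, 1 ≤ j → j ≤ m → lam (p 0) (p 1) ≤ K * lam (p 0) (p j) := fun j h1 h2 =>
    R.chord hQ (by omega) (by omega) (h0 j h1 h2) fun s _ hs => by
      rcases Nat.eq_zero_or_pos s with rfl | hs0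
      · exact le_rfl
      · exact (P s hs0 (by omega)).1
  have c1 : lam (p i) (p (i + 1)) ≤ K * lam (p (i + 1)) (p m) :=
    R.chord hQ (by omega) (by omega) (nodea_ne R (by omega) (by omega) (by omega) le_rfl (by omega))
      fun s h1 h2 => hmin s (by omega) h2
  have c2 : lam (p m) (p (m + 1)) ≤ K * lam (p 1) (p (m + 1)) :=
    R.chord hQ (by omega) le_rfl (nodea_last R hm le_rfl (by omega)).symm fun s h1 h2 => by
      by_cases hs : s = m
      · subst hs; exact le_rfl
      · exact (P s h1 (by omega)).2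
  set S₁ := shift (lst p i) S with hS₁
  set Y₁ := shift (lst p i) Y with hY₁
  set Y₂ := shift [p 1, p m] Y₁ with hY₂
  set S₃ := shift (lst p m) S with hS₃
  set Y₃ := shift (lst p m) Y with hY₃
  set S₂ := shift [p 0, p (i + 1)] S₃ with hS₂
  have e2 : shift (lst (nodeaQ p m i) (m - i - 1)) S₁ = S₂ := nodea_eq R hm him hi
  -- terms 1 and 4
  have t1 := (R.dev_odd_proper hl hK hQ P D hm).trans (mul_le_mul_of_nonneg_right hK3 hE)
  have t4 := (RL.dev_odd_proper hl hK hQ (P.left him hmin) D hi).trans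
    (mul_le_mul_of_nonneg_right hK3 hE)
  -- term 3
  have hY1a : Y₁ (p 1) = p (i + 1) := RL.shift_snd_first hi
  have hY1b : Y₁ (p m) = p (m + 1) := by
    rw [hY₁, nodea_Y1 R him hi (by omega) le_rfl, R.od m le_rfl hm]
  have w1 := RL.wt_col hl hi
  have w2' := wt_shift_pair (S := Y₁) hl h1m (by
    rw [hY1a]; exact nodea_ne R (by omega) (by omega) (by omega) le_rfl (by omega))
  rw [hY1a, hY1b, hl.symm (p m) (p (i + 1))] at w2'
  have le3 : wt lam S * wt lam Y ≤ K ^ 3 * (wt lam S₁ * wt lam Y₂) := by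
    refine nodea_le3 hW (hl.pos _ _) (hl.pos _ _) (hl.pos _ _) hK ?_ (c0 i (by omega) him.le) c1 c2
    refine mul_right_cancel₀ (hl.pos (p 1) (p (i + 1))).ne' ?_
    linear_combination (wt lam S₁ * lam (p 0) (p 1) * lam (p i) (p (i + 1))) * w2' +
      (lam (p (i + 1)) (p m) * lam (p 1) (p (m + 1))) * w1
  have t3 : wt lam S * wt lam Y *
      (f S₂ - f S₁ - gam lam f (fun s => p (s + i)) (m - i)) ^ 2 ≤ K ^ 3 * E := by
    refine nodea_fin (by positivity) le3 ?_
    have hc : nodeaQ p m i (m - i - 1 + 1) = nodeaQ p m i 0 := by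
      simp only [nodeaQ, if_neg (show ¬ m - i - 1 + 1 + i + 1 ≤ m by omega),
        Nat.zero_add, ite_self]
    have h1 := RQ.dev_cyc (f := f) hl hk hc
    have h2 : gam lam f (fun s => p (s + i)) (m - i) =
        mn f (nuA lam (nodeaQ p m i 0) (nodeaQ p m i 1)) (lst (nodeaQ p m i) (m - i - 1)) := by
      rw [gam, if_neg (by omega)]
      have e0 : nodeaQ p m i 0 = p (1 + i) := by
        simp only [nodeaQ, if_pos (show 0 + i + 1 ≤ m by omega)]; congr 1; omega
      have e1 : nodeaQ p m i 1 = p (2 + i) := by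
        simp only [nodeaQ, if_pos (show 1 + i + 1 ≤ m by omega)]; congr 1; omega
      rw [e0, e1]
      congr 1
      refine lst_congr fun s h1 h2 => ?_
      simp only [nodeaQ, if_pos (show s + i + 1 ≤ m by omega)]; congr 1; omega
    rw [e2, ← h2] at h1
    obtain ⟨l, hl'⟩ := RL.mv_col
    have h3 := (D [l, (2, p 1, p m)] (by simp)).1
    simp only [List.foldl_cons, List.foldl_nil, hl', mv_snd] at h3
    exact h1.trans h3
  -- term 2
  have hS3a : S₃ (p 0) = p m := by
    rw [PM.eq_iff, hS₃, R.toInj.shift_last hm R.pre, R.fst_one]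
  have hS3b : S₃ (p (i + 1)) = p i := by
    rw [PM.eq_iff, hS₃, R.toInj.shift_inner hm R.pre hi him]
  have w3 := R.wt_col hl hm
  have w4 := wt_shift_pair (S := S₃) hl h0i (by
    rw [hS3a]; exact nodea_ne R (by omega) (by omega) (by omega) (by omega) (by omega))
  rw [hS3a, hS3b, hl.symm (p (i + 1)) (p i)] at w4
  have le2 : wt lam S * wt lam Y ≤ K ^ 3 * (wt lam S₃ * wt lam Y₃) := by
    refine nodea_le3 (b := 1) (b' := 1) hW (hl.pos _ _) one_pos (hl.pos _ _) hK ?_
      (c0 m (by omega) le_rfl) (by linarith) c2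
    linear_combination w3
  have le2' : wt lam S * wt lam Y ≤ K ^ 3 * (wt lam S₂ * wt lam Y₃) := by
    refine nodea_le3 hW (hl.pos _ _) (hl.pos _ _) (hl.pos _ _) hK ?_ (c0 i (by omega) him.le) c1 c2
    refine mul_right_cancel₀ (hl.pos (p 0) (p m)).ne' ?_
    linear_combination (wt lam Y₃ * lam (p 0) (p 1) * lam (p m) (p (m + 1))) * w4 +
      (lam (p (i + 1)) (p m) * lam (p 0) (p i)) * w3
  have t2 : wt lam S * wt lam Y * (f S₂ - f S₃) ^ 2 ≤ K ^ 3 * E := by
    have h1 := dev_loc (f := f) hl (S₃, Y₃) (1, p 0, p (i + 1))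
    rw [mv_fst] at h1
    obtain ⟨l, hl'⟩ := R.mv_col
    have h3 := (D [l] (by simp)).1
    simp only [List.foldl_cons, List.foldl_nil, hl'] at h3
    refine nodea_fin (W' := min (w2 lam (S₃, Y₃)) (w2 lam (S₂, Y₃))) (by positivity) ?_ ?_
    · rw [mul_min_of_nonneg _ _ (by positivity)]
      exact le_min le2 le2'
    · have e : two f (S₂, Y₃) - two f (S₃, Y₃) = f S₂ - f S₃ := by simp only [two]; ring
      rw [← e]
      exact h1.trans h3
  set a := f S₃ - f S - gam lam f p m
  set b := f S₂ - f S₃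
  set c := f S₂ - f S₁ - gam lam f (fun s => p (s + i)) (m - i)
  set d := f S₁ - f S - gam lam f p i
  have e : gam lam f p m - (gam lam f p i + gam lam f (fun s => p (s + i)) (m - i)) =
      -a - b + c + d := by simp only [a, b, c, d]; ring
  rw [e]
  have h4 : (-a - b + c + d) ^ 2 ≤ 4 * (a ^ 2 + b ^ 2 + c ^ 2 + d ^ 2) := by
    nlinarith [sq_nonneg (a - b), sq_nonneg (a + c), sq_nonneg (a + d), sq_nonneg (b + c),
      sq_nonneg (b + d), sq_nonneg (c - d)]
  have h5 := mul_le_mul_of_nonneg_left h4 hW.le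
  linarith

end Crest.Agent.R304
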