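import Crest.Agent.R304.Dev

/-! Row 304: splitting an even run into two even runs. -/

set_option autoImplicit false

namespace Crest.Agent.R304

open Finset

variable {n : ℕ} {lam : Fin n → Fin n → ℝ} {f : PM n → ℝ} {S Y : PM n} {p : ℕ → Fin n} {m : ℕ}

theorem nodeb_pair_fst {a b : Fin n} (hab : a ≠ b) (hS : S a ≠ b) : shift [a, b] S a = S b := by
  rw [shift_pair_apply hab, Equiv.swap_apply_left, Equiv.swap_apply_of_ne_of_ne _ (S.ne b)]
  exact fun e => hS (S.eq_iff.1 e)

theorem nodeb_pair_snd {a b : Fin n} (hab : a ≠ b) (hS : S a ≠ b) : shift [a, b] S b = S a := by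
  rw [shift_pair_apply hab, Equiv.swap_apply_right, Equiv.swap_apply_of_ne_of_ne (S.ne a) hS]

theorem nodeb_pair_other {a b v : Fin n} (hab : a ≠ b) (h1 : v ≠ a) (h2 : v ≠ b) (h3 : S v ≠ a)
    (h4 : S v ≠ b) : shift [a, b] S v = S v := by
  rw [shift_pair_apply hab, Equiv.swap_apply_of_ne_of_ne h1 h2, Equiv.swap_apply_of_ne_of_ne h3 h4]

/-- closing an even path to a cycle -/
theorem nodeb_close {q : ℕ → Fin n} {k : ℕ} (h : Inj q k) (hk : k % 2 = 0) (hk1 : 1 ≤ k)
    (hY : ∀ s, s % 2 = 1 → s < k → Y (q s) = q (s + 1)) :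
    (∀ s, 2 ≤ s → s < k → s % 2 = 0 →
      shift (lst (fun s => q (s + 1)) (k - 1)) Y (q s) = q (s + 1)) ∧
    shift (lst (fun s => q (s + 1)) (k - 1)) Y (q k) = q 1 ∧
    ∀ v, (∀ s, 1 ≤ s → s ≤ k → q s ≠ v) → shift (lst (fun s => q (s + 1)) (k - 1)) Y v = Y v := by
  have hI : Inj (fun s => q (s + 1)) (k - 1) := fun i j h1 h2 h3 h4 e => by
    have := h (i + 1) (j + 1) (by omega) (by omega) (by omega) (by omega) e
    omega
  have ho : (k - 1) % 2 = 1 := by omega
  have hP : Pre (lst (fun s => q (s + 1)) (k - 1)) Y :=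
    pre_lst.2 (fun s h1 h2 h3 => hY (s + 1) (by omega) (by omega))
  have h12 : Y (q (1 + 1)) = q 1 := Y.eq_iff.1 (hY 1 (by omega) (by omega))
  refine ⟨fun s h1 h2 h3 => ?_, ?_, fun v hv => ?_⟩
  · have := hI.shift_inner ho hP (s := s - 1) (by omega) (by omega)
    rwa [show s - 1 + 1 = s by omega] at this
  · have := hI.shift_last ho hP
    rwa [show k - 1 + 1 = k by omega, h12] at this
  · refine hI.shift_other ho hP ?_ (fun s h1 h2 => hv (s + 1) (by omega) (by omega))
    rw [h12]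
    exact (hv 1 le_rfl hk1).symm

/-- exchanging the two matchings along an alternating cycle -/
theorem nodeb_cyc (hl : Pos lam) {q : ℕ → Fin n} {k : ℕ} (h : Inj q k) (hk : k % 2 = 0) (hk1 : 1 ≤ k)
    (hY : ∀ s, s % 2 = 1 → s < k → Y (q s) = q (s + 1))
    (hS : ∀ s, 2 ≤ s → s < k → s % 2 = 0 → S (q s) = q (s + 1)) (hS' : S (q k) = q 1) :
    (∃ l, mv (Y, S) l = (shift (lst (fun s => q (s + 1)) (k - 1)) Y,
      shift (lst (fun s => q (s + 1)) (k - 1)) S)) ∧
    wt lam (shift (lst (fun s => q (s + 1)) (k - 1)) Y) *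
      wt lam (shift (lst (fun s => q (s + 1)) (k - 1)) S) = wt lam Y * wt lam S ∧
    wt lam Y * wt lam S *
      (f (shift (lst (fun s => q (s + 1)) (k - 1)) Y) - f Y - gam lam f q k) ^ 2 ≤ HH lam f (Y, S) ∧
    ∀ v, (∀ s, 1 ≤ s → s ≤ k → q s ≠ v) → shift (lst (fun s => q (s + 1)) (k - 1)) S v = S v := by
  let r : ℕ → Fin n := fun s => if s = k then q 1 else q (s + 1)
  have hr : ∀ s, s < k → r s = q (s + 1) := fun s hs => if_neg (by omega)
  have hrk : r (k - 1 + 1) = q 1 := if_pos (by omega)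
  have ho : (k - 1) % 2 = 1 := by omega
  have R : Run Y S r (k - 1) := by
    refine ⟨by omega, fun i j h1 h2 h3 h4 e => ?_, fun i h1 h2 => ?_, fun i h1 h2 => ?_⟩
    · rw [hr i (by omega), hr j (by omega)] at e
      have := h (i + 1) (j + 1) (by omega) (by omega) (by omega) (by omega) e
      omega
    · rw [hr i (by omega), hr (i + 1) (by omega)]
      exact hY (i + 1) (by omega) (by omega)
    · rw [hr i (by omega)]
      by_cases e : i = k - 1
      · rw [e, hrk, show k - 1 + 1 = k by omega, hS']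
      · rw [hr (i + 1) (by omega)]
        exact hS (i + 1) (by omega) (by omega) (by omega)
  have e : lst r (k - 1) = lst (fun s => q (s + 1)) (k - 1) :=
    lst_congr (fun s _ h2 => hr s (by omega))
  have hc : r (k - 1 + 1) = r 0 := by rw [hrk, hr 0 (by omega)]
  refine ⟨e ▸ R.mv_col, ?_, ?_, fun v hv => ?_⟩
  · have h1 := R.wt_col hl ho
    rw [e, hc, hl.symm (r (k - 1)) (r 0), hl.symm (r 1) (r 0), mul_comm (lam (r 0) (r (k - 1)))] at h1
    exact mul_right_cancel₀ (mul_pos (hl.pos _ _) (hl.pos _ _)).ne' h1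
  · have h1 := R.dev_cyc (f := f) hl ho hc
    rw [e, hr 0 (by omega), hr 1 (by omega)] at h1
    rw [gam, if_neg (by omega)]
    exact h1
  · rw [← e]
    refine R.shift_snd_other ho (fun s h1 h2 => ?_)
    by_cases e1 : s = k - 1 + 1
    · rw [e1, hrk]; exact hv 1 le_rfl hk1
    · rw [hr s (by omega)]; exact hv (s + 1) (by omega) (by omega)

theorem nodeb_four {w B a b c d : ℝ} (hw : 0 ≤ w) (ha : w * a ^ 2 ≤ B) (hb : w * b ^ 2 ≤ B)
    (hc : w * c ^ 2 ≤ B) (hd : w * d ^ 2 ≤ B) : w * (a + b + c + d) ^ 2 ≤ 16 * B := by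
  have h : (a + b + c + d) ^ 2 ≤ 4 * (a ^ 2 + b ^ 2 + c ^ 2 + d ^ 2) := by
    nlinarith [sq_nonneg (a - b), sq_nonneg (a - c), sq_nonneg (a - d), sq_nonneg (b - c),
      sq_nonneg (b - d), sq_nonneg (c - d)]
  have := mul_le_mul_of_nonneg_left h hw
  linarith

theorem nodeb_dom {w w' K E x : ℝ} (hK : 0 ≤ K) (h : w ≤ K * w') (h' : w' * x ^ 2 ≤ E) :
    w * x ^ 2 ≤ K * E :=
  calc w * x ^ 2 ≤ K * w' * x ^ 2 := mul_le_mul_of_nonneg_right h (sq_nonneg x)
    _ = K * (w' * x ^ 2) := mul_assoc _ _ _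
    _ ≤ K * E := mul_le_mul_of_nonneg_left h' hK

/-- Tails: `g = (p 2, ..., p m)`, `L' = (p 2, ..., p i)`, `R' = (p (i + 2), ..., p m)`.  `Y₁ = shift R' Y ∋ p (i + 1) p m`,
`Y₂ = shift L' Y₁ ∋ p 1 p i, p (i + 1) p m`, `Y₃ = shift g Y ∋ p i p (i + 1), p 1 p m`, so `Y₃ = shift [p i, p m] Y₂`, and
`gam p m - gam p i - gam right = -(f Y₃ - f Y - gam p m) + (f Y₃ - f Y₂) + (f Y₂ - f Y₁ - gam p i) + (f Y₁ - f Y - gam right)`.
Terms 1 and 4: `Run.dev_even_proper`.  Term 3: from `(Y, S)`: `S₁ = shift [p i, p m] S ∋ p m p (i + 1), p i p (m + 1)`, cycle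
swap along `R'` gives `(Y₁, S₂)` with the same weight, `S₃ = shift [p 0, p i] S₂ ∋ p i p 1, p 0 p (m + 1)`; `Run.dev_cyc` at
`(Y₁, S₃)` (three moves).  Net change: `p 0 p 1, p i p (i + 1), p m p (m + 1)` replaced by `p 1 p i, p (i + 1) p m, p 0 p (m + 1)`, each at most
a factor `K` lighter.  In the whole cycle case `p 0 = p m` (then `p (m + 1) = p 1`) already `S₂ ∋ p i p 1`: omit the last move;
`p i p (i + 1), p m p 1` are replaced by `p (i + 1) p m, p i p 1`.  Term 2: `dev_loc` at `(Y₃, S₄)`, reached from `(Y, S)` by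
`shift [p 0, p m]` on `S` and the cycle swap along `g` (two moves, loss `K ^ 2`); the other end point `(Y₂, S₄)` loses `K ^ 3`
(`wt_shift_pair`).  Finish with `(a + b + c + d) ^ 2 ≤ 4 (a² + b² + c² + d²)`. -/
theorem node_even_even {K E : ℝ} (hl : Pos lam) (hK : 1 ≤ K) (hQ : QU lam K) (R : Run S Y p m)
    (P : Proper lam p m) (D : Dom lam f (S, Y) E) {i : ℕ} (hi1 : 1 ≤ i) (him : i < m)
    (hmin : ∀ j, 1 ≤ j → j < m → lam (p i) (p (i + 1)) ≤ lam (p j) (p (j + 1)))
    (hm : m % 2 = 0) (hi : i % 2 = 0) :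
    wt lam S * wt lam Y *
      (gam lam f p m - (gam lam f p i + gam lam f (fun s => p (s + i)) (m - i))) ^ 2 ≤
      16 * K ^ 3 * E := by
  have hK0 : 0 < K := by linarith
  have hE : 0 ≤ E := D.nonneg hl
  have hw : 0 < wt lam S * wt lam Y := mul_pos (hl.wt_pos S) (hl.wt_pos Y)
  have ne : ∀ s t, 1 ≤ s → s ≤ m → 1 ≤ t → t ≤ m → s ≠ t → p s ≠ p t :=
    fun s t h1 h2 h3 h4 h5 e => h5 (R.inj s t h1 h2 h3 h4 e)
  have him' : p i ≠ p m := ne i m hi1 him.le (by omega) le_rfl (by omega)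
  have hSi : S (p i) = p (i + 1) := R.ev i him.le hi
  have hSm : S (p m) = p (m + 1) := R.ev m le_rfl hm
  have hS0 : S (p 0) = p 1 := R.ev 0 (by omega) rfl
  -- the first move
  obtain ⟨S1, hS1⟩ : ∃ S1, S1 = shift [p i, p m] S := ⟨_, rfl⟩
  have hSim : S (p i) ≠ p m := by rw [hSi]; exact ne _ _ (by omega) (by omega) (by omega) le_rfl (by omega)
  have S1m : S1 (p m) = p (i + 1) := by rw [hS1, nodeb_pair_snd him' hSim, hSi]
  have S1i : S1 (p i) = p (m + 1) := by rw [hS1, nodeb_pair_fst him' hSim, hSm]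
  have S1s : ∀ s, 2 ≤ s → s < m → s % 2 = 0 → s ≠ i → S1 (p s) = p (s + 1) := by
    intro s h1 h2 h3 h4
    have e := R.ev s h2.le h3
    rw [hS1, nodeb_pair_other him' (ne _ _ (by omega) (by omega) (by omega) (by omega) h4)
      (ne _ _ (by omega) (by omega) (by omega) (by omega) (by omega))
      (by rw [e]; exact ne _ _ (by omega) (by omega) (by omega) (by omega) (by omega))
      (by rw [e]; exact ne _ _ (by omega) (by omega) (by omega) (by omega) (by omega)), e]
  have e1 := wt_shift_pair hl him' hSim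
  rw [← hS1, hSi, hSm] at e1
  -- the second move
  have Rr := R.right_even hi him
  have hYr : ∀ s, s % 2 = 1 → s < m - i → Y (p (s + i)) = p (s + 1 + i) :=
    fun s h1 h2 => Rr.od s h2.le h1
  obtain ⟨Y1a, Y1b, Y1c⟩ := nodeb_close (q := fun s => p (s + i)) Rr.toInj (by omega) (by omega) hYr
  obtain ⟨⟨l2, hl2⟩, e2, -, S2c⟩ := nodeb_cyc (f := f) (S := S1) hl (q := fun s => p (s + i)) Rr.toInj
    (by omega) (by omega) hYr
    (fun s h1 h2 h3 => by
      rw [Nat.add_right_comm s 1 i]; exact S1s (s + i) (by omega) (by omega) (by omega) (by omega))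
    (by rw [show m - i + i = m by omega, add_comm 1 i]; exact S1m)
  have T4 := Rr.dev_even_proper hl hK hQ (P.right him hmin) D (by omega)
  generalize shift (lst (fun s => p (s + 1 + i)) (m - i - 1)) Y = Y1 at Y1a Y1b Y1c hl2 e2 T4
  generalize shift (lst (fun s => p (s + 1 + i)) (m - i - 1)) S1 = S2 at hl2 e2 S2c
  rw [show m - i + i = m by omega, add_comm 1 i] at Y1b
  have low : ∀ t, 1 ≤ t → t ≤ i → ∀ s, 1 ≤ s → s ≤ m - i → p (s + i) ≠ p t :=
    fun t h1 h2 s h3 h4 => ne _ _ (by omega) (by omega) (by omega) (by omega) (by omega)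
  have S2i : S2 (p i) = p (m + 1) := by rw [S2c _ (low i hi1 le_rfl), S1i]
  have S2s : ∀ s, 2 ≤ s → s < i → s % 2 = 0 → S2 (p s) = p (s + 1) := fun s h1 h2 h3 => by
    rw [S2c _ (low s (by omega) h2.le), S1s s h1 (by omega) h3 (by omega)]
  -- the third move
  obtain ⟨a, S3, d, hS3, S3i, S3s, e3, hd⟩ : ∃ (a : Fin n) (S3 : PM n) (d : ℝ),
      shift [a, p i] S2 = S3 ∧ S3 (p i) = p 1 ∧
      (∀ s, 2 ≤ s → s < i → s % 2 = 0 → S3 (p s) = p (s + 1)) ∧
      wt lam S3 * lam (p i) (p (m + 1)) = wt lam S2 * lam (p i) (p 1) * d ∧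
      ∀ u, 0 < u → lam (p 0) (p 1) ≤ K * u → lam (p m) (p (m + 1)) ≤ K * u →
        lam (p m) (p (m + 1)) ≤ K ^ 2 * d * u := by
    by_cases hc : p 0 = p m
    · have hm1 : p (m + 1) = p 1 := by rw [← hSm, ← hc, hS0]
      refine ⟨p i, S2, 1, shift_pair_self _ _, by rw [S2i, hm1], S2s, by rw [hm1, mul_one], ?_⟩
      intro u hu _ h2
      have : K * u ≤ K * (K * u) := le_mul_of_one_le_left (mul_pos hK0 hu).le hK
      calc _ ≤ K * u := h2
        _ ≤ K * (K * u) := this
        _ = _ := by ring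
    · have z0 : ∀ s, 2 ≤ s → s < m → s % 2 = 0 → p s ≠ p 0 := fun s h1 h2 h3 e => by
        have := R.ev s h2.le h3
        rw [e, hS0] at this
        exact ne _ _ (by omega) (by omega) (by omega) (by omega) (by omega) this
      have z1 : ∀ s, 2 ≤ s → s < m → s % 2 = 0 → p (s + 1) ≠ p 0 := fun s h1 h2 h3 e => by
        have := S.eq_iff.1 (R.ev s h2.le h3)
        rw [e, hS0] at this
        exact ne _ _ (by omega) (by omega) (by omega) (by omega) (by omega) this
      have h0i : p 0 ≠ p i := (z0 i (by omega) him hi).symm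
      have S21 : S2 (p 1) = p 0 := by
        have e := S.eq_iff.1 hS0
        rw [S2c _ (low 1 le_rfl hi1), hS1,
          nodeb_pair_other him' (ne _ _ (by omega) (by omega) (by omega) (by omega) (by omega))
            (ne _ _ (by omega) (by omega) (by omega) (by omega) (by omega))
            (by rw [e]; exact h0i) (by rw [e]; exact hc), e]
      have S20 : S2 (p 0) = p 1 := S2.eq_iff.1 S21
      have h2 : S2 (p 0) ≠ p i := by
        rw [S20]; exact ne _ _ (by omega) (by omega) (by omega) (by omega) (by omega)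
      have t0 := hl.pos (p 0) (p 1)
      refine ⟨p 0, _, lam (p 0) (p (m + 1)) / lam (p 0) (p 1), rfl,
        by rw [nodeb_pair_snd h0i h2, S20], fun s h3 h4 h5 => ?_, ?_, ?_⟩
      · have e := S2s s h3 h4 h5
        rw [nodeb_pair_other h0i (z0 s h3 (by omega) h5)
          (ne _ _ (by omega) (by omega) (by omega) (by omega) (by omega))
          (by rw [e]; exact z1 s h3 (by omega) h5)
          (by rw [e]; exact ne _ _ (by omega) (by omega) (by omega) (by omega) (by omega)), e]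
      · have e := wt_shift_pair hl h0i h2
        rw [S20, S2i] at e
        field_simp
        linarith
      · intro u hu h3 h4
        have h0m : p 0 ≠ p (m + 1) := fun e => by
          have e' := S.eq_iff.1 hSm
          rw [← e, hS0] at e'
          exact ne _ _ (by omega) (by omega) (by omega) (by omega) (by omega) e'
        have tm := hl.pos (p m) (p (m + 1))
        have h5 : min (lam (p 0) (p 1)) (lam (p m) (p (m + 1))) ≤ K * lam (p 0) (p (m + 1)) := by
          refine R.chord hQ (by omega) le_rfl h0m (fun s _ h6 => ?_)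
          by_cases s0 : s = 0
          · rw [s0]; exact min_le_left _ _
          by_cases sm : s = m
          · rw [sm]; exact min_le_right _ _
          exact (min_le_left _ _).trans (P s (by omega) (by omega)).1
        have h6 : lam (p m) (p (m + 1)) * lam (p 0) (p 1) ≤ K * lam (p 0) (p (m + 1)) * (K * u) := by
          rcases le_total (lam (p 0) (p 1)) (lam (p m) (p (m + 1))) with h7 | h7
          · rw [min_eq_left h7] at h5
            rw [mul_comm]
            exact mul_le_mul h5 h4 tm.le (t0.le.trans h5)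
          · rw [min_eq_right h7] at h5
            exact mul_le_mul h5 h3 t0.le (tm.le.trans h5)
        rw [show K ^ 2 * (lam (p 0) (p (m + 1)) / lam (p 0) (p 1)) * u =
          K * lam (p 0) (p (m + 1)) * (K * u) / lam (p 0) (p 1) by ring, le_div_iff₀ t0]
        exact h6
  -- the fourth move
  have Rl := R.left hi1 him.le
  have hYl : ∀ s, s % 2 = 1 → s < i → Y1 (p s) = p (s + 1) := fun s h1 h2 => by
    rw [Y1c _ (low s (by omega) h2.le), R.od s (by omega) h1]
  obtain ⟨Y2a, Y2b, Y2c⟩ := nodeb_close Rl.toInj hi hi1 hYl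
  obtain ⟨⟨l4, hl4⟩, e6, T3, -⟩ := nodeb_cyc (f := f) hl Rl.toInj hi hi1 hYl S3s S3i
  generalize shift (lst (fun s => p (s + 1)) (i - 1)) Y1 = Y2 at Y2a Y2b Y2c hl4 e6 T3
  generalize shift (lst (fun s => p (s + 1)) (i - 1)) S3 = S5 at hl4 e6
  obtain ⟨Y3a, Y3b, Y3c⟩ := nodeb_close R.toInj hm R.pos (fun s h1 h2 => R.od s h2.le h1)
  have T1 := R.dev_even_proper hl hK hQ P D hm
  generalize shift (lst (fun s => p (s + 1)) (m - 1)) Y = Y3 at Y3a Y3b Y3c T1
  have high : ∀ t, i < t → t ≤ m → ∀ s, 1 ≤ s → s ≤ i → p s ≠ p t :=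
    fun t h1 h2 s h3 h4 => ne _ _ (by omega) (by omega) (by omega) (by omega) (by omega)
  have Y2m : Y2 (p m) = p (i + 1) := by rw [Y2c _ (high m him le_rfl), Y1b]
  have hY2i : Y2 (p i) ≠ p m := by
    rw [Y2b]; exact ne _ _ (by omega) (by omega) (by omega) (by omega) (by omega)
  have hY3 : shift [p i, p m] Y2 = Y3 := by
    have k1 : ∀ s, 2 ≤ s → s ≤ m → s % 2 = 0 → shift [p i, p m] Y2 (p s) = Y3 (p s) := by
      intro s h1 h2 h3
      by_cases si : s = i
      · rw [si, nodeb_pair_fst him' hY2i, Y2m, Y3a i (by omega) him hi]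
      by_cases sm : s = m
      · rw [sm, nodeb_pair_snd him' hY2i, Y2b, Y3b]
      have e : Y2 (p s) = p (s + 1) := by
        rcases lt_or_gt_of_ne si with h4 | h4
        · exact Y2a s h1 h4 h3
        · have := Y1a (s - i) (by omega) (by omega) (by omega)
          rw [show s - i + i = s by omega, show s - i + 1 + i = s + 1 by omega] at this
          rw [Y2c _ (high s h4 h2), this]
      rw [nodeb_pair_other him' (ne _ _ (by omega) (by omega) (by omega) (by omega) si)
        (ne _ _ (by omega) (by omega) (by omega) (by omega) sm)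
        (by rw [e]; exact ne _ _ (by omega) (by omega) (by omega) (by omega) (by omega))
        (by rw [e]; exact ne _ _ (by omega) (by omega) (by omega) (by omega) (by omega)), e,
        Y3a s h1 (by omega) h3]
    have k2 : ∀ u, shift [p i, p m] Y2 u = Y3 u → shift [p i, p m] Y2 (Y3 u) = Y3 (Y3 u) :=
      fun u h => by rw [Y3.inv, ← h, PM.inv]
    refine PM.ext (fun v => ?_)
    by_cases hv : ∃ s, 1 ≤ s ∧ s ≤ m ∧ p s = v
    · obtain ⟨s, h1, h2, rfl⟩ := hv
      by_cases h3 : s % 2 = 0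
      · exact k1 s (by omega) h2 h3
      by_cases h4 : s = 1
      · rw [h4, ← Y3b]; exact k2 _ (k1 m (by omega) le_rfl hm)
      · have := Y3a (s - 1) (by omega) (by omega) (by omega)
        rw [show s - 1 + 1 = s by omega] at this
        rw [← this]; exact k2 _ (k1 _ (by omega) (by omega) (by omega))
    · push Not at hv
      rw [nodeb_pair_other him' (hv i hi1 him.le).symm (hv m R.pos le_rfl).symm
        (fun e => hv 1 le_rfl R.pos (by rw [← Y2b, Y2.eq_iff.1 e]))
        (fun e => hv (i + 1) (by omega) him (by rw [← Y2m, Y2.eq_iff.1 e])),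
        Y2c v (fun s h1 h2 => hv s h1 (by omega)), Y1c v (fun s h1 h2 => hv _ (by omega) (by omega)),
        Y3c v hv]
  have e5 := wt_shift_pair hl him' hY2i
  rw [hY3, Y2b, Y2m] at e5
  -- energy bounds
  have D3 : HH lam f (Y1, S3) ≤ E := by
    have := (D [(2, p i, p m), l2, (2, a, p i)] (by simp)).2
    simpa only [List.foldl, Prod.swap, mv_snd, ← hS1, hl2, hS3] using this
  have D4 : HH lam f (Y2, S5) ≤ E := by
    have := (D [(2, p i, p m), l2, (2, a, p i), l4] (by simp)).2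
    simpa only [List.foldl, Prod.swap, mv_snd, ← hS1, hl2, hS3, hl4] using this
  have T2 := (dev_loc (f := f) hl (Y2, S5) (1, p i, p m)).trans D4
  rw [mv_fst, hY3] at T2
  simp only [w2, two, add_sub_add_right_eq_sub] at T2
  -- weights
  have ti := hl.pos (p i) (p (i + 1))
  have tm := hl.pos (p m) (p (m + 1))
  have c1 : lam (p i) (p (i + 1)) ≤ K * lam (p i) (p 1) := by
    rw [hl.symm (p i) (p 1)]
    exact R.chord hQ (by omega) (by omega) (ne _ _ (by omega) (by omega) (by omega) (by omega) (by omega))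
      (fun s h1 h2 => hmin s h1 (by omega))
  have c2 : lam (p i) (p (i + 1)) ≤ K * lam (p m) (p (i + 1)) := by
    rw [hl.symm (p m) (p (i + 1))]
    exact R.chord hQ (by omega) (by omega) (ne _ _ (by omega) (by omega) (by omega) (by omega) (by omega))
      (fun s h1 h2 => hmin s (by omega) h2)
  have c3 : lam (p i) (p (i + 1)) ≤ K * lam (p m) (p 1) := by
    rw [hl.symm (p m) (p 1)]
    exact R.chord hQ (by omega) (by omega) (ne _ _ (by omega) (by omega) (by omega) (by omega) (by omega))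
      (fun s h1 h2 => hmin s h1 h2)
  have d1 := hd _ (hl.pos _ _) ((P i hi1 him).1.trans c1) ((P i hi1 him).2.trans c1)
  have d3 := hd _ (hl.pos _ _) ((P i hi1 him).1.trans c3) ((P i hi1 him).2.trans c3)
  have e4 : wt lam Y1 * wt lam S3 * (lam (p i) (p (i + 1)) * lam (p m) (p (m + 1))) =
      wt lam S * wt lam Y * (lam (p m) (p (i + 1)) * (d * lam (p i) (p 1))) := by
    refine mul_right_cancel₀ (hl.pos (p i) (p (m + 1))).ne' ?_
    linear_combination (wt lam Y1 * (lam (p i) (p (i + 1)) * lam (p m) (p (m + 1)))) * e3 +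
      (lam (p i) (p 1) * d * (lam (p i) (p (i + 1)) * lam (p m) (p (m + 1)))) * e2 +
      (wt lam Y * lam (p i) (p 1) * d) * e1
  have wA : wt lam S * wt lam Y ≤ K ^ 3 * (wt lam Y1 * wt lam S3) := by
    refine le_of_mul_le_mul_right ?_ (mul_pos ti tm)
    rw [mul_assoc (K ^ 3), e4]
    calc _ ≤ wt lam S * wt lam Y * (K * lam (p m) (p (i + 1)) * (K ^ 2 * d * lam (p i) (p 1))) :=
          mul_le_mul_of_nonneg_left (mul_le_mul c2 d1 tm.le (ti.le.trans c2)) hw.le
      _ = _ := by ring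
  have e7 : wt lam Y3 * wt lam S5 * lam (p m) (p (m + 1)) =
      wt lam S * wt lam Y * (d * lam (p m) (p 1)) := by
    refine mul_right_cancel₀ (mul_pos (hl.pos (p i) (p 1)) (hl.pos (p m) (p (i + 1)))).ne' ?_
    linear_combination (wt lam S5 * lam (p m) (p (m + 1))) * e5 +
      (lam (p m) (p 1) * lam (p i) (p (i + 1)) * lam (p m) (p (m + 1))) * e6 + lam (p m) (p 1) * e4
  have hK23 : K ^ 2 ≤ K ^ 3 := pow_le_pow_right₀ hK (by norm_num)
  have wB : wt lam S * wt lam Y ≤ K ^ 3 * (wt lam Y3 * wt lam S5) := by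
    refine le_trans ?_ (mul_le_mul_of_nonneg_right hK23 (mul_pos (hl.wt_pos _) (hl.wt_pos _)).le)
    refine le_of_mul_le_mul_right ?_ tm
    rw [mul_assoc (K ^ 2), e7]
    calc _ ≤ wt lam S * wt lam Y * (K ^ 2 * d * lam (p m) (p 1)) :=
          mul_le_mul_of_nonneg_left d3 hw.le
      _ = _ := by ring
  have hK3 : 0 ≤ K ^ 3 := by positivity
  have wC : wt lam S * wt lam Y ≤ K ^ 3 * min (wt lam Y2 * wt lam S5) (wt lam Y3 * wt lam S5) := by
    rw [mul_min_of_nonneg _ _ hK3]
    exact le_min (e6 ▸ wA) wB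
  have hE23 : K ^ 2 * E ≤ K ^ 3 * E := mul_le_mul_of_nonneg_right hK23 hE
  have T1' : wt lam S * wt lam Y * (-(f Y3 - f Y - gam lam f p m)) ^ 2 ≤ K ^ 3 * E := by
    rw [neg_sq]; exact T1.trans hE23
  have := nodeb_four hw.le T1' (nodeb_dom hK3 wC T2) (nodeb_dom hK3 wA (T3.trans D3)) (T4.trans hE23)
  rw [mul_assoc 16]
  convert this using 3
  ring

end Crest.Agent.R304
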