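import Crest.Agent.R304.Dev

/-! Row 304: splitting an even run into two odd runs. -/

set_option autoImplicit false

namespace Crest.Agent.R304

open Finset

variable {n : ℕ} {lam : Fin n → Fin n → ℝ} {f : PM n → ℝ} {S Y : PM n} {p : ℕ → Fin n} {m : ℕ}

theorem nodec_ext {A B : PM n} (hm : m % 2 = 0) (hA1 : ∀ j, 2 ≤ j → j < m → j % 2 = 0 → A (p j) = p (j + 1))
    (hA2 : A (p m) = p 1) (hB1 : ∀ j, 2 ≤ j → j < m → j % 2 = 0 → B (p j) = p (j + 1))
    (hB2 : B (p m) = p 1) (h : ∀ v, (∀ s, 1 ≤ s → s ≤ m → p s ≠ v) → A v = B v) : A = B := by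
  refine PM.ext fun v => ?_
  by_cases hv : ∃ s, 1 ≤ s ∧ s ≤ m ∧ p s = v
  · obtain ⟨s, h1, h2, rfl⟩ := hv
    rcases Nat.mod_two_eq_zero_or_one s with hs | hs
    · rcases h2.eq_or_lt with rfl | h3
      · rw [hA2, hB2]
      · rw [hA1 s (by omega) h3 hs, hB1 s (by omega) h3 hs]
    · rcases h1.eq_or_lt with rfl | h3
      · rw [A.eq_iff.1 hA2, B.eq_iff.1 hB2]
      · obtain ⟨j, rfl⟩ : ∃ j, s = j + 1 := ⟨s - 1, by omega⟩
        rw [A.eq_iff.1 (hA1 j (by omega) (by omega) (by omega)),
          B.eq_iff.1 (hB1 j (by omega) (by omega) (by omega))]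
  · exact h v fun s h1 h2 h3 => hv ⟨s, h1, h2, h3⟩

theorem nodec_min {x y t K : ℝ} (hx : 0 < x) (h1 : t ≤ K * x) (h2 : t ≤ K * y) :
    t ≤ K * (x * min 1 (y / x)) := by
  rcases min_choice 1 (y / x) with h | h
  · rwa [h, mul_one]
  · rwa [h, mul_div_cancel₀ _ hx.ne']

theorem nodec_fin {W K E a b c : ℝ} (hW : 0 ≤ W) (hK : 1 ≤ K) (hE : 0 ≤ E) (h1 : W * a ^ 2 ≤ K ^ 2 * E)
    (h2 : W * b ^ 2 ≤ K ^ 3 * E) (h3 : W * c ^ 2 ≤ K ^ 2 * E) : W * (-a + b + c) ^ 2 ≤ 16 * K ^ 3 * E := by
  have h4 : K ^ 2 * E ≤ K ^ 3 * E :=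
    mul_le_mul_of_nonneg_right (pow_le_pow_right₀ hK (by norm_num)) hE
  have h5 : 0 ≤ K ^ 3 * E := mul_nonneg (pow_nonneg (by linarith) _) hE
  have h6 : W * (-a + b + c) ^ 2 ≤ W * (3 * (a ^ 2 + b ^ 2 + c ^ 2)) :=
    mul_le_mul_of_nonneg_left (by nlinarith [sq_nonneg (a + b), sq_nonneg (a + c), sq_nonneg (b - c)]) hW
  nlinarith

/-- `g = (p 2, ..., p m)`, `R = (p (i + 1), ..., p m)`, `L = (p i, ..., p 1)` (reversed).  `Y₁ = shift R Y ∋ p i p m`,
`shift L Y₁ = shift g Y =: Y₃`, and
`gam p m - gam right - gam revleft = -(f Y₃ - f Y - gam p m) + (f Y₃ - f Y₁ - gam revleft) + (f Y₁ - f Y - gam right)`.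
Term 1: `Run.dev_even_proper`; term 3: `Run.dev_odd_proper` in the frame `(Y, S)`.  Term 2: `Run.dev_odd` at
`(Y₁, S₁)`, `S₁ = shift R S ∋ p (i + 1) p (m + 1)` (one move from `(Y, S)`), for the run `p m, p i, ..., p 1, b` with `b = S₁ (p 1)`, which
is `p 0` unless `p 0 = p m` (whole cycle, `p (m + 1) = p 1`), when it is `p (i + 1)`.  With
`wt Y₁ * wt S₁ * (lam (p i) (p (i + 1)) * lam (p m) (p (m + 1))) = wt Y * wt S * (lam (p i) (p m) * lam (p (i + 1)) (p (m + 1)))`
(`Run.wt_col`) check `wt S * wt Y ≤ K ^ 3 * (nu (p i) (p 1) Y₁ * nu (p 1) (p i) S₁)` for the four values of the two minima: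
the factor `lam (p i) (p m) * min 1 (lam (p m) (p 1) / lam (p m) (p i)) = min (lam (p i) (p m)) (lam (p m) (p 1))` is at least
`lam (p i) (p (i + 1)) / K`; if `b = p 0` the remaining two factors lose `K` each; in the whole cycle case
`lam (p (i + 1)) (p 1) * min 1 (lam (p (i + 1)) (p i) / lam (p (i + 1)) (p 1)) ≥ lam (p m) (p 1) / K`. -/
theorem node_even_odd {K E : ℝ} (hl : Pos lam) (hK : 1 ≤ K) (hQ : QU lam K) (R : Run S Y p m)
    (P : Proper lam p m) (D : Dom lam f (S, Y) E) {i : ℕ} (him : i < m)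
    (hmin : ∀ j, 1 ≤ j → j < m → lam (p i) (p (i + 1)) ≤ lam (p j) (p (j + 1)))
    (hm : m % 2 = 0) (hi : i % 2 = 1) :
    wt lam S * wt lam Y *
      (gam lam f p m - (gam lam f (fun s => p (s + i)) (m - i) + gam lam f (fun s => p (i + 1 - s)) i)) ^ 2 ≤
      16 * K ^ 3 * E := by
  have hE := D.nonneg hl
  have hK0 : 0 ≤ K := by linarith
  have hne : ∀ s t, 1 ≤ s → s ≤ m → 1 ≤ t → t ≤ m → s ≠ t → p s ≠ p t :=
    fun s t h1 h2 h3 h4 h5 h6 => h5 (R.inj s t h1 h2 h3 h4 h6)
  have Rq : Run Y S (fun s => p (s + i)) (m - i) := R.right_odd hi him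
  have hq : (m - i) % 2 = 1 := by omega
  have Rg : Run Y S (fun s => p (s + 1)) (m - 1) := R.right_odd rfl (by omega)
  have hg : (m - 1) % 2 = 1 := by omega
  have T1 := R.dev_even_proper hl hK hQ P D hm
  have T3 := Rq.dev_odd_proper hl hK hQ (P.right him hmin) D.swap hq
  have hcol := Rq.wt_col hl hq
  obtain ⟨l, hmv⟩ := Rq.mv_col
  have hHH := (D [l] (by simp)).2
  simp only [List.foldl_cons, List.foldl_nil, Prod.swap_prod_mk, hmv] at hHH
  -- the matchings after the first move
  have y1 : shift (lst (fun s => p (s + i)) (m - i)) Y (p m) = p i := by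
    have h1 := Rq.toInj.shift_last hq Rq.pre
    have h2 := Rq.fst_one
    simp only [Nat.sub_add_cancel him.le, zero_add] at h1 h2
    rw [h1, h2]
  have y2 : ∀ j, i < j → j < m → j % 2 = 0 →
      shift (lst (fun s => p (s + i)) (m - i)) Y (p j) = p (j + 1) := by
    intro j h1 h2 h3
    have h4 := Rq.toInj.shift_inner hq Rq.pre (s := j - i) (by omega) (by omega)
    rwa [show j - i + i = j by omega, show j - i + 1 + i = j + 1 by omega] at h4
  have y3 : ∀ v, (∀ s, i ≤ s → s ≤ m → p s ≠ v) →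
      shift (lst (fun s => p (s + i)) (m - i)) Y v = Y v := by
    intro v hv
    refine Rq.toInj.shift_other hq Rq.pre ?_ fun s h1 h2 => hv _ (by omega) (by omega)
    have h2 := Rq.fst_one
    simp only [zero_add] at h2
    rw [h2]
    exact (hv i le_rfl him.le).symm
  have s1 : shift (lst (fun s => p (s + i)) (m - i)) S (p (i + 1)) = p (m + 1) := by
    have h1 := Rq.shift_snd_first hq
    rwa [show 1 + i = i + 1 by omega, show m - i + 1 + i = m + 1 by omega] at h1
  have s3 : ∀ j, 1 ≤ j → j ≤ i → p (m + 1) ≠ p j →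
      shift (lst (fun s => p (s + i)) (m - i)) S (p j) = S (p j) := by
    intro j h1 h2 h3
    refine Rq.shift_snd_other hq fun s h4 h5 => ?_
    rcases h5.eq_or_lt with rfl | h6
    · rwa [show m - i + 1 + i = m + 1 by omega]
    · exact hne _ _ (by omega) (by omega) h1 (by omega) (by omega)
  simp only [zero_add, Nat.sub_add_cancel him.le, show m - i + 1 + i = m + 1 by omega,
    show 1 + i = i + 1 by omega] at hcol
  generalize shift (lst (fun s => p (s + i)) (m - i)) Y = Y₁ at *
  generalize shift (lst (fun s => p (s + i)) (m - i)) S = S₁ at *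
  -- the reversed left run
  obtain ⟨r, r0, r1, r2⟩ : ∃ r : ℕ → Fin n, r 0 = p m ∧ (∀ s, 1 ≤ s → s ≤ i → r s = p (i + 1 - s)) ∧
      r (i + 1) = S₁ (p 1) :=
    ⟨fun s => if s = 0 then p m else if s ≤ i then p (i + 1 - s) else S₁ (p 1), by simp,
      fun s h1 h2 => by simp only [if_neg (show s ≠ 0 by omega), if_pos h2], by simp⟩
  have ra : r 1 = p i := by rw [r1 1 le_rfl (by omega), Nat.add_sub_cancel]
  have rb : r i = p 1 := by rw [r1 i (by omega) le_rfl, Nat.add_sub_cancel_left]
  have Rr : Run Y₁ S₁ r i := by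
    refine ⟨by omega, fun s t h1 h2 h3 h4 h5 => ?_, fun s h1 h2 => ?_, fun s h1 h2 => ?_⟩
    · rw [r1 s h1 h2, r1 t h3 h4] at h5
      have := R.inj _ _ (by omega) (by omega) (by omega) (by omega) h5
      omega
    · rcases Nat.eq_zero_or_pos s with rfl | h3
      · rw [r0, zero_add, ra, y1]
      · rw [r1 s h3 h1, r1 (s + 1) (by omega) (by omega),
          y3 _ fun t h4 h5 => hne _ _ (by omega) h5 (by omega) (by omega) (by omega), Y.eq_iff,
          R.od _ (by omega) (by omega)]
        congr 1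
        omega
    · rcases h1.eq_or_lt with rfl | h3
      · rw [rb, r2]
      · have h4 : S (p (i + 1 - s)) = p (i + 1 - (s + 1)) := by
          rw [S.eq_iff, R.ev _ (by omega) (by omega)]
          congr 1
          omega
        rw [r1 s (by omega) h1, r1 (s + 1) (by omega) (by omega), s3 _ (by omega) (by omega), h4]
        intro h5
        rw [← h5, S.eq_iff.1 (R.ev m le_rfl hm)] at h4
        exact hne _ _ (by omega) le_rfl (by omega) (by omega) (by omega) h4
  have ey : shift (lst r i) Y₁ = shift (lst (fun s => p (s + 1)) (m - 1)) Y := by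
    have hy : Y₁ (r 1) = p m := by rw [ra, Y₁.eq_iff, y1]
    refine nodec_ext (p := p) hm (fun j h1 h2 h3 => ?_) ?_ (fun j h1 h2 h3 => ?_) ?_ fun v hv => ?_
    · rcases lt_or_ge i j with h4 | h4
      · rw [Rr.toInj.shift_other hi Rr.pre, y2 j h4 h2 h3]
        · rw [hy]
          exact hne _ _ (by omega) (by omega) (by omega) le_rfl (by omega)
        · intro s h5 h6
          rw [r1 s h5 h6]
          exact hne _ _ (by omega) (by omega) (by omega) (by omega) (by omega)
      · have h5 := Rr.toInj.shift_inner hi Rr.pre (s := i - j) (by omega) (by omega)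
        rw [r1 _ (by omega) (by omega), r1 _ (by omega) (by omega), show i + 1 - (i - j) = j + 1 by omega,
          show i + 1 - (i - j + 1) = j by omega] at h5
        rw [PM.eq_iff, h5]
    · rw [PM.eq_iff, ← rb, Rr.toInj.shift_last hi Rr.pre, hy]
    · have h4 := Rg.toInj.shift_inner hg Rg.pre (s := j - 1) (by omega) (by omega)
      rwa [show j - 1 + 1 = j by omega] at h4
    · have h1 := Rg.toInj.shift_last hg Rg.pre
      have h2 := Rg.fst_one
      simp only [show m - 1 + 1 = m by omega, zero_add] at h1 h2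
      rw [h1, h2]
    · rw [Rr.toInj.shift_other hi Rr.pre, y3 v fun s h1 h2 => hv s (by omega) h2,
        Rg.toInj.shift_other hg Rg.pre]
      · have h2 := Rg.fst_one
        simp only [zero_add] at h2
        rw [h2]
        exact (hv 1 le_rfl (by omega)).symm
      · exact fun s h1 h2 => hv _ (by omega) (by omega)
      · rw [hy]
        exact (hv m (by omega) le_rfl).symm
      · intro s h5 h6
        rw [r1 s h5 h6]
        exact hv _ (by omega) (by omega)
  have T2 := (Rr.dev_odd (f := f) hl hi).trans hHH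
  rw [ey, gam_congr (q := fun s => p (i + 1 - s)) (by omega) r1, ra, rb, nu, nu, Y₁.eq_iff.1 y1] at T2
  -- weights
  have hA : lam (p i) (p (i + 1)) ≤ K * (lam (p m) (p i) * min 1 (lam (p m) (p 1) / lam (p m) (p i))) := by
    refine nodec_min (hl.pos _ _) ?_ ?_
    · rw [hl.symm (p m)]
      exact R.chord hQ him (by omega) (hne _ _ (by omega) him.le (by omega) le_rfl him.ne)
        fun s h1 h2 => hmin s (by omega) h2
    · rw [hl.symm (p m)]
      exact R.chord hQ (by omega) (by omega) (hne _ _ le_rfl (by omega) (by omega) le_rfl (by omega))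
        fun s h1 h2 => hmin s h1 h2
  have hB : lam (p m) (p (m + 1)) ≤ K ^ 2 * (lam (p (i + 1)) (p (m + 1)) *
      min 1 (lam (S₁ (p 1)) (p i) / lam (S₁ (p 1)) (p 1))) := by
    by_cases hc : p (m + 1) = p 1
    · have hb : S₁ (p 1) = p (i + 1) := by rw [S₁.eq_iff, s1, hc]
      have h0 : lam (p m) (p (m + 1)) ≤ K * (lam (p (i + 1)) (p 1) *
          min 1 (lam (p (i + 1)) (p i) / lam (p (i + 1)) (p 1))) := by
        refine nodec_min (hl.pos _ _) ?_ ?_
        · rw [hl.symm (p (i + 1))]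
          exact R.chord hQ (by omega) (by omega) (hne _ _ le_rfl (by omega) (by omega) him (by omega))
            fun s h1 h2 => (P s h1 (by omega)).2
        · rw [hl.symm (p (i + 1))]
          exact (P i (by omega) him).2.trans (le_mul_of_one_le_left (hl.pos _ _).le hK)
      rw [hb]
      refine h0.trans ?_
      rw [hc]
      exact mul_le_mul_of_nonneg_right (by nlinarith)
        (mul_nonneg (hl.pos _ _).le (le_min zero_le_one (div_pos (hl.pos _ _) (hl.pos _ _)).le))
    · have hb : S₁ (p 1) = p 0 := by rw [s3 1 le_rfl (by omega) hc, R.fst_one]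
      have h1 : lam (p m) (p (m + 1)) ≤ K * lam (p (i + 1)) (p (m + 1)) := by
        refine R.chord hQ (by omega) le_rfl (s1 ▸ (S₁.ne _).symm) fun s h1 h2 => ?_
        rcases (Nat.le_of_lt_succ h2).eq_or_lt with rfl | h3
        · exact le_rfl
        · exact (P s (by omega) h3).2
      have h2 : lam (p 0) (p 1) ≤ K * lam (p 0) (p i) := by
        refine R.chord hQ (by omega) (by omega) (fun h3 => ?_) fun s _ h2 => ?_
        · have h4 : S (p (i - 1)) = p i := by
            rw [R.ev _ (by omega) (by omega)]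
            congr 1
            omega
          have h5 : p (i - 1) = p 1 := S.inj (h4.trans (h3.symm.trans R.fst_one.symm))
          rcases Nat.eq_zero_or_pos (i - 1) with h6 | h6
          · rw [h6] at h5
            exact R.ne_succ (Nat.zero_le _) h5
          · exact hne _ _ h6 (by omega) le_rfl (by omega) (by omega) h5
        · rcases Nat.eq_zero_or_pos s with rfl | h3
          · exact le_rfl
          · exact (P s h3 (by omega)).1
      have h3 : 1 ≤ K * min 1 (lam (p 0) (p i) / lam (p 0) (p 1)) := by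
        have h4 := nodec_min (x := 1) (y := lam (p 0) (p i) / lam (p 0) (p 1)) (t := 1) (K := K) one_pos
          (by linarith) (by rw [← mul_div_assoc, le_div_iff₀ (hl.pos _ _)]; linarith)
        rwa [one_mul, div_one] at h4
      rw [hb]
      calc _ ≤ K * lam (p (i + 1)) (p (m + 1)) * 1 := by rwa [mul_one]
        _ ≤ K * lam (p (i + 1)) (p (m + 1)) * (K * min 1 (lam (p 0) (p i) / lam (p 0) (p 1))) :=
          mul_le_mul_of_nonneg_left h3 (mul_nonneg hK0 (hl.pos _ _).le)
        _ = _ := by ring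
  have hW : 0 < wt lam S * wt lam Y := mul_pos (hl.wt_pos S) (hl.wt_pos Y)
  generalize min 1 (lam (p m) (p 1) / lam (p m) (p i)) = u at *
  generalize min 1 (lam (S₁ (p 1)) (p i) / lam (S₁ (p 1)) (p 1)) = w at *
  have hdom : wt lam S * wt lam Y ≤ K ^ 3 * (wt lam Y₁ * u * (wt lam S₁ * w)) := by
    refine le_of_mul_le_mul_right ?_ (mul_pos (hl.pos (p i) (p (i + 1))) (hl.pos (p m) (p (m + 1))))
    calc _ ≤ wt lam S * wt lam Y * ((K * (lam (p m) (p i) * u)) *
          (K ^ 2 * (lam (p (i + 1)) (p (m + 1)) * w))) :=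
          mul_le_mul_of_nonneg_left (mul_le_mul hA hB (hl.pos _ _).le ((hl.pos _ _).le.trans hA)) hW.le
      _ = K ^ 3 * u * w * (wt lam Y * wt lam S * (lam (p i) (p m) * lam (p (i + 1)) (p (m + 1)))) := by
          rw [hl.symm (p m) (p i)]; ring
      _ = _ := by rw [← hcol]; ring
  have T2' := (mul_le_mul_of_nonneg_right hdom (sq_nonneg
    (f (shift (lst (fun s => p (s + 1)) (m - 1)) Y) - f Y₁ - gam lam f (fun s => p (i + 1 - s)) i))).trans
    ((mul_assoc _ _ _).le.trans (mul_le_mul_of_nonneg_left T2 (pow_nonneg hK0 3)))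
  rw [mul_comm (wt lam Y)] at T3
  refine le_of_eq_of_le ?_ (nodec_fin hW.le hK hE T1 T2' T3)
  ring

end Crest.Agent.R304
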