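import Crest.Agent.R304.Est
import Crest.Agent.R304.LearnStep
import Crest.Agent.R304.Init

/-! Row 304: the invariant of the outer loop is preserved. -/

set_option autoImplicit false

namespace Crest.Agent.R304

open Finset Crest.Agent.Lib.PT Crest.Agent.R309

variable {n ℓ j : ℕ} {G : List (List Bool)} {sched : List KM} {prev cur : KM} {z : ℚ}
  {x : Fin (pN ℓ) → PM n}

theorem outer_params {s M : ℝ} {a u : ℕ} (hs : 1024 ≤ s) (hM : M = s ^ 630) (ha : (a : ℝ) = s ^ 626)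
    (hu : (u : ℝ) = s ^ 628) :
    1 + 1 / s ^ 2 ≤ (1 + 1 / M) ^ u ∧ (1 + 1 / M) ^ u ≤ 1 + 2 / s ^ 2 ∧
      1 + 1 / s ^ 4 ≤ (1 + 1 / M) ^ a ∧ (1 + 1 / M) ^ a ≤ 1 + 2 / s ^ 4 := by
  have hs0 : 0 < s := by linarith
  have hM0 : 0 < M := by rw [hM]; positivity
  have e1 : (u : ℝ) * (1 / M) = 1 / s ^ 2 := by
    rw [hu, hM, show s ^ 630 = s ^ 628 * s ^ 2 by rw [← pow_add]]
    field_simp
  have e2 : (a : ℝ) * (1 / M) = 1 / s ^ 4 := by
    rw [ha, hM, show s ^ 630 = s ^ 626 * s ^ 4 by rw [← pow_add]]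
    field_simp
  have hd : (0 : ℝ) ≤ 1 / M := by positivity
  have h2 : 2 ≤ s ^ 2 := by nlinarith
  have h4 : 2 ≤ s ^ 4 := by nlinarith
  have k1 : 2 * (u : ℝ) * (1 / M) = 2 / s ^ 2 := by rw [mul_assoc, e1]; ring
  have k2 : 2 * (a : ℝ) * (1 / M) = 2 / s ^ 4 := by rw [mul_assoc, e2]; ring
  refine ⟨?_, ?_, ?_, ?_⟩
  · rw [← e1]
    exact one_add_mul_le_pow (by linarith) u
  · rw [← k1]
    refine stage_pow_le hd u ?_
    rw [k1, div_le_one (by positivity)]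
    exact h2
  · rw [← e2]
    exact one_add_mul_le_pow (by linarith) a
  · rw [← k2]
    refine stage_pow_le hd a ?_
    rw [k2, div_le_one (by positivity)]
    exact h4

theorem outer_ent_sub (H : Sz n ℓ G) (X : List (List ℕ)) (i : ℕ) (u v : Fin n) :
    ent2 (sub ℓ G cur X i) u v = if up ℓ G cur X u v then ent2 cur u v + i
      else if dn ℓ G cur X u v then ent2 cur u v - min i (pa ℓ) else ent2 cur u v := by
  rw [sub, H.len, ent2_mat]

theorem outer_cnt_symm {N : ℕ} (y : Fin N → PM n) (u v : Fin n) :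
    cnt (encX y) u v = cnt (encX y) v u := by
  rw [cnt_encX, cnt_encX]
  exact congrArg _ (filter_congr fun i _ => (y i).eq_iff)

theorem outer_up_symm (H : Sz n ℓ G) (hk : KOk n ℓ cur) (u v : Fin n) :
    up ℓ G cur (encX x) u v = up ℓ G cur (encX x) v u := by
  unfold up
  rw [outer_cnt_symm x u v, hk.1 u v, H.symm u v]

theorem outer_dn_symm (H : Sz n ℓ G) (hk : KOk n ℓ cur) (u v : Fin n) :
    dn ℓ G cur (encX x) u v = dn ℓ G cur (encX x) v u := by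
  unfold dn
  rw [outer_cnt_symm x u v, hk.1 u v, H.symm u v]

theorem outer_near (H : Sz n ℓ G) (X : List (List ℕ)) (i : ℕ) (u v : Fin n) :
    ent2 cur u v ≤ ent2 (sub ℓ G cur X i) u v + i ∧ ent2 (sub ℓ G cur X i) u v ≤ ent2 cur u v + i := by
  rw [outer_ent_sub H]
  split_ifs <;> omega

theorem outer_adj (H : Sz n ℓ G) (X : List (List ℕ)) (i : ℕ) :
    Adj1 n (sub ℓ G cur X i) (sub ℓ G cur X (i + 1)) := by
  intro u v
  rw [outer_ent_sub H, outer_ent_sub H]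
  split_ifs <;> omega

theorem outer_pK (ℓ : ℕ) : pK ℓ = pJ ℓ * pu ℓ := by
  simp only [pK, pJ, pu, pw_eq]
  rw [← pow_add]

theorem outer_pa_le (ℓ : ℕ) : pa ℓ ≤ pu ℓ := by
  calc pa ℓ = (2 ^ ℓ) ^ 626 := pw_eq _ _
    _ ≤ (2 ^ ℓ) ^ 628 := Nat.pow_le_pow_right (Nat.two_pow_pos ℓ) (by norm_num)
    _ = pu ℓ := (pw_eq _ _).symm

theorem outer_kOk (H : Sz n ℓ G) (L : Live n ℓ G j sched prev cur z) (hj : j < pJ ℓ) {i : ℕ}
    (hi : i ≤ pu ℓ) : KOk n ℓ (sub ℓ G cur (encX x) i) := by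
  refine ⟨fun u v => ?_, fun u v => ?_⟩
  · rw [outer_ent_sub H, outer_ent_sub H, outer_up_symm H L.okc u v, outer_dn_symm H L.okc u v,
      L.okc.1 u v]
  · have h1 := (outer_near (cur := cur) H (encX x) i u v).2
    have h2 := (L.bd u v).2
    have h3 : (j + 1) * pu ℓ ≤ pJ ℓ * pu ℓ := Nat.mul_le_mul_right _ hj
    rw [← outer_pK, add_mul, one_mul] at h3
    omega

theorem outer_num {s N p q : ℝ} (hs : 1024 ≤ s) (hN0 : 0 ≤ N) (hN : N ≤ s) (h1 : 1 + 1 / s ^ 2 ≤ p)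
    (h2 : p ≤ 1 + 2 / s ^ 2) (h3 : 1 + 1 / s ^ 4 ≤ q) (h4 : q ≤ 1 + 2 / s ^ 4) :
    4 * N ^ 2 * (1 / s ^ 3) ≤ 1 ∧ 0 < p - 1 ∧ (N + 2) * (p - 1) ≤ 1 ∧ 0 < 1 - 1 / q ∧
      4 * (N + 1) * (1 - 1 / q) ≤ p - 1 ∧ 1 / (4 * s ^ 7) ≤ 1 / s ^ 3 * (1 - 1 / q) / 2 ∧
      2 * (2 * N) * (p - 1) ≤ 1 := by
  have hs0 : 0 < s := by linarith
  have hs2 : 0 < s ^ 2 := by positivity
  have hs4 : 0 < 1 / s ^ 4 := by positivity
  have hs2' : 0 < 1 / s ^ 2 := by positivity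
  have hq1 : 1 < q := by linarith
  have hq0 : 0 < q := by linarith
  have hp : p - 1 ≤ 2 / s ^ 2 := by linarith
  have hp0 : 0 < p - 1 := by linarith
  have hd : 1 - 1 / q ≤ 2 / s ^ 4 := by
    have : 1 - 1 / q = (q - 1) / q := by field_simp
    rw [this]
    exact (div_le_self (by linarith) hq1.le).trans (by linarith)
  have hd0 : 1 / (2 * s ^ 4) ≤ 1 - 1 / q := by
    have h5 : 1 / q ≤ 1 / (1 + 1 / s ^ 4) := one_div_le_one_div_of_le (by positivity) h3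
    have h6 : 1 / (1 + 1 / s ^ 4) = 1 - 1 / (s ^ 4 + 1) := by field_simp; ring
    have h7 : 1 / (2 * s ^ 4) ≤ 1 / (s ^ 4 + 1) := by
      refine one_div_le_one_div_of_le (by positivity) ?_
      have : 1 ≤ s ^ 4 := one_le_pow₀ (by linarith)
      linarith
    linarith
  have hd1 : 0 < 1 - 1 / q := lt_of_lt_of_le (by positivity) hd0
  refine ⟨?_, hp0, ?_, hd1, ?_, ?_, ?_⟩
  · rw [mul_one_div, div_le_one (by positivity)]
    have : N ^ 2 ≤ s ^ 2 := pow_le_pow_left₀ hN0 hN 2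
    nlinarith
  · refine (mul_le_mul (by linarith : N + 2 ≤ s + 2) hp hp0.le (by linarith)).trans ?_
    rw [← mul_div_assoc, div_le_one hs2]
    nlinarith
  · refine (mul_le_mul (by linarith : 4 * (N + 1) ≤ 4 * (s + 1)) hd hd1.le (by linarith)).trans
      (le_trans ?_ (by linarith : 1 / s ^ 2 ≤ p - 1))
    rw [← mul_div_assoc, div_le_div_iff₀ (by positivity) hs2]
    have : s ^ 4 = s ^ 2 * s ^ 2 := by ring
    have h8 : 4 * (s + 1) * 2 ≤ s ^ 2 := by nlinarith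
    nlinarith
  · have : 1 / (4 * s ^ 7) = 1 / s ^ 3 * (1 / (2 * s ^ 4)) / 2 := by field_simp; ring
    rw [this]
    gcongr
  · refine (mul_le_mul (by linarith : 2 * (2 * N) ≤ 4 * s) hp hp0.le (by linarith)).trans ?_
    rw [← mul_div_assoc, div_le_one hs2]
    nlinarith

/-- `vm_init`, `bal_of_vm`, `phi_init` (`n log (M + 1) + n² ≤ s³`, as `M + 1 ≤ 2 ^ (631 ℓ)` and `ℓ ≤ s`; use `ℓ ≤ s / 64` or `log 2 ≤ 1`,
`632 s² ≤ s³`), `Zf_init_le`, `card_PM` -/
theorem Sz.live_zero (H : Sz n ℓ G) (hn : Even n) :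
    Live n ℓ G 0 [k0 ℓ n] (k0 ℓ n) (k0 ℓ n) (((pM ℓ * pD ℓ) ^ (n / 2) * df n : ℕ) : ℚ) := by
  have : Nonempty (PM n) := nonempty_PM hn
  have hs := H.s_ge
  have hns := H.n_le
  have hg := H.gr
  have hM : (pM ℓ : ℝ) = ((2 : ℝ) ^ ℓ) ^ 630 := pw_cast 630 ℓ
  have hD : (0 : ℝ) < pD ℓ := by exact_mod_cast pD_pos ℓ
  have hz : (((((pM ℓ * pD ℓ) ^ (n / 2) * df n : ℕ) : ℚ)) : ℝ) =
      (pD ℓ : ℝ) ^ (n / 2) * ((pM ℓ : ℝ) ^ (n / 2) * Fintype.card (PM n)) := by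
    rw [card_PM hn, Rat.cast_natCast]
    push_cast
    rw [mul_pow]
    ring
  have hs0 : (0 : ℝ) < (2 : ℝ) ^ ℓ := by positivity
  have hs1 : (1 : ℝ) ≤ (2 : ℝ) ^ ℓ := by linarith
  have hsM : (2 : ℝ) ^ ℓ ≤ pM ℓ := by rw [hM]; exact le_self_pow₀ hs1 (by norm_num)
  have hM1 : (1 : ℝ) ≤ pM ℓ := hs1.trans hsM
  have hM0 : (0 : ℝ) < pM ℓ := by linarith
  have hvm : ∀ u v : Fin n, u ≠ v →
      1 / ((2 : ℝ) ^ ℓ) ^ 3 / 4 ≤ vm (gR n G) (omR n ℓ (k0 ℓ n)) u v := by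
    intro u v huv
    rw [omR_k0]
    refine le_trans ?_ (vm_init hg hM1 (hns.trans hsM) huv)
    have hn0 : (0 : ℝ) < n := by exact_mod_cast u.pos
    rw [div_div]
    refine one_div_le_one_div_of_le (by positivity) ?_
    have : (2 : ℝ) ^ ℓ ≤ ((2 : ℝ) ^ ℓ) ^ 3 := le_self_pow₀ hs1 (by norm_num)
    linarith
  have hZ := Zf_init_le hg hM0
  refine ⟨⟨rfl, List.isChain_singleton _, fun k hk => ?_⟩, by simp, rfl, kOk_k0, kOk_k0,
    fun u v => ?_, fun u v => ⟨Nat.le_add_right _ _, Nat.le_add_right _ _⟩, hvm, ?_, ?_, ?_⟩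
  · rw [List.mem_singleton] at hk
    subst hk
    refine ⟨kOk_k0, ?_⟩
    have := bal_of_vm hg (kOk_k0 (n := n) (ℓ := ℓ)).pos (β := 1 / (8 * ((2 : ℝ) ^ ℓ) ^ 3))
      (by positivity) fun u v huv => le_trans (by
        rw [div_div]
        exact one_div_le_one_div_of_le (by positivity) (by nlinarith [pow_pos hs0 3])) (hvm u v huv)
    rwa [one_div_one_div] at this
  · rw [k0, ent2_mat]
    omega
  · rw [omR_k0]
    refine (phi_init hg hM1 (by positivity)).trans ?_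
    rw [hM]
    generalize (2 : ℝ) ^ ℓ = s at *
    have h1 : s ^ 630 + 1 ≤ s ^ 631 := by
      have : (1 : ℝ) ≤ s ^ 630 := one_le_pow₀ hs1
      rw [pow_succ s 630]
      nlinarith
    have h2 : Real.log (s ^ 630 + 1) ≤ 631 * s := by
      refine (Real.log_le_log (by positivity) h1).trans ?_
      rw [Real.log_pow]
      push_cast
      have := Real.log_le_sub_one_of_pos hs0
      linarith
    have hn0 : (0 : ℝ) ≤ n := Nat.cast_nonneg n
    have h3 : (n : ℝ) * Real.log (s ^ 630 + 1) ≤ s * (631 * s) :=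
      (mul_le_mul_of_nonneg_left h2 hn0).trans (mul_le_mul_of_nonneg_right hns (by positivity))
    have h4 : (n : ℝ) ^ 2 ≤ s ^ 2 := pow_le_pow_left₀ hn0 hns 2
    have h5 : 1024 * s ^ 2 ≤ s ^ 3 := by nlinarith [pow_pos hs0 2]
    simp only [Nat.cast_zero, zero_div, sub_zero]
    nlinarith [pow_pos hs0 2]
  · rw [hz, omR_k0, zero_add, pow_one, mul_left_comm]
    refine mul_le_mul_of_nonneg_left ?_ (by positivity)
    have hn2 : ((n / 2 : ℕ) : ℝ) * 2 ≤ n := by exact_mod_cast Nat.div_mul_le_self n 2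
    have h13 : ((2 : ℝ) ^ ℓ) ^ 14 ≤ pM ℓ := by rw [hM]; exact pow_le_pow_right₀ hs1 (by norm_num)
    have h1 : 2 * ((n / 2 : ℕ) : ℝ) * (1 / (pM ℓ : ℝ)) ≤ 1 / ((2 : ℝ) ^ ℓ) ^ 13 := by
      rw [mul_one_div, div_le_div_iff₀ hM0 (by positivity)]
      have : ((2 : ℝ) ^ ℓ) ^ 14 = (2 : ℝ) ^ ℓ * ((2 : ℝ) ^ ℓ) ^ 13 := by ring
      nlinarith [pow_pos hs0 13]
    have ht0 : (0 : ℝ) < 1 / ((2 : ℝ) ^ ℓ) ^ 13 := by positivity
    have ht1 : 1 / ((2 : ℝ) ^ ℓ) ^ 13 ≤ 1 / 8 :=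
      one_div_le_one_div_of_le (by norm_num) (le_trans (by linarith) (le_self_pow₀ hs1 (by norm_num)))
    have h2 := stage_pow_le (δ := 1 / (pM ℓ : ℝ)) (by positivity) (n / 2) (by linarith)
    have h3 : ((pM ℓ : ℝ) + 1) ^ (n / 2) = (pM ℓ : ℝ) ^ (n / 2) * (1 + 1 / (pM ℓ : ℝ)) ^ (n / 2) := by
      rw [← mul_pow]
      congr 1
      field_simp
    have h8 : 8 / ((2 : ℝ) ^ ℓ) ^ 13 = 8 * (1 / ((2 : ℝ) ^ ℓ) ^ 13) := by ring
    rw [h8]
    generalize 1 / ((2 : ℝ) ^ ℓ) ^ 13 = t at *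
    have hA : (0 : ℝ) ≤ (pM ℓ : ℝ) ^ (n / 2) * Fintype.card (PM n) := by positivity
    have h4 : Zf (gR n G + fun _ _ => (pM ℓ : ℝ)) ≤
        (1 + t) * ((pM ℓ : ℝ) ^ (n / 2) * Fintype.card (PM n)) := by
      refine hZ.2.trans ?_
      rw [h3, mul_right_comm, mul_comm]
      exact mul_le_mul_of_nonneg_right (by linarith) hA
    calc _ ≤ (1 - 8 * t) * ((1 + t) * ((pM ℓ : ℝ) ^ (n / 2) * Fintype.card (PM n))) :=
          mul_le_mul_of_nonneg_left h4 (by linarith)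
      _ = ((1 - 8 * t) * (1 + t)) * ((pM ℓ : ℝ) ^ (n / 2) * Fintype.card (PM n)) := by ring
      _ ≤ 1 * ((pM ℓ : ℝ) ^ (n / 2) * Fintype.card (PM n)) :=
          mul_le_mul_of_nonneg_right (by nlinarith) hA
      _ = _ := one_mul _
  · rw [hz, omR_k0, zero_add, pow_one]
    refine (mul_le_mul_of_nonneg_left hZ.1 (by positivity)).trans (le_mul_of_one_le_left ?_ ?_)
    · refine mul_nonneg (by positivity) (le_trans (by positivity) hZ.1)
    · exact le_add_of_nonneg_right (by positivity)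

/-- Let `ρ = 1 + 1 / M`, `1 + U = ρ ^ pu`, `1 - d = 1 / ρ ^ pa`; `1 / s² ≤ U ≤ 2 / s²` and `1 / (2 s⁴) ≤ d ≤ 1 / s⁴`.  `up`, `dn` are symmetric (`cnt_encX`, `PM.eq_iff`), the entries of `cur`
are at least `pu ≥ pa` and at most `2 pK - pu` (`bd`, `pK = pJ * pu`), so `omR (sub pu) = omR cur * τ` with `τ ∈ {1 + U, 1 - d, 1}`; `learn_step` with `Live.est_dir` (an edge with `dn` is not
`up`).  The intermediate exponents are balanced by `close_omR`, `Close.vm_le` (`ρ ^ (pu * 2 n) ≤ 2`) and `bal_of_vm`.  Estimates: `Live.est_rho`. -/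
theorem Live.step [Nonempty (PM n)] (H : Sz n ℓ G) (L : Live n ℓ G j sched prev cur z) (hj : j < pJ ℓ)
    (hx : Good n ℓ G prev cur x) (hd : anyDn ℓ G cur (encX x) = true) :
    Live n ℓ G (j + 1) (sched ++ (List.range (pu ℓ)).map fun i => sub ℓ G cur (encX x) (i + 1)) cur
      (sub ℓ G cur (encX x) (pu ℓ)) (z / rho ℓ G prev cur (encX x)) := by
  have hs := H.s_ge
  have hns := H.n_le
  have hg := H.gr
  have hM0 : (0 : ℝ) < pM ℓ := by exact_mod_cast pw_pos 630 ℓ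
  have hpu : 0 < pu ℓ := pw_pos 628 ℓ
  have hs0 : (0 : ℝ) < (2 : ℝ) ^ ℓ := by positivity
  obtain ⟨p1, p2, p3, p4⟩ := outer_params hs (pw_cast 630 ℓ) (pw_cast 626 ℓ) (pw_cast 628 ℓ)
  obtain ⟨c1, c2, c3, c4, c5, c6, c7⟩ := outer_num hs (Nat.cast_nonneg n) hns p1 p2 p3 p4
  have hρ : (1 : ℝ) ≤ 1 + 1 / (pM ℓ : ℝ) := le_add_of_nonneg_right (by positivity)
  have hlow : ∀ u v : Fin n, pa ℓ ≤ ent2 cur u v := by
    intro u v
    have h2 := (L.bd u v).1
    have h3 : (j + 1) * pu ℓ ≤ pJ ℓ * pu ℓ := Nat.mul_le_mul_right _ hj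
    have h4 := outer_pa_le ℓ
    rw [← outer_pK, add_mul, one_mul] at h3
    omega
  set τ : Fin n → Fin n → ℝ := fun u v =>
    if up ℓ G cur (encX x) u v then (1 + 1 / (pM ℓ : ℝ)) ^ pu ℓ
    else if dn ℓ G cur (encX x) u v then 1 / (1 + 1 / (pM ℓ : ℝ)) ^ pa ℓ else 1 with hτ
  have hom : omR n ℓ (sub ℓ G cur (encX x) (pu ℓ)) = fun u v => omR n ℓ cur u v * τ u v := by
    funext u v
    simp only [omR, hτ]
    rw [outer_ent_sub H, min_eq_right (outer_pa_le ℓ)]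
    split_ifs
    · rw [pow_add]
      ring
    · rw [pow_sub₀ _ (by positivity) (hlow u v)]
      ring
    · rw [mul_one]
  have hb : (0 : ℝ) < 1 / ((2 : ℝ) ^ ℓ) ^ 3 := by positivity
  have hl := learn_step (τ := τ) (b := 1 / ((2 : ℝ) ^ ℓ) ^ 3) (U := (1 + 1 / (pM ℓ : ℝ)) ^ pu ℓ - 1)
    (d := 1 - 1 / (1 + 1 / (pM ℓ : ℝ)) ^ pa ℓ) hg L.okc.pos
    (fun u v => by simp only [hτ]; rw [outer_up_symm H L.okc u v, outer_dn_symm H L.okc u v])
    (fun u v => by simp only [hτ]; split_ifs <;> positivity) hb c1 c2 c3 c4 c5 L.vml (fun u v _ => by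
      obtain ⟨e1, e2, e3, -⟩ := L.est_dir H hx u v
      simp only [hτ]
      by_cases h1 : up ℓ G cur (encX x) u v = true
      · exact Or.inl ⟨by rw [if_pos h1]; ring, e1 h1⟩
      · by_cases h2 : dn ℓ G cur (encX x) u v = true
        · exact Or.inr (Or.inl ⟨by rw [if_neg h1, if_pos h2]; ring, e3 h2⟩)
        · exact Or.inr (Or.inr ⟨by rw [if_neg h1, if_neg h2], e2 (by simpa using h1)⟩))
  rw [← hom] at hl
  have hex : ∃ u v : Fin n, u ≠ v ∧ τ u v = 1 - (1 - 1 / (1 + 1 / (pM ℓ : ℝ)) ^ pa ℓ) := by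
    simp only [anyDn, List.any_eq_true, List.mem_range, Bool.and_eq_true, decide_eq_true_eq,
      H.len] at hd
    obtain ⟨u, hu, v, hv, huv, h2⟩ := hd
    refine ⟨⟨u, hu⟩, ⟨v, hv⟩, fun e => huv (congrArg Fin.val e), ?_⟩
    obtain ⟨e1, -, e3, -⟩ := L.est_dir H hx ⟨u, hu⟩ ⟨v, hv⟩
    have h1 : ¬ up ℓ G cur (encX x) u v = true := fun h1 => by
      have := e1 h1
      have := e3 h2
      linarith
    simp only [hτ]
    rw [if_neg h1, if_pos h2]
    ring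
  have hne : sched ≠ [] := fun e => by simpa [e] using L.last
  have hr := L.est_rho H hx
  refine ⟨⟨?_, L.sch.chain.append ?_ ?_, fun k hk => ?_⟩, ?_, ?_, L.okc, outer_kOk H L hj le_rfl,
    fun u v => ?_, fun u v => outer_near H _ _ u v, hl.1, ?_, hr.1, hr.2⟩
  · rw [List.head?_append_of_ne_nil _ hne, L.sch.head]
  · rw [List.isChain_map, List.isChain_range]
    exact fun m _ => outer_adj H _ _
  · intro a ha c hc
    rw [L.last] at ha
    rw [List.head?_map, List.head?_range, if_neg hpu.ne'] at hc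
    simp only [Option.mem_def, Option.some.injEq, Option.map_some] at ha hc
    subst ha hc
    exact fun u v => outer_near H _ _ u v
  · rcases List.mem_append.1 hk with hk | hk
    · exact L.sch.ok k hk
    · obtain ⟨i, hi, rfl⟩ := List.mem_map.1 hk
      have hi' : i + 1 ≤ pu ℓ := List.mem_range.1 hi
      have hok := outer_kOk (x := x) H L hj hi'
      refine ⟨hok, ?_⟩
      have hcl : Close ((1 + 1 / (pM ℓ : ℝ)) ^ pu ℓ) (omR n ℓ cur)
          (omR n ℓ (sub ℓ G cur (encX x) (i + 1))) := close_omR fun u v => by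
        have := outer_near (cur := cur) H (encX x) (i + 1) u v
        omega
      have h2 : ((1 + 1 / (pM ℓ : ℝ)) ^ pu ℓ) ^ (2 * n) ≤ 2 := by
        have h3 := stage_pow_le c2.le (2 * n) (by push_cast; exact c7)
        rw [add_sub_cancel] at h3
        push_cast at h3
        linarith
      have := bal_of_vm hg hok.pos (β := 1 / (8 * ((2 : ℝ) ^ ℓ) ^ 3)) (by positivity)
        fun u v huv => by
          have h3 := hcl.vm_le hg L.okc.pos hok.pos (one_le_pow₀ hρ) huv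
          have h4 := L.vml u v huv
          have h5 : 0 < ((1 + 1 / (pM ℓ : ℝ)) ^ pu ℓ) ^ (2 * n) := by positivity
          have h6 : 0 ≤ vm (gR n G) (omR n ℓ (sub ℓ G cur (encX x) (i + 1))) u v :=
            ((mul_pos_iff_of_pos_left h5).1 (lt_of_lt_of_le (by positivity) (h4.trans h3))).le
          have h7 := mul_le_mul_of_nonneg_right h2 h6
          have h8 : 1 / (8 * ((2 : ℝ) ^ ℓ) ^ 3) = 1 / ((2 : ℝ) ^ ℓ) ^ 3 / 4 / 2 := by
            field_simp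
            norm_num
          rw [h8]
          linarith
      rwa [one_div_one_div] at this
  · have := L.len
    rw [List.length_append, List.length_map, List.length_range, add_mul, one_mul]
    omega
  · rw [List.getLast?_append, List.getLast?_map, List.getLast?_range, if_neg hpu.ne',
      Option.map_some, Nat.sub_add_cancel hpu]
    rfl
  · have h1 := outer_near (cur := cur) H (encX x) (pu ℓ) u v
    have h2 := L.bd u v
    rw [add_mul, one_mul]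
    omega
  · have h1 := hl.2 hex
    have h2 := L.phi
    push_cast
    rw [add_div]
    linarith

/-- `phi_nonneg` -/
theorem Live.not_final (H : Sz n ℓ G) (hc : 0 < cntG n G) (L : Live n ℓ G (pJ ℓ) sched prev cur z) :
    False := by
  have hs := H.s_ge
  have hns := H.n_le
  have hphi := L.phi
  obtain ⟨S, hS⟩ := card_pos.1 hc
  have hS' := (mem_filter.1 hS).2
  have hJ : (pJ ℓ : ℝ) = ((2 : ℝ) ^ ℓ) ^ 11 := pw_cast 11 ℓ
  rw [hJ] at hphi
  generalize (2 : ℝ) ^ ℓ = s at *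
  have hs0 : 0 < s := by linarith
  have h0 := phi_nonneg H.gr L.okc.pos (S₀ := S) (b := 1 / s ^ 3) (fun v => by simp [gR, hS' v])
    (by positivity) (by
      rw [mul_one_div, div_le_one (by positivity)]
      nlinarith [pow_pos hs0 2])
  have e : s ^ 11 / (4 * s ^ 7) = s ^ 3 * s / 4 := by field_simp
  rw [e] at hphi
  nlinarith [pow_pos hs0 3]

end Crest.Agent.R304
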