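import Mathlib

/-!
Row 304: an abstract interacting particle system.  `E i` are commuting orthogonal projections (conditional
expectations integrating out the particle `i`), `Q i j` is the collision operator of the particles `i`, `j`.
-/

set_option autoImplicit false

namespace Crest.Agent.R304

open Finset
open scoped RealInnerProductSpace

variable {W : Type} [NormedAddCommGroup W] [InnerProductSpace ℝ W] {ι : Type} [Fintype ι]
  [DecidableEq ι]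

structure Sys (E : ι → W →ₗ[ℝ] W) (Q : ι → ι → W →ₗ[ℝ] W) (C : ℝ) : Prop where
  idem : ∀ i g, E i (E i g) = E i g
  symE : ∀ i g h, ⟪E i g, h⟫ = ⟪g, E i h⟫
  comm : ∀ i j g, E i (E j g) = E j (E i g)
  symQ : ∀ i j, i ≠ j → ∀ g h, ⟪Q i j g, h⟫ = ⟪g, Q i j h⟫
  firm : ∀ i j, i ≠ j → ∀ g, ‖Q i j g‖ ^ 2 ≤ ⟪g, Q i j g⟫
  commQ : ∀ i j k, i ≠ j → k ≠ i → k ≠ j → ∀ g, Q i j (E k g) = E k (Q i j g)
  fix : ∀ i j, i ≠ j → ∀ g, Q i j (E i (E j g)) = E i (E j g)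
  gap : ∀ i j, i ≠ j → ∀ a b, E j a = a → E i a = 0 → E i b = b → E j b = 0 →
    ‖a‖ ^ 2 + ‖b‖ ^ 2 ≤ C * (‖a + b‖ ^ 2 - ⟪a + b, Q i j (a + b)⟫)

/-- the complementary projection -/
def Dm (E : ι → W →ₗ[ℝ] W) (i : ι) : W →ₗ[ℝ] W := LinearMap.id - E i

/-- degree at most `k` with respect to the indices in `I` -/
def DegOn (E : ι → W →ₗ[ℝ] W) (I : Finset ι) (k : ℕ) (g : W) : Prop :=
  ∀ l : List ι, l.Nodup → (∀ i ∈ l, i ∈ I) → l.length = k + 1 → l.foldr (fun i h => Dm E i h) g = 0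

/-- orthogonal to the invariant vectors -/
def Cen (E : ι → W →ₗ[ℝ] W) (g : W) : Prop := ∀ c, (∀ i, E i c = c) → ⟪c, g⟫ = 0

/-- one step of the particle system: a uniform ordered pair collides -/
noncomputable def Pav (Q : ι → ι → W →ₗ[ℝ] W) : W →ₗ[ℝ] W :=
  (1 / (Fintype.card ι : ℝ) ^ 2) • ∑ i, ∑ j, if i = j then LinearMap.id else Q i j

variable {E : ι → W →ₗ[ℝ] W} {Q : ι → ι → W →ₗ[ℝ] W} {C : ℝ}

theorem pabs_Dm (i : ι) (g : W) : Dm E i g = g - E i g := rfl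

theorem Sys.pabs_ED (H : Sys E Q C) (i j : ι) (g : W) : E i (Dm E j g) = Dm E j (E i g) := by
  rw [pabs_Dm, pabs_Dm, map_sub, H.comm]

theorem Sys.pabs_DD (H : Sys E Q C) (i j : ι) (g : W) : Dm E i (Dm E j g) = Dm E j (Dm E i g) := by
  simp only [pabs_Dm, map_sub, H.comm i j]
  abel

theorem Sys.pabs_ED0 (H : Sys E Q C) (i : ι) (g : W) : E i (Dm E i g) = 0 := by
  rw [pabs_Dm, map_sub, H.idem, sub_self]

theorem Sys.pabs_orth (H : Sys E Q C) (j : ι) (g h : W) :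
    ‖E j g + Dm E j h‖ ^ 2 = ‖E j g‖ ^ 2 + ‖Dm E j h‖ ^ 2 := by
  rw [norm_add_sq_real, H.symE, H.pabs_ED0, inner_zero_right]
  ring

theorem Sys.pabs_pyth (H : Sys E Q C) (j : ι) (g : W) :
    ‖g‖ ^ 2 = ‖E j g‖ ^ 2 + ‖Dm E j g‖ ^ 2 := by
  rw [← H.pabs_orth, pabs_Dm, add_sub_cancel]

theorem Sys.pabs_deg_E (H : Sys E Q C) {I : Finset ι} {k : ℕ} {g : W} (h : DegOn E I k g) (j : ι) :
    DegOn E I k (E j g) := by
  intro l h1 h2 h3
  have key : ∀ l : List ι, l.foldr (fun i h => Dm E i h) (E j g) =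
      E j (l.foldr (fun i h => Dm E i h) g) := by
    intro l
    induction l with
    | nil => rfl
    | cons a l ih => rw [List.foldr_cons, List.foldr_cons, ih, H.pabs_ED]
  rw [key, h l h1 h2 h3, map_zero]

theorem Sys.pabs_deg_D (H : Sys E Q C) {I : Finset ι} {k : ℕ} {g : W} (h : DegOn E I (k + 1) g)
    {j : ι} (hj : j ∈ I) : DegOn E (I.erase j) k (Dm E j g) := by
  intro l h1 h2 h3
  have key : ∀ l : List ι, l.foldr (fun i h => Dm E i h) (Dm E j g) =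
      Dm E j (l.foldr (fun i h => Dm E i h) g) := by
    intro l
    induction l with
    | nil => rfl
    | cons a l ih => rw [List.foldr_cons, List.foldr_cons, ih, H.pabs_DD]
  rw [key]
  refine h (j :: l) (List.nodup_cons.2 ⟨fun h4 => ?_, h1⟩) (fun i hi => ?_) (by simp [h3])
  · exact (mem_erase.1 (h2 j h4)).1 rfl
  · rcases List.mem_cons.1 hi with rfl | hi
    · exact hj
    · exact (mem_erase.1 (h2 i hi)).2

theorem pabs_deg_zero {I : Finset ι} {g : W} (h : DegOn E I 0 g) {j : ι} (hj : j ∈ I) :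
    Dm E j g = 0 :=
  h [j] (List.nodup_singleton j) (by simpa using hj) rfl

/-- Induction on `I` (for all `k, g`): `g = E j g + D j g` is an orthogonal decomposition preserved by all `D i`; `E j g` has
degree `≤ k` and `D j g` has degree `≤ k - 1` on `I.erase j` (`D j g = 0` if `k = 0`). -/
theorem Sys.sum_D_le (H : Sys E Q C) {I : Finset ι} {k : ℕ} {g : W} (h : DegOn E I k g) :
    ∑ i ∈ I, ‖Dm E i g‖ ^ 2 ≤ k * ‖g‖ ^ 2 := by
  induction I using Finset.induction_on generalizing k g with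
  | empty => rw [sum_empty]; positivity
  | insert j I hj ih =>
    rcases k with _ | k
    · rw [sum_eq_zero fun i hi => by rw [pabs_deg_zero h hi, norm_zero, sq, mul_zero]]
      positivity
    · have h1 := ih (k := k + 1) (g := E j g) fun l h1 h2 h3 =>
        H.pabs_deg_E h j l h1 (fun i hi => mem_insert_of_mem (h2 i hi)) h3
      have h2 := H.pabs_deg_D h (mem_insert_self j I)
      rw [erase_insert hj] at h2
      have h3 := ih h2
      rw [sum_insert hj, sum_congr rfl fun i _ => H.pabs_pyth j (Dm E i g), sum_add_distrib,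
        H.pabs_pyth j g]
      simp only [H.pabs_ED, H.pabs_DD j]
      push_cast at h1 ⊢
      linarith

/-- `sum_D_le` for `D j g` on `univ.erase j`, then for `g` -/
theorem Sys.sum_DD_le (H : Sys E Q C) {k : ℕ} {g : W} (h : DegOn E univ k g) :
    ∑ j, ∑ i ∈ univ.erase j, ‖Dm E i (Dm E j g)‖ ^ 2 ≤ (k : ℝ) ^ 2 * ‖g‖ ^ 2 := by
  rcases k with _ | k
  · rw [sum_eq_zero fun j _ => sum_eq_zero fun i _ => by
      rw [pabs_deg_zero h (mem_univ j), map_zero, norm_zero, sq, mul_zero]]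
    positivity
  · have h1 := H.sum_D_le h
    refine (sum_le_sum fun j _ => H.sum_D_le (H.pabs_deg_D h (mem_univ j))).trans ?_
    rw [← mul_sum]
    push_cast at h1 ⊢
    have h2 := mul_le_mul_of_nonneg_left h1 (Nat.cast_nonneg (α := ℝ) k)
    have h3 : 0 ≤ ((k : ℝ) + 1) * ‖g‖ ^ 2 := by positivity
    nlinarith

/-- Efron-Stein.  For a list `l`, `c = l.foldr E g` has `‖g - c‖² ≤ ∑ i ∈ l, ‖D i g‖²` (induction, orthogonality, `‖D i (E j g)‖ ≤ ‖D i g‖`); for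
`l = univ.toList` the vector `c` is invariant. -/
theorem Sys.efron_stein (H : Sys E Q C) {g : W} (h : Cen E g) : ‖g‖ ^ 2 ≤ ∑ i, ‖Dm E i g‖ ^ 2 := by
  have key : ∀ I : Finset ι, ∃ c, (∀ i ∈ I, E i c = c) ∧ ‖g - c‖ ^ 2 ≤ ∑ i ∈ I, ‖Dm E i g‖ ^ 2 := by
    intro I
    induction I using Finset.induction_on with
    | empty => exact ⟨g, by simp, by simp⟩
    | insert j I hj ih =>
      obtain ⟨c, hc, hc'⟩ := ih
      refine ⟨E j c, fun i hi => ?_, ?_⟩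
      · rcases mem_insert.1 hi with rfl | hi
        · exact H.idem _ _
        · rw [H.comm, hc i hi]
      · have h1 : g - E j c = E j (g - c) + Dm E j g := by
          rw [pabs_Dm, map_sub]; abel
        have h2 := H.pabs_pyth j (g - c)
        rw [h1, H.pabs_orth, sum_insert hj]
        nlinarith [sq_nonneg ‖Dm E j (g - c)‖]
  obtain ⟨c, hc, hc'⟩ := key univ
  refine le_trans ?_ hc'
  rw [norm_sub_sq_real, real_inner_comm, h c fun i => hc i (mem_univ i)]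
  nlinarith [sq_nonneg ‖c‖]

theorem pabs_Pav (g : W) : Pav Q g =
    (1 / (Fintype.card ι : ℝ) ^ 2) • ∑ i, ∑ j, if i = j then g else Q i j g := by
  simp only [Pav, LinearMap.smul_apply, LinearMap.sum_apply]
  congr 1
  refine sum_congr rfl fun i _ => sum_congr rfl fun j _ => ?_
  split_ifs <;> rfl

theorem pabs_norm_le {g h : W} (hh : ‖h‖ ^ 2 ≤ ⟪g, h⟫) : ‖h‖ ≤ ‖g‖ := by
  have h1 := real_inner_le_norm g h
  rcases (norm_nonneg h).eq_or_lt with h0 | h0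
  · rw [← h0]; exact norm_nonneg g
  · nlinarith

/-- convexity of the square of the norm -/
theorem Sys.firm_Pav [Nonempty ι] (H : Sys E Q C) (g : W) : ‖Pav Q g‖ ^ 2 ≤ ⟪g, Pav Q g⟫ := by
  have hN : (0 : ℝ) < Fintype.card ι := Nat.cast_pos.2 Fintype.card_pos
  rw [pabs_Pav, ← Fintype.sum_prod_type' fun i j => if i = j then g else Q i j g]
  set T : ι × ι → W := fun x => if x.1 = x.2 then g else Q x.1 x.2 g with hT
  have h1 : ∀ x, ‖T x‖ ^ 2 ≤ ⟪g, T x⟫ := by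
    intro x
    simp only [hT]
    split_ifs with h
    · rw [real_inner_self_eq_norm_sq]
    · exact H.firm _ _ h g
  have h2 : ‖∑ x, T x‖ ^ 2 ≤ (Fintype.card ι : ℝ) ^ 2 * ⟪g, ∑ x, T x⟫ := by
    calc _ ≤ (∑ x, ‖T x‖) ^ 2 := by gcongr; exact norm_sum_le _ _
      _ ≤ (univ : Finset (ι × ι)).card * ∑ x, ‖T x‖ ^ 2 := sq_sum_le_card_mul_sum_sq
      _ ≤ _ := by
        rw [card_univ, Fintype.card_prod, inner_sum, Nat.cast_mul, ← sq]
        gcongr with x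
        exact h1 x
  rw [norm_smul, inner_smul_right, mul_pow, Real.norm_of_nonneg (by positivity)]
  calc _ ≤ (1 / (Fintype.card ι : ℝ) ^ 2) ^ 2 * ((Fintype.card ι : ℝ) ^ 2 * ⟪g, ∑ x, T x⟫) := by
        gcongr
    _ = _ := by field_simp

theorem Sys.norm_Pav_le [Nonempty ι] (H : Sys E Q C) (g : W) : ‖Pav Q g‖ ≤ ‖g‖ := by
  exact pabs_norm_le (H.firm_Pav g)

theorem Sys.sym_Pav (H : Sys E Q C) (g h : W) : ⟪Pav Q g, h⟫ = ⟪g, Pav Q h⟫ := by
  rw [pabs_Pav, pabs_Pav, real_inner_smul_left, real_inner_smul_right, sum_inner, inner_sum]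
  congr 1
  refine sum_congr rfl fun i _ => ?_
  rw [sum_inner, inner_sum]
  refine sum_congr rfl fun j _ => ?_
  split_ifs with hij
  · rfl
  · exact H.symQ i j hij g h

theorem Sys.Pav_fix [Nonempty ι] (H : Sys E Q C) {c : W} (hc : ∀ i, E i c = c) : Pav Q c = c := by
  have hN : (0 : ℝ) < Fintype.card ι := Nat.cast_pos.2 Fintype.card_pos
  have h1 : ∀ i j, (if i = j then c else Q i j c) = c := by
    intro i j
    split_ifs with hij
    · rfl
    · have := H.fix i j hij c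
      rwa [hc, hc] at this
  rw [pabs_Pav]
  simp only [h1, sum_const, card_univ, ← Nat.cast_smul_eq_nsmul ℝ, smul_smul]
  rw [show 1 / (Fintype.card ι : ℝ) ^ 2 * (Fintype.card ι * Fintype.card ι) = 1 by field_simp,
    one_smul]

theorem Sys.pabs_pair (H : Sys E Q C) (hC : 1 ≤ C) {i j : ι} (hij : i ≠ j) (g : W) :
    (‖Dm E i g‖ ^ 2 + ‖Dm E j g‖ ^ 2) / (2 * C) - (1 / C + 1) * ‖Dm E i (Dm E j g)‖ ^ 2 ≤
      ‖g‖ ^ 2 - ⟪g, Q i j g⟫ := by
  have h0 : ∀ u, 0 ≤ ‖u‖ ^ 2 - ⟪u, Q i j u⟫ := by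
    intro u
    have h1 := real_inner_le_norm u (Q i j u)
    have h2 := pabs_norm_le (H.firm i j hij u)
    nlinarith [norm_nonneg u]
  set c := E i (E j g) with hc
  set a := Dm E i (E j g) with ha
  set b := E i (Dm E j g) with hb
  set v := Dm E i (Dm E j g) with hv
  have hg : g = c + (a + b + v) := by
    simp only [hc, ha, hb, hv, pabs_Dm, map_sub]
    abel
  have hQc : Q i j c = c := H.fix i j hij g
  have h1 : ‖g‖ ^ 2 - ⟪g, Q i j g⟫ = ‖a + b + v‖ ^ 2 - ⟪a + b + v, Q i j (a + b + v)⟫ := by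
    generalize a + b + v = w at hg
    have h2 := H.symQ i j hij c w
    rw [hQc] at h2
    rw [hg, map_add, hQc, norm_add_sq_real, inner_add_left, inner_add_right, inner_add_right, ← h2,
      real_inner_self_eq_norm_sq, real_inner_comm c w]
    ring
  have h2 := H.gap i j hij a b (by rw [ha, H.pabs_ED, H.idem]) (H.pabs_ED0 _ _) (H.idem _ _)
    (by rw [hb, H.comm, H.pabs_ED0, map_zero])
  have h3 : ‖a + b‖ ^ 2 - ⟪a + b, Q i j (a + b)⟫ ≤
      2 * (‖a + b + v‖ ^ 2 - ⟪a + b + v, Q i j (a + b + v)⟫) + 2 * ‖v‖ ^ 2 := by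
    generalize a + b = x
    have h4 := h0 (x + v + v)
    have h5 := (sq_nonneg _).trans (H.firm i j hij v)
    simp only [← real_inner_self_eq_norm_sq, map_add, inner_add_left, inner_add_right] at h4 ⊢
    linarith
  have h4 : ‖Dm E i g‖ ^ 2 = ‖a‖ ^ 2 + ‖v‖ ^ 2 := by
    rw [H.pabs_pyth j (Dm E i g), H.pabs_ED, H.pabs_DD j i]
  have h5 : ‖Dm E j g‖ ^ 2 = ‖b‖ ^ 2 + ‖v‖ ^ 2 := H.pabs_pyth i (Dm E j g)
  have hC0 : 0 < C := by linarith
  rw [h1, h4, h5, sub_le_iff_le_add, div_le_iff₀ (by positivity)]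
  have h6 := mul_le_mul_of_nonneg_left h3 hC0.le
  have h7 : (1 / C + 1) * ‖v‖ ^ 2 * (2 * C) = 2 * ‖v‖ ^ 2 + 2 * C * ‖v‖ ^ 2 := by field_simp
  rw [add_mul, h7]
  nlinarith

/-- Let `𝓔 u = ‖u‖² - ⟪u, Q i j u⟫`, a quadratic form with `0 ≤ 𝓔 u ≤ ‖u‖²` (by `firm`).  Write
`g = E i E j g + (a + b) + v` with `a = D i E j g`, `b = E i D j g`, `v = D i D j g`.  Then
`𝓔 g = 𝓔 (a + b + v) ≥ 𝓔 (a + b) / 2 - 𝓔 v ≥ (‖a‖² + ‖b‖²) / (2 C) - ‖v‖²` with `‖a‖² = ‖D i g‖² - ‖v‖²`, `‖b‖² = ‖D j g‖² - ‖v‖²`.  Sum over `i ≠ j`: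
`‖g‖² - ⟪g, P g⟫ ≥ ((N - 1 - 4) / C - 4) / N² ‖g‖² ≥ ‖g‖² / (4 C N)`; use `firm_Pav` and `√(1 - γ) ≤ 1 - γ / 2`. -/
theorem Sys.gap_deg (H : Sys E Q C) (hC : 1 ≤ C) (hN : 100 * C ≤ Fintype.card ι) {k : ℕ} (hk : k ≤ 2)
    {g : W} (h : DegOn E univ k g) (hc : Cen E g) :
    ‖Pav Q g‖ ≤ (1 - 1 / (8 * C * Fintype.card ι)) * ‖g‖ := by
  have hC0 : 0 < C := by linarith
  have hN0 : (0 : ℝ) < Fintype.card ι := by linarith
  have : Nonempty ι := Fintype.card_pos_iff.1 (Nat.cast_pos.1 hN0)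
  set N : ℝ := (Fintype.card ι : ℝ) with hNdef
  have h1 := H.efron_stein hc
  have h2 := H.sum_DD_le h
  have h3 : (k : ℝ) ^ 2 * ‖g‖ ^ 2 ≤ 4 * ‖g‖ ^ 2 := by
    have : (k : ℝ) ≤ 2 := by exact_mod_cast hk
    gcongr
    nlinarith [Nat.cast_nonneg (α := ℝ) k]
  have h4 : N ^ 2 * (‖g‖ ^ 2 - ⟪g, Pav Q g⟫) =
      ∑ j, ∑ i ∈ univ.erase j, (‖g‖ ^ 2 - ⟪g, Q j i g⟫) := by
    have e1 : ∀ j, ∑ i ∈ univ.erase j, (‖g‖ ^ 2 - ⟪g, Q j i g⟫) =
        ∑ i, (‖g‖ ^ 2 - ⟪g, if j = i then g else Q j i g⟫) := by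
      intro j
      rw [← add_sum_erase _ _ (mem_univ j), if_pos rfl, real_inner_self_eq_norm_sq, sub_self,
        zero_add]
      exact sum_congr rfl fun i hi => by rw [if_neg (mem_erase.1 hi).1.symm]
    simp only [e1, sum_sub_distrib, sum_const, card_univ, nsmul_eq_mul, ← inner_sum]
    rw [pabs_Pav, real_inner_smul_right, ← hNdef]
    field_simp
  have h5 : ∑ j, ∑ i ∈ univ.erase j, ((‖Dm E j g‖ ^ 2 + ‖Dm E i g‖ ^ 2) / (2 * C) -
      (1 / C + 1) * ‖Dm E i (Dm E j g)‖ ^ 2) ≤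
      ∑ j, ∑ i ∈ univ.erase j, (‖g‖ ^ 2 - ⟪g, Q j i g⟫) :=
    sum_le_sum fun j _ => sum_le_sum fun i hi => by
      rw [H.pabs_DD i j]
      exact H.pabs_pair hC (mem_erase.1 hi).1.symm g
  have h6 : ∑ j, ∑ i ∈ univ.erase j, (‖Dm E j g‖ ^ 2 + ‖Dm E i g‖ ^ 2) =
      2 * (N - 1) * ∑ i, ‖Dm E i g‖ ^ 2 := by
    have e1 : ∀ j, ∑ i ∈ univ.erase j, (‖Dm E j g‖ ^ 2 + ‖Dm E i g‖ ^ 2) =
        (N - 2) * ‖Dm E j g‖ ^ 2 + ∑ i, ‖Dm E i g‖ ^ 2 := by
      intro j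
      rw [sum_erase_eq_sub (mem_univ j), sum_add_distrib, sum_const, card_univ, nsmul_eq_mul]
      ring
    simp only [e1, sum_add_distrib, sum_const, card_univ, nsmul_eq_mul, ← mul_sum]
    ring
  simp only [sum_sub_distrib, ← sum_div, ← mul_sum] at h5
  rw [h6] at h5
  simp only [sum_sub_distrib] at h4
  rw [← h4] at h5
  have h7 : N / (4 * C) * ‖g‖ ^ 2 ≤ N ^ 2 * (‖g‖ ^ 2 - ⟪g, Pav Q g⟫) := by
    refine le_trans ?_ h5
    have h8 : (1 / C + 1) * ∑ j, ∑ i ∈ univ.erase j, ‖Dm E i (Dm E j g)‖ ^ 2 ≤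
        (1 / C + 1) * (4 * ‖g‖ ^ 2) := mul_le_mul_of_nonneg_left (h2.trans h3) (by positivity)
    have h9 : 2 * (N - 1) * ‖g‖ ^ 2 / (2 * C) ≤ (2 * (N - 1) * ∑ i, ‖Dm E i g‖ ^ 2) / (2 * C) := by
      have : 0 ≤ N - 1 := by linarith
      gcongr
    have h10 : N / (4 * C) ≤ 2 * (N - 1) / (2 * C) - (1 / C + 1) * 4 := by
      rw [div_le_iff₀ (by positivity)]
      have : (2 * (N - 1) / (2 * C) - (1 / C + 1) * 4) * (4 * C) = 4 * (N - 1) - 16 - 16 * C := by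
        field_simp
        ring
      rw [this]
      linarith
    have h11 := mul_le_mul_of_nonneg_right h10 (sq_nonneg ‖g‖)
    have h12 : (2 * (N - 1) / (2 * C) - (1 / C + 1) * 4) * ‖g‖ ^ 2 =
        2 * (N - 1) * ‖g‖ ^ 2 / (2 * C) - (1 / C + 1) * (4 * ‖g‖ ^ 2) := by ring
    linarith
  have h8 : 1 / (4 * C * N) * ‖g‖ ^ 2 ≤ ‖g‖ ^ 2 - ⟪g, Pav Q g⟫ := by
    refine le_of_mul_le_mul_left ?_ (show 0 < N ^ 2 by positivity)
    refine le_trans (le_of_eq ?_) h7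
    field_simp
  have h9 := H.firm_Pav g
  have h10 : 1 / (8 * C * N) ≤ 1 := by
    rw [div_le_one (by positivity)]
    nlinarith
  refine le_of_sq_le_sq ?_ (mul_nonneg (by linarith) (norm_nonneg _))
  have h11 : 1 / (4 * C * N) = 2 * (1 / (8 * C * N)) := by field_simp; ring
  rw [h11] at h8
  rw [mul_pow]
  nlinarith [mul_nonneg (sq_nonneg (1 / (8 * C * N))) (sq_nonneg ‖g‖)]

end Crest.Agent.R304
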