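import Crest.Agent.R304.PAbs

/-! Row 304: the degree raising part of the particle system and the two level bound. -/

set_option autoImplicit false

namespace Crest.Agent.R304

open Finset
open scoped RealInnerProductSpace

variable {W : Type} [NormedAddCommGroup W] [InnerProductSpace ℝ W] {ι : Type} [Fintype ι]
  [DecidableEq ι] {E : ι → W →ₗ[ℝ] W} {Q : ι → ι → W →ₗ[ℝ] W} {C : ℝ}

/-- composition of the complementary projections along a list -/
def pabs2DL (E : ι → W →ₗ[ℝ] W) : List ι → W →ₗ[ℝ] W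
  | [] => LinearMap.id
  | i :: l => Dm E i ∘ₗ pabs2DL E l

omit [Fintype ι] [DecidableEq ι] in
theorem pabs2DL_nil (g : W) : pabs2DL E [] g = g := rfl

omit [Fintype ι] [DecidableEq ι] in
theorem pabs2DL_cons (i : ι) (l : List ι) (g : W) :
    pabs2DL E (i :: l) g = Dm E i (pabs2DL E l g) := rfl

omit [Fintype ι] [DecidableEq ι] in
theorem pabs2_foldr (l : List ι) (g : W) : l.foldr (fun i h => Dm E i h) g = pabs2DL E l g := by
  induction l with
  | nil => rfl
  | cons i l ih => rw [List.foldr_cons, ih, pabs2DL_cons]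

omit [Fintype ι] [DecidableEq ι] in
theorem pabs2_Dm (i : ι) (g : W) : Dm E i g = g - E i g := rfl

omit [DecidableEq ι] in
theorem pabs2_deg {k : ℕ} {g : W} : DegOn E univ k g ↔
    ∀ l : List ι, l.Nodup → l.length = k + 1 → pabs2DL E l g = 0 := by
  simp only [DegOn, pabs2_foldr, mem_univ, implies_true, forall_true_left]

omit [Fintype ι] [DecidableEq ι] in
theorem pabs2DL_append (l l' : List ι) (g : W) :
    pabs2DL E (l ++ l') g = pabs2DL E l (pabs2DL E l' g) := by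
  induction l with
  | nil => rfl
  | cons i l ih => rw [List.cons_append, pabs2DL_cons, pabs2DL_cons, ih]

omit [Fintype ι] [DecidableEq ι] in
theorem pabs2DL_comm {A : W →ₗ[ℝ] W} {l : List ι} (h : ∀ t ∈ l, ∀ g, A (E t g) = E t (A g))
    (g : W) : pabs2DL E l (A g) = A (pabs2DL E l g) := by
  induction l with
  | nil => rfl
  | cons i l ih =>
    rw [pabs2DL_cons, pabs2DL_cons, ih fun t ht => h t (List.mem_cons_of_mem _ ht), pabs2_Dm,
      pabs2_Dm, map_sub, h i List.mem_cons_self]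

omit [Fintype ι] [DecidableEq ι] in
theorem Sys.pabs2_DE (H : Sys E Q C) (i j : ι) (g : W) : Dm E i (E j g) = E j (Dm E i g) := by
  rw [pabs2_Dm, pabs2_Dm, map_sub, H.comm]

omit [Fintype ι] [DecidableEq ι] in
theorem Sys.pabs2_DE_self (H : Sys E Q C) (i : ι) (g : W) : Dm E i (E i g) = 0 := by
  rw [pabs2_Dm, H.idem, sub_self]

omit [Fintype ι] [DecidableEq ι] in
theorem Sys.pabs2DL_E (H : Sys E Q C) (l : List ι) (i : ι) (g : W) :
    pabs2DL E l (E i g) = E i (pabs2DL E l g) :=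
  pabs2DL_comm (fun t _ g => H.comm i t g) g

omit [Fintype ι] [DecidableEq ι] in
theorem Sys.pabs2DL_D (H : Sys E Q C) (l : List ι) (i : ι) (g : W) :
    pabs2DL E l (Dm E i g) = Dm E i (pabs2DL E l g) :=
  pabs2DL_comm (fun t _ g => H.pabs2_DE i t g) g

omit [Fintype ι] [DecidableEq ι] in
theorem Sys.pabs2DL_sub (H : Sys E Q C) {l l' : List ι} (h : l'.Sublist l) {g : W}
    (h0 : pabs2DL E l' g = 0) : pabs2DL E l g = 0 := by
  induction h generalizing g with
  | slnil => exact h0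
  | cons a _ ih => rw [pabs2DL_cons, ih h0, map_zero]
  | cons_cons a _ ih =>
    rw [pabs2DL_cons, ← H.pabs2DL_D] at h0 ⊢
    exact ih h0

omit [Fintype ι] [DecidableEq ι] in
theorem Sys.pabs2DL_mem (H : Sys E Q C) {l : List ι} {i : ι} (h : i ∈ l) (g : W) :
    pabs2DL E l (E i g) = 0 :=
  H.pabs2DL_sub (List.singleton_sublist.2 h) (H.pabs2_DE_self i g)

/-- killed by every composition of `k` operators `D t` with `t ∉ {i, j}` -/
def pabs2Kil (E : ι → W →ₗ[ℝ] W) (i j : ι) (k : ℕ) (g : W) : Prop :=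
  ∀ l : List ι, l.Nodup → i ∉ l → j ∉ l → l.length = k → pabs2DL E l g = 0

omit [Fintype ι] in
theorem Sys.pabs2_kil (H : Sys E Q C) {i j : ι} {k : ℕ} {g : W} (h : pabs2Kil E i j k g)
    {l : List ι} (hl : l.Nodup) (hk : k ≤ ((l.erase i).erase j).length) : pabs2DL E l g = 0 := by
  have hsub : (((l.erase i).erase j).take k).Sublist l :=
    ((List.take_sublist _ _).trans List.erase_sublist).trans List.erase_sublist
  refine H.pabs2DL_sub hsub (h _ (hl.sublist hsub) ?_ ?_ (by rw [List.length_take]; omega))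
  · intro hi
    have := List.mem_of_mem_erase (List.mem_of_mem_take hi)
    exact hl.not_mem_erase this
  · intro hj
    exact (hl.erase i).not_mem_erase (List.mem_of_mem_take hj)

omit [Fintype ι] in
theorem pabs2_len (l : List ι) (i : ι) : l.length ≤ (l.erase i).length + 1 := by
  rw [List.length_erase]
  split_ifs <;> omega

omit [Fintype ι] [DecidableEq ι] in
theorem Sys.pabs2_kil_Q (H : Sys E Q C) {i j : ι} (hij : i ≠ j) {k : ℕ} {g : W}
    (h : pabs2Kil E i j k g) : pabs2Kil E i j k (Q i j g) := by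
  intro l hl hi hj hk
  rw [pabs2DL_comm, h l hl hi hj hk, map_zero]
  intro t ht g
  exact H.commQ i j t hij (fun e => hi (e ▸ ht)) (fun e => hj (e ▸ ht)) g

omit [Fintype ι] [DecidableEq ι] in
theorem Sys.pabs2_symD (H : Sys E Q C) (i : ι) (g h : W) : ⟪Dm E i g, h⟫ = ⟪g, Dm E i h⟫ := by
  rw [pabs2_Dm, pabs2_Dm, inner_sub_left, inner_sub_right, H.symE]

omit [Fintype ι] [DecidableEq ι] in
theorem Sys.pabs2_pyth (H : Sys E Q C) (i : ι) (g h : W) :
    ‖Dm E i g + E i h‖ ^ 2 = ‖Dm E i g‖ ^ 2 + ‖E i h‖ ^ 2 := by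
  rw [norm_add_sq_real, H.pabs2_symD, H.pabs2_DE_self, inner_zero_right]
  ring

omit [Fintype ι] [DecidableEq ι] in
theorem Sys.pabs2_norm_E (H : Sys E Q C) (i : ι) (g : W) : ‖E i g‖ ^ 2 ≤ ‖g‖ ^ 2 := by
  have := H.pabs2_pyth i g g
  rw [pabs2_Dm, sub_add_cancel] at this
  rw [this]
  exact le_add_of_nonneg_left (sq_nonneg _)

omit [Fintype ι] [DecidableEq ι] in
theorem Sys.pabs2_norm_Q (H : Sys E Q C) {i j : ι} (hij : i ≠ j) (g : W) :
    ‖Q i j g‖ ^ 2 ≤ ‖g‖ ^ 2 := by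
  have h1 := H.firm i j hij g
  have h2 := real_inner_le_norm g (Q i j g)
  nlinarith [sq_nonneg (‖g‖ - ‖Q i j g‖)]

theorem pabs2_Pav (g : W) : Pav Q g =
    (1 / (Fintype.card ι : ℝ) ^ 2) • ∑ j, (g + ∑ i ∈ univ.erase j, Q i j g) := by
  rw [Pav, LinearMap.smul_apply, LinearMap.sum_apply]
  congr 1
  simp only [LinearMap.sum_apply]
  rw [sum_comm]
  refine sum_congr rfl fun j _ => ?_
  rw [← add_sum_erase _ _ (mem_univ j), if_pos rfl, LinearMap.id_apply]
  congr 1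
  exact sum_congr rfl fun i hi => by rw [if_neg (ne_of_mem_erase hi)]

theorem Sys.pabs2_cen_Pav [Nonempty ι] (H : Sys E Q C) {g : W} (hc : Cen E g) :
    Cen E (Pav Q g) := fun c h => by
  rw [← H.sym_Pav, H.Pav_fix h, hc c h]

/-- Let `u i j = D i E j g + E i D j g`, `w i j = Q i j (u i j)`, `F = ∑ i ≠ j, D i D j (w i j)`, `r = F / N²`.  The `D`s commute, so a
composition along a duplicate free list may be reordered.  `u i j`, hence `w i j`, is killed by every composition of `k` operators `D t` with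
`t ∉ {i, j}`; `D i D j g`, hence `Q i j D i D j g`, by every composition of `k - 1` of them.  A duplicate free list of length `k + 2` (resp. `k + 1`)
contains `k` (resp. `k - 1`) indices outside `{i, j}`.  So `D i D j w` has degree `≤ k + 1`, while `Q i j g - D i D j w`
`= E i E j g + Q i j D i D j g + E i w + D i E j w` has degree `≤ k` (`D i E i = 0`).  Norm: `‖F‖² = ∑ ⟪D i D j F, w i j⟫`
`≤ √(∑ ‖D i D j F‖²) √(∑ ‖u i j‖²) ≤ 3 ‖F‖ √(4 N) ‖g‖` (`sum_DD_le`, `sum_D_le`, `‖u i j‖² ≤ ‖D i g‖² + ‖D j g‖²`). -/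
theorem Sys.raise (H : Sys E Q C) {ν : ℕ} (hν : 1 ≤ ν) (hN : Fintype.card ι = ν ^ 2) {k : ℕ} (hk1 : 1 ≤ k)
    (hk : k ≤ 2) {g : W} (h : DegOn E univ k g) (hc : Cen E g) :
    ∃ r, DegOn E univ (k + 1) r ∧ Cen E r ∧ DegOn E univ k (Pav Q g - r) ∧ Cen E (Pav Q g - r) ∧
      ‖r‖ ≤ 6 / (ν : ℝ) ^ 3 * ‖g‖ := by
  have hν0 : (0 : ℝ) < ν := by exact_mod_cast hν
  have : Nonempty ι := Fintype.card_pos_iff.1 (by rw [hN]; positivity)
  have hg := pabs2_deg.1 h
  set u : ι → ι → W := fun i j => Dm E i (E j g) + E i (Dm E j g) with hu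
  set w : ι → ι → W := fun i j => Q i j (u i j) with hw
  set F : W := ∑ j, ∑ i ∈ univ.erase j, Dm E i (Dm E j (w i j)) with hF
  have hku : ∀ i j, pabs2Kil E i j k (u i j) := by
    intro i j l hl hi hj hlen
    have h1 := hg (i :: l) (List.nodup_cons.2 ⟨hi, hl⟩) (by simp [hlen])
    have h2 := hg (j :: l) (List.nodup_cons.2 ⟨hj, hl⟩) (by simp [hlen])
    rw [pabs2DL_cons] at h1 h2
    simp only [hu]
    rw [map_add, H.pabs2DL_D, H.pabs2DL_E, H.pabs2DL_E, H.pabs2DL_D, H.pabs2_DE, h1, h2, map_zero,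
      map_zero, add_zero]
  have hkw : ∀ i j, i ≠ j → pabs2Kil E i j k (w i j) := fun i j hij => H.pabs2_kil_Q hij (hku i j)
  have hkv : ∀ i j, i ≠ j → pabs2Kil E i j (k - 1) (Q i j (Dm E i (Dm E j g))) := by
    intro i j hij
    refine H.pabs2_kil_Q hij fun l hl hi hj hlen => ?_
    have h1 := hg (i :: j :: l) (by simp [hij, hi, hj, hl]) (by simp [hlen]; omega)
    rw [H.pabs2DL_D, H.pabs2DL_D]
    exact h1
  have hFdeg : DegOn E univ (k + 1) F := by
    rw [pabs2_deg]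
    intro l hl hlen
    rw [hF, map_sum]
    refine sum_eq_zero fun j _ => ?_
    rw [map_sum]
    refine sum_eq_zero fun i hi => ?_
    have h1 := pabs2_len l i
    have h2 := pabs2_len (l.erase i) j
    rw [H.pabs2DL_D, H.pabs2DL_D, H.pabs2_kil (hkw i j (ne_of_mem_erase hi)) hl (by omega),
      map_zero, map_zero]
  have hFcen : Cen E F := by
    intro c hc'
    rw [hF, inner_sum]
    refine sum_eq_zero fun j _ => ?_
    rw [inner_sum]
    refine sum_eq_zero fun i _ => ?_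
    rw [← H.pabs2_symD, pabs2_Dm, hc', sub_self, inner_zero_left]
  have hdec : ∀ i j, i ≠ j → Q i j g - Dm E i (Dm E j (w i j)) =
      E i (E j g) + Q i j (Dm E i (Dm E j g)) + E i (w i j) + Dm E i (E j (w i j)) := by
    intro i j hij
    have h1 : g = E i (E j g) + u i j + Dm E i (Dm E j g) := by
      simp only [hu, pabs2_Dm, map_sub]; abel
    have h2 : Q i j g = E i (E j g) + w i j + Q i j (Dm E i (Dm E j g)) := by
      conv_lhs => rw [h1]
      rw [map_add, map_add, H.fix i j hij]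
    rw [h2]
    generalize Q i j (Dm E i (Dm E j g)) = y
    simp only [pabs2_Dm, map_sub]
    abel
  have hnorm : ‖F‖ ≤ 6 * ν * ‖g‖ := by
    set s : Finset (Σ _ : ι, ι) := univ.sigma fun j => univ.erase j with hs
    have h1 : ‖F‖ ^ 2 ≤ ∑ p ∈ s, ‖Dm E p.2 (Dm E p.1 F)‖ * ‖w p.2 p.1‖ := by
      rw [← real_inner_self_eq_norm_sq, hs, sum_sigma]
      conv_lhs => enter [2]; rw [hF]
      rw [inner_sum]
      refine sum_le_sum fun j _ => ?_
      rw [inner_sum]
      refine sum_le_sum fun i _ => ?_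
      rw [← H.pabs2_symD, ← H.pabs2_symD]
      have e : Dm E j (Dm E i F) = Dm E i (Dm E j F) := H.pabs2DL_D [j] i F
      rw [e]
      exact real_inner_le_norm _ _
    have h2 := sum_mul_sq_le_sq_mul_sq s (fun p => ‖Dm E p.2 (Dm E p.1 F)‖) fun p => ‖w p.2 p.1‖
    have h3 : ∑ p ∈ s, ‖Dm E p.2 (Dm E p.1 F)‖ ^ 2 ≤ 9 * ‖F‖ ^ 2 := by
      rw [hs, sum_sigma]
      refine (H.sum_DD_le hFdeg).trans (mul_le_mul_of_nonneg_right ?_ (sq_nonneg _))
      have : ((k + 1 : ℕ) : ℝ) ≤ 3 := by exact_mod_cast (by omega : k + 1 ≤ 3)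
      have h0 : (0 : ℝ) ≤ ((k + 1 : ℕ) : ℝ) := Nat.cast_nonneg _
      nlinarith
    have h4 : ∑ p ∈ s, ‖w p.2 p.1‖ ^ 2 ≤ 4 * ν ^ 2 * ‖g‖ ^ 2 := by
      have h5 := H.sum_D_le h
      have hk' : (k : ℝ) ≤ 2 := by exact_mod_cast hk
      have h6 : ∑ i, ‖Dm E i g‖ ^ 2 ≤ 2 * ‖g‖ ^ 2 :=
        h5.trans (mul_le_mul_of_nonneg_right hk' (sq_nonneg _))
      have hcard : (Fintype.card ι : ℝ) = ν ^ 2 := by exact_mod_cast hN
      rw [hs, sum_sigma]
      calc ∑ j, ∑ i ∈ univ.erase j, ‖w i j‖ ^ 2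
          ≤ ∑ j, ∑ i, (‖Dm E i g‖ ^ 2 + ‖Dm E j g‖ ^ 2) := by
            refine sum_le_sum fun j _ => ?_
            refine le_trans (sum_le_sum fun i hi => ?_)
              (sum_le_sum_of_subset_of_nonneg (erase_subset j univ) fun i _ _ => by positivity)
            refine (H.pabs2_norm_Q (ne_of_mem_erase hi) _).trans ?_
            simp only [hu]
            rw [H.pabs2_pyth, H.pabs2_DE]
            exact add_le_add (H.pabs2_norm_E _ _) (H.pabs2_norm_E _ _)
        _ = 2 * ν ^ 2 * ∑ i, ‖Dm E i g‖ ^ 2 := by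
            simp only [sum_add_distrib, sum_const, card_univ, nsmul_eq_mul, hcard, ← mul_sum]
            ring
        _ ≤ 2 * ν ^ 2 * (2 * ‖g‖ ^ 2) := by gcongr
        _ = _ := by ring
    have h7 : (‖F‖ ^ 2) ^ 2 ≤ (‖F‖ * (6 * ν * ‖g‖)) ^ 2 := by
      calc (‖F‖ ^ 2) ^ 2 ≤ (∑ p ∈ s, ‖Dm E p.2 (Dm E p.1 F)‖ * ‖w p.2 p.1‖) ^ 2 := by gcongr
        _ ≤ _ := h2
        _ ≤ 9 * ‖F‖ ^ 2 * (4 * ν ^ 2 * ‖g‖ ^ 2) := by gcongr
        _ = _ := by ring
    have h8 := (pow_le_pow_iff_left₀ (by positivity) (by positivity) two_ne_zero).1 h7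
    rcases (norm_nonneg F).eq_or_lt with h0 | h0
    · rw [← h0]; positivity
    · rw [sq] at h8
      exact le_of_mul_le_mul_left h8 h0
  refine ⟨(1 / (Fintype.card ι : ℝ) ^ 2) • F, ?_, ?_, ?_, ?_, ?_⟩
  · rw [pabs2_deg]
    intro l hl hlen
    rw [map_smul, pabs2_deg.1 hFdeg l hl hlen, smul_zero]
  · intro c hc'
    rw [inner_smul_right, hFcen c hc', mul_zero]
  · rw [pabs2_deg]
    intro l hl hlen
    rw [pabs2_Pav, ← smul_sub, map_smul, hF, ← sum_sub_distrib, map_sum, sum_eq_zero, smul_zero]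
    intro j _
    rw [add_sub_assoc, ← sum_sub_distrib, map_add, hg l hl hlen, zero_add, map_sum]
    refine sum_eq_zero fun i hi => ?_
    have hij := ne_of_mem_erase hi
    have h1 := pabs2_len l i
    have h2 := pabs2_len (l.erase i) j
    have e1 : pabs2DL E l (E i (E j g)) = 0 := by
      rw [H.pabs2DL_E, H.pabs2DL_E, hg l hl hlen, map_zero, map_zero]
    have e2 := H.pabs2_kil (hkv i j hij) hl (by omega)
    have e3 : pabs2DL E l (E i (w i j)) = 0 := by
      by_cases hil : i ∈ l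
      · exact H.pabs2DL_mem hil _
      · rw [List.erase_of_not_mem hil] at h2
        rw [H.pabs2DL_E, H.pabs2_kil (hkw i j hij) hl (by rw [List.erase_of_not_mem hil]; omega),
          map_zero]
    have e4 : pabs2DL E l (Dm E i (E j (w i j))) = 0 := by
      rw [H.pabs2DL_D]
      by_cases hjl : j ∈ l
      · rw [H.pabs2DL_mem hjl, map_zero]
      · have : j ∉ l.erase i := fun h' => hjl (List.mem_of_mem_erase h')
        rw [H.pabs2DL_E, H.pabs2_kil (hkw i j hij) hl (by rw [List.erase_of_not_mem this]; omega),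
          map_zero, map_zero]
    rw [hdec i j hij, map_add, map_add, map_add, e1, e2, e3, e4]
    simp
  · intro c hc'
    rw [inner_sub_right, inner_smul_right, hFcen c hc', H.pabs2_cen_Pav hc c hc']
    simp
  · have hcard : (Fintype.card ι : ℝ) = ν ^ 2 := by exact_mod_cast hN
    rw [norm_smul, hcard, Real.norm_of_nonneg (by positivity)]
    calc 1 / ((ν : ℝ) ^ 2) ^ 2 * ‖F‖ ≤ 1 / ((ν : ℝ) ^ 2) ^ 2 * (6 * ν * ‖g‖) := by gcongr
      _ = _ := by field_simp

/-- Let `N = ν²`, `amp = 6 / ν³`, `q = 1 - 1 / (16 C N) ≥ 1 - 1 / (8 C N) + amp`, `η = 16 C N amp = 96 C / ν`.  By induction on `T`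
(`P^(T+1) g = P^T (P g - r) + P^T r`): `‖P^T g‖ ≤ (q^T + η) ‖g‖` for centred `g` of degree `≤ 2`, and then
`‖P^T g‖ ≤ (q^T + T amp q^(T-1) + η²) ‖g‖` for degree `≤ 1`.  Use this for `T₀` with `16 C N² + 1 ≤ T₀ ≤ 16 C N² + 2`, where `q^(T₀-1) ≤ exp (-N)`,
`T₀ amp ≤ N + 1`, `(N + 2) N ≤ exp N`, and `norm_Pav_le` for the remaining steps. -/
theorem Sys.two_level (H : Sys E Q C) (hC : 1 ≤ C) {ν : ℕ} (hν : 100 * C ≤ ν)
    (hN : Fintype.card ι = ν ^ 2) {T : ℕ} (hT : 16 * C * (ν : ℝ) ^ 4 + 2 ≤ T) {g : W}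
    (h : DegOn E univ 1 g) (hc : Cen E g) :
    ‖(Pav Q)^[T] g‖ ≤ 10 ^ 4 * C ^ 2 / (ν : ℝ) ^ 2 * ‖g‖ := by
  have hν0 : (100 : ℝ) ≤ ν := by linarith
  have hν1 : 1 ≤ ν := by
    have : (1 : ℝ) ≤ ν := by linarith
    exact_mod_cast this
  have : Nonempty ι := Fintype.card_pos_iff.1 (by rw [hN]; positivity)
  have hcard : (Fintype.card ι : ℝ) = ν ^ 2 := by exact_mod_cast hN
  have hC0 : 0 < C := by linarith
  have hνp : (0 : ℝ) < ν := by linarith
  set amp : ℝ := 6 / (ν : ℝ) ^ 3 with hamp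
  set d : ℝ := 1 / (16 * C * ν ^ 2) with hd
  set q : ℝ := 1 - d with hq
  set η : ℝ := 96 * C / ν with hη
  have hamp0 : 0 ≤ amp := by positivity
  have hη0 : 0 ≤ η := by positivity
  have hd0 : 0 < d := by positivity
  have hηd : η * d = amp := by rw [hη, hd, hamp]; field_simp; norm_num
  have hη1 : η ≤ 1 := by rw [hη, div_le_one hνp]; linarith
  have hampd : amp ≤ d := by rw [← hηd]; nlinarith
  have hd2 : d ≤ 1 / 2 := by
    rw [hd]
    refine one_div_le_one_div_of_le two_pos ?_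
    nlinarith
  have hq0 : 0 ≤ q := by rw [hq]; linarith
  have hiter : ∀ (n : ℕ) (x : W), ‖(Pav Q)^[n] x‖ ≤ ‖x‖ := by
    intro n
    induction n with
    | zero => intro x; exact le_rfl
    | succ n ih => intro x; rw [Function.iterate_succ_apply]; exact (ih _).trans (H.norm_Pav_le x)
  have hsplit : ∀ (n : ℕ) (x r : W),
      ‖(Pav Q)^[n + 1] x‖ ≤ ‖(Pav Q)^[n] (Pav Q x - r)‖ + ‖(Pav Q)^[n] r‖ := by
    intro n x r
    rw [Function.iterate_succ_apply]
    refine le_trans (le_of_eq ?_) (norm_add_le _ _)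
    rw [← iterate_map_add, sub_add_cancel]
  have hstep : ∀ k : ℕ, 1 ≤ k → k ≤ 2 → ∀ x : W, DegOn E univ k x → Cen E x →
      ∃ r, DegOn E univ (k + 1) r ∧ Cen E r ∧ DegOn E univ k (Pav Q x - r) ∧
        Cen E (Pav Q x - r) ∧ ‖r‖ ≤ amp * ‖x‖ ∧ ‖Pav Q x - r‖ ≤ q * ‖x‖ := by
    intro k hk1 hk2 x hx hxc
    obtain ⟨r, h1, h2, h3, h4, h5⟩ := H.raise hν1 hN hk1 hk2 hx hxc
    refine ⟨r, h1, h2, h3, h4, h5, ?_⟩
    have h6 := H.gap_deg hC (by rw [hcard]; nlinarith) hk2 hx hxc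
    have h7 : 1 / (8 * C * Fintype.card ι) = 2 * d := by rw [hcard, hd]; field_simp; norm_num
    rw [h7] at h6
    have h8 := norm_sub_le (Pav Q x) r
    have h9 := mul_le_mul_of_nonneg_right hampd (norm_nonneg x)
    rw [hq]
    nlinarith
  have lev2 : ∀ (n : ℕ) (x : W), DegOn E univ 2 x → Cen E x →
      ‖(Pav Q)^[n] x‖ ≤ (q ^ n + η) * ‖x‖ := by
    intro n
    induction n with
    | zero =>
      intro x _ _
      simp only [Function.iterate_zero, id, pow_zero]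
      nlinarith [norm_nonneg x]
    | succ n ih =>
      intro x hx hxc
      obtain ⟨r, -, -, h3, h4, h5, h6⟩ := hstep 2 one_le_two le_rfl x hx hxc
      calc ‖(Pav Q)^[n + 1] x‖ ≤ (q ^ n + η) * ‖Pav Q x - r‖ + ‖r‖ :=
            (hsplit n x r).trans (add_le_add (ih _ h3 h4) (hiter n r))
        _ ≤ (q ^ n + η) * (q * ‖x‖) + amp * ‖x‖ := by gcongr
        _ = (q ^ (n + 1) + η) * ‖x‖ := by rw [← hηd, pow_succ, hq]; ring
  have lev1 : ∀ (n : ℕ) (x : W), DegOn E univ 1 x → Cen E x →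
      ‖(Pav Q)^[n] x‖ ≤ (q ^ n * (1 + 2 * n * amp) + η ^ 2) * ‖x‖ := by
    intro n
    induction n with
    | zero =>
      intro x _ _
      simp only [Function.iterate_zero, id, pow_zero, Nat.cast_zero]
      nlinarith [norm_nonneg x, mul_nonneg (sq_nonneg η) (norm_nonneg x)]
    | succ n ih =>
      intro x hx hxc
      obtain ⟨r, h1, h2, h3, h4, h5, h6⟩ := hstep 1 le_rfl one_le_two x hx hxc
      have hqn : 0 ≤ q ^ n := pow_nonneg hq0 n
      calc ‖(Pav Q)^[n + 1] x‖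
          ≤ (q ^ n * (1 + 2 * n * amp) + η ^ 2) * ‖Pav Q x - r‖ + (q ^ n + η) * ‖r‖ :=
            (hsplit n x r).trans (add_le_add (ih _ h3 h4) (lev2 n r h1 h2))
        _ ≤ (q ^ n * (1 + 2 * n * amp) + η ^ 2) * (q * ‖x‖) + (q ^ n + η) * (amp * ‖x‖) := by
            gcongr
        _ = (q ^ (n + 1) * (1 + 2 * n * amp) + q ^ n * amp + η ^ 2) * ‖x‖ := by
            have : η * amp = η ^ 2 * d := by rw [← hηd]; ring
            rw [pow_succ]
            linear_combination ‖x‖ * this + η ^ 2 * ‖x‖ * hq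
        _ ≤ _ := by
            refine mul_le_mul_of_nonneg_right ?_ (norm_nonneg x)
            have h7 : q ^ n * amp * 1 ≤ q ^ n * amp * (2 * q) :=
              mul_le_mul_of_nonneg_left (by rw [hq]; linarith) (mul_nonneg hqn hamp0)
            rw [pow_succ]
            push_cast
            nlinarith
  refine (lev1 T g h hc).trans (mul_le_mul_of_nonneg_right ?_ (norm_nonneg g))
  set x : ℝ := T * d with hx
  have hx1 : (ν : ℝ) ^ 2 ≤ x := by
    rw [hx, hd, mul_one_div, le_div_iff₀ (by positivity)]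
    nlinarith
  have hx0 : 0 ≤ x := le_trans (by positivity) hx1
  have h1 : q ^ T ≤ Real.exp (-x) := by
    calc q ^ T ≤ Real.exp (-d) ^ T := by
          gcongr
          have := Real.add_one_le_exp (-d)
          rw [hq]; linarith
      _ = _ := by rw [← Real.exp_nat_mul, hx, mul_neg]
  have h2 : T * amp ≤ x := mul_le_mul_of_nonneg_left hampd (Nat.cast_nonneg T)
  have h3 : Real.exp (-x) * (1 + 2 * x) ≤ 784 / (ν : ℝ) ^ 2 := by
    rw [le_div_iff₀ (by positivity), Real.exp_neg, mul_assoc, inv_mul_le_iff₀ (Real.exp_pos x)]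
    have := Real.quadratic_le_exp_of_nonneg hx0
    nlinarith
  have h4 : q ^ T * (1 + 2 * T * amp) ≤ Real.exp (-x) * (1 + 2 * x) := by
    have : 0 ≤ (T : ℝ) * amp := by positivity
    refine mul_le_mul h1 (by linarith) (by linarith) (Real.exp_pos _).le
  have h5 : η ^ 2 = 9216 * C ^ 2 / (ν : ℝ) ^ 2 := by rw [hη]; field_simp; norm_num
  have h6 : 784 / (ν : ℝ) ^ 2 ≤ 784 * C ^ 2 / (ν : ℝ) ^ 2 := by
    gcongr
    nlinarith
  calc q ^ T * (1 + 2 * T * amp) + η ^ 2 ≤ 784 * C ^ 2 / (ν : ℝ) ^ 2 + 9216 * C ^ 2 / (ν : ℝ) ^ 2 := by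
        rw [h5]; linarith
    _ = _ := by ring

end Crest.Agent.R304
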