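import Crest.Agent.R304.Move

/-! Row 304: telescoping along the cycles of the union of two matchings. -/

set_option autoImplicit false

namespace Crest.Agent.R304

open Finset

variable {n : ℕ} {lam : Fin n → Fin n → ℝ}

theorem tele_conn_symm {S Y : PM n} {u v : Fin n} (h : Conn S Y u v) : Conn S Y v u := by
  induction h with
  | refl => exact Relation.ReflTransGen.refl
  | tail _ h2 ih =>
    refine Relation.ReflTransGen.head ?_ ih
    rcases h2 with rfl | rfl
    · exact Or.inl (S.inv _).symm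
    · exact Or.inr (Y.inv _).symm

/-- the vertices connected to a vertex below `t` -/
def teleD (t : ℕ) (x : PM n × PM n) (u : Fin n) : Prop := ∃ v : Fin n, (v : ℕ) < t ∧ Conn x.1 x.2 v u

theorem teleD_fst {t : ℕ} {x : PM n × PM n} {u : Fin n} : teleD t x (x.1 u) ↔ teleD t x u := by
  simp only [teleD, Conn.fst_iff]

theorem teleD_snd {t : ℕ} {x : PM n × PM n} {u : Fin n} : teleD t x (x.2 u) ↔ teleD t x u := by
  simp only [teleD, Conn.snd_iff]

open Classical in
/-- `S` with the edges on `D` replaced by those of `Y` -/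
noncomputable def teleMix (S Y : PM n) (D : Fin n → Prop) (h1 : ∀ u, D (S u) ↔ D u)
    (h2 : ∀ u, D (Y u) ↔ D u) : PM n :=
  ⟨fun u => if D u then Y u else S u, fun u => by
    by_cases h : D u
    · simp [h, h2]
    · simp [h, h1], fun u => by
    by_cases h : D u
    · simpa [h] using Y.ne u
    · simpa [h] using S.ne u⟩

/-- exchange the two matchings on `teleD t x` -/
noncomputable def teleS (t : ℕ) (x : PM n × PM n) : PM n × PM n :=
  (teleMix x.1 x.2 (teleD t x) (fun _ => teleD_fst) (fun _ => teleD_snd),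
    teleMix x.2 x.1 (teleD t x) (fun _ => teleD_snd) (fun _ => teleD_fst))

theorem teleS_pos {t : ℕ} {x : PM n × PM n} {u : Fin n} (h : teleD t x u) :
    (teleS t x).1 u = x.2 u ∧ (teleS t x).2 u = x.1 u := ⟨if_pos h, if_pos h⟩

theorem teleS_neg {t : ℕ} {x : PM n × PM n} {u : Fin n} (h : ¬ teleD t x u) :
    (teleS t x).1 u = x.1 u ∧ (teleS t x).2 u = x.2 u := ⟨if_neg h, if_neg h⟩

theorem teleS_conn (t : ℕ) (x : PM n × PM n) :
    Conn (teleS t x).1 (teleS t x).2 = Conn x.1 x.2 := by
  have : (fun a b => b = (teleS t x).1 a ∨ b = (teleS t x).2 a) =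
      fun a b => b = x.1 a ∨ b = x.2 a := by
    funext a b
    by_cases h : teleD t x a
    · rw [(teleS_pos h).1, (teleS_pos h).2, or_comm]
    · rw [(teleS_neg h).1, (teleS_neg h).2]
  funext u v
  simp only [Conn, this]

theorem teleS_invol (t : ℕ) : Function.Involutive (teleS (n := n) t) := by
  intro x
  have hD : ∀ u, teleD t (teleS t x) u ↔ teleD t x u := fun u => by
    simp only [teleD, teleS_conn]
  refine Prod.ext (PM.ext fun u => ?_) (PM.ext fun u => ?_)
  · by_cases h : teleD t x u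
    · rw [(teleS_pos ((hD u).2 h)).1, (teleS_pos h).2]
    · rw [(teleS_neg (mt (hD u).1 h)).1, (teleS_neg h).1]
  · by_cases h : teleD t x u
    · rw [(teleS_pos ((hD u).2 h)).2, (teleS_pos h).1]
    · rw [(teleS_neg (mt (hD u).1 h)).2, (teleS_neg h).2]

theorem teleS_wt (hl : Pos lam) (t : ℕ) (x : PM n × PM n) :
    wt lam (teleS t x).1 * wt lam (teleS t x).2 = wt lam x.1 * wt lam x.2 := by
  refine (pow_left_inj₀ (mul_pos (hl.wt_pos _) (hl.wt_pos _)).le
    (mul_pos (hl.wt_pos _) (hl.wt_pos _)).le two_ne_zero).1 ?_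
  simp only [mul_pow, wt_sq hl.symm, ← prod_mul_distrib]
  refine prod_congr rfl fun u _ => ?_
  by_cases h : teleD t x u
  · rw [(teleS_pos h).1, (teleS_pos h).2, mul_comm]
  · rw [(teleS_neg h).1, (teleS_neg h).2]

theorem teleS_zero (x : PM n × PM n) : (teleS 0 x).1 = x.1 :=
  PM.ext fun _ => (teleS_neg fun ⟨_, h, _⟩ => absurd h (Nat.not_lt_zero _)).1

theorem teleS_last (x : PM n × PM n) : (teleS n x).1 = x.2 :=
  PM.ext fun u => (teleS_pos ⟨u, u.2, Relation.ReflTransGen.refl⟩).1

theorem teleS_step (x : PM n × PM n) (t : Fin n) :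
    (teleS (t + 1) x).1 = (teleS t x).1 ∨
      (teleS (t + 1) x).1 = cyc (teleS t x).1 (teleS t x).2 t := by
  have hD : ∀ u, teleD (t + 1) x u ↔ teleD t x u ∨ Conn x.1 x.2 t u := fun u => by
    constructor
    · rintro ⟨v, hv, h⟩
      rcases (Nat.lt_succ_iff.1 hv).lt_or_eq with hv | hv
      · exact Or.inl ⟨v, hv, h⟩
      · exact Or.inr (Fin.ext hv ▸ h)
    · rintro (⟨v, hv, h⟩ | h)
      · exact ⟨v, by omega, h⟩
      · exact ⟨t, by omega, h⟩
  by_cases h0 : teleD t x t
  · left
    refine PM.ext fun u => ?_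
    by_cases h : teleD t x u
    · rw [(teleS_pos h).1, (teleS_pos ((hD u).2 (Or.inl h))).1]
    · rw [(teleS_neg h).1, (teleS_neg fun h1 => ?_).1]
      rcases (hD u).1 h1 with h2 | h2
      · exact h h2
      · obtain ⟨v, hv, h3⟩ := h0
        exact h ⟨v, hv, h3.trans h2⟩
  · right
    refine PM.ext fun u => ?_
    by_cases h : Conn x.1 x.2 t u
    · have h1 : ¬ teleD t x u := fun ⟨v, hv, h3⟩ => h0 ⟨v, hv, h3.trans (tele_conn_symm h)⟩
      have h2 : cyc (teleS t x).1 (teleS t x).2 t u = (teleS t x).2 u :=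
        if_pos (by rw [teleS_conn]; exact h)
      rw [h2, (teleS_neg h1).2, (teleS_pos ((hD u).2 (Or.inr h))).1]
    · have h2 : cyc (teleS t x).1 (teleS t x).2 t u = (teleS t x).1 u :=
        if_neg (by rw [teleS_conn]; exact h)
      rw [h2]
      by_cases h1 : teleD t x u
      · rw [(teleS_pos h1).1, (teleS_pos ((hD u).2 (Or.inl h1))).1]
      · rw [(teleS_neg h1).1, (teleS_neg fun h3 => ((hD u).1 h3).elim h1 h).1]

/-- For `t ≤ n` let `D t (A, B)` be the set of `u` with `Conn A B v u` for some `v < t`, and `σ t (A, B)` the pair in which `A` and `B`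
are exchanged on `D t`.  `σ t` preserves `Conn` (the union of the two matchings is unchanged), hence it is an involution; it preserves
the product of the weights (`wt_sq`); `σ 0 = id`, `σ n = swap`, and `(σ (t + 1) x).1` is either `(σ t x).1` or
`cyc (σ t x).1 (σ t x).2 t`.  Telescope and use Cauchy-Schwarz. -/
theorem telescope (hl : Pos lam) (f : PM n → ℝ) :
    ∑ A : PM n, ∑ B : PM n, wt lam A * wt lam B * (f A - f B) ^ 2 ≤
      n * ∑ S : PM n, ∑ Y : PM n, ∑ v, wt lam S * wt lam Y * (f (cyc S Y v) - f S) ^ 2 := by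
  have h1 : ∀ x : PM n × PM n, (f x.1 - f x.2) ^ 2 ≤
      n * ∑ t : Fin n, (f (cyc (teleS t x).1 (teleS t x).2 t) - f (teleS t x).1) ^ 2 := by
    intro x
    have e : f x.2 - f x.1 = ∑ t : Fin n, (f (teleS (t + 1) x).1 - f (teleS t x).1) := by
      rw [Fin.sum_univ_eq_sum_range (fun t => f (teleS (t + 1) x).1 - f (teleS t x).1),
        sum_range_sub (fun t => f (teleS t x).1), teleS_zero, teleS_last]
    have h2 := sq_sum_le_card_mul_sum_sq (s := (univ : Finset (Fin n)))
      (f := fun t => f (teleS (t + 1) x).1 - f (teleS t x).1)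
    rw [← e, card_univ, Fintype.card_fin] at h2
    rw [← neg_sub, neg_sq]
    refine h2.trans (mul_le_mul_of_nonneg_left (sum_le_sum fun t _ => ?_) (Nat.cast_nonneg n))
    rcases teleS_step x t with h | h
    · rw [h, sub_self, zero_pow two_ne_zero]
      exact sq_nonneg _
    · rw [h]
  have h3 : ∀ t : Fin n, ∑ x : PM n × PM n, wt lam x.1 * wt lam x.2 *
      (f (cyc (teleS t x).1 (teleS t x).2 t) - f (teleS t x).1) ^ 2 =
      ∑ x : PM n × PM n, wt lam x.1 * wt lam x.2 * (f (cyc x.1 x.2 t) - f x.1) ^ 2 := by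
    intro t
    rw [← Equiv.sum_comp (teleS_invol (n := n) t).toPerm
      (fun x => wt lam x.1 * wt lam x.2 * (f (cyc x.1 x.2 t) - f x.1) ^ 2)]
    refine sum_congr rfl fun x _ => ?_
    rw [Function.Involutive.coe_toPerm, teleS_wt hl]
  rw [← Fintype.sum_prod_type', ← Fintype.sum_prod_type' (f := fun S Y =>
    ∑ v, wt lam S * wt lam Y * (f (cyc S Y v) - f S) ^ 2), sum_comm, ← sum_congr rfl fun t _ => h3 t,
    sum_comm, mul_sum]
  refine sum_le_sum fun x _ => ?_
  rw [← mul_sum, mul_left_comm]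
  exact mul_le_mul_of_nonneg_left (h1 x) (mul_pos (hl.wt_pos _) (hl.wt_pos _)).le

end Crest.Agent.R304
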