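import Crest.Agent.R304.Run

/-! Row 304: balanced weights are quasi-ultrametric after rescaling the vertices. -/

set_option autoImplicit false

namespace Crest.Agent.R304

open Finset

variable {n : ℕ} {lam : Fin n → Fin n → ℝ}

theorem ultra_walk_back (S Y : PM n) (a : Fin n) (i : ℕ) :
    walk Y S a i = if i % 2 = 0 then Y (walk Y S a (i + 1)) else S (walk Y S a (i + 1)) := by
  rw [walk_succ]
  split_ifs <;> simp

theorem ultra_inj (S Y : PM n) (a : Fin n) (k : ℕ) (h : ∀ i < k, walk Y S a i ≠ S a) :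
    ∀ j ≤ k, ∀ i < j, walk Y S a i ≠ walk Y S a j := by
  intro j
  induction j using Nat.strong_induction_on with
  | _ j ih =>
    intro hj i hij e
    obtain ⟨j, rfl⟩ : ∃ j', j = j' + 1 := ⟨j - 1, by omega⟩
    have hb := ultra_walk_back S Y a j
    by_cases hp : i % 2 = j % 2
    · have e2 : walk Y S a (i + 1) = walk Y S a j := by
        rw [hb, walk_succ, ← e, hp]
      by_cases h1 : i = j
      · subst h1
        rw [walk_succ] at e
        split_ifs at e
        · exact Y.ne _ e.symm
        · exact S.ne _ e.symm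
      · exact ih j (by omega) (by omega) (i + 1) (by omega) e2
    · rcases i with _ | i
      · rw [if_neg (by omega), ← e, walk_zero] at hb
        exact h j (by omega) hb
      · refine ih j (by omega) (by omega) i (by omega) ?_
        rw [hb, ultra_walk_back S Y a i, e, show i % 2 = j % 2 by omega]

theorem ultra_nodup {α : Type} {Y S : α → α} {a : α} {m : ℕ} :
    (seg Y S a m).Nodup ↔ ∀ j < m, ∀ i < j, walk Y S a i ≠ walk Y S a j := by
  rw [seg, List.nodup_map_iff_inj_on List.nodup_range]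
  simp only [List.mem_range]
  constructor
  · intro h j hj i hi e
    have := h i (by omega) j hj e
    omega
  · intro h i hi j hj e
    rcases lt_trichotomy i j with h1 | h1 | h1
    · exact absurd e (h j hj i h1)
    · exact h1
    · exact absurd e.symm (h i hi j h1)

theorem ultra_le {Y S : Fin n → Fin n} {a : Fin n} {m : ℕ} (h : (seg Y S a m).Nodup) : m ≤ n := by
  simpa [seg] using h.length_le_card

/-- `x` is recovered from `y` -/
def UltraRel (a b : Fin n) (x y : PM n × PM n) : Prop :=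
  ∃ j : Fin n, x = mv y (3, y.1 b, j) ∧ (seg y.2 y.1 (y.1 b) (j + 1)).Nodup ∧
    walk y.2 y.1 (y.1 b) j = a

theorem UltraRel.unique {a b : Fin n} {x x' y : PM n × PM n} (h : UltraRel a b x y)
    (h' : UltraRel a b x' y) : x = x' := by
  obtain ⟨j, rfl, h1, h2⟩ := h
  obtain ⟨j', rfl, h1', h2'⟩ := h'
  rw [ultra_nodup] at h1 h1'
  have : j = j' := by
    rcases lt_trichotomy (j : ℕ) j' with h | h | h
    · exact absurd (h2.trans h2'.symm) (h1' j' (by omega) j h)
    · exact Fin.ext h
    · exact absurd (h2'.trans h2.symm) (h1 j (by omega) j' h)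
  rw [this]

theorem ultra_move (hl : Pos lam) (S Y : PM n) (a : Fin n) {k : ℕ} (hk : k % 2 = 0)
    (h : (seg Y S a (k + 1)).Nodup) :
    ∃ y : PM n × PM n, UltraRel a (S a) (S, Y) y ∧ y.1 (S a) = walk Y S a k ∧
      y.2 a = walk Y S a (k + 1) ∧ (∀ v, (∀ s ≤ k + 1, walk Y S a s ≠ v) → y.2 v = Y v) ∧
      w2 lam y * (lam a (S a) * lam (walk Y S a k) (walk Y S a (k + 1))) =
        w2 lam (S, Y) * (lam (S a) (walk Y S a k) * lam a (walk Y S a (k + 1))) := by
  obtain ⟨R, e1, e2⟩ := run_walk S Y a (m := k + 1) (by omega) h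
  have ho : (k + 1) % 2 = 1 := by omega
  have hp1 : walk S Y (S a) 1 = a := e2 0
  let j : Fin n := ⟨k, ultra_le h⟩
  have hmv : mv (S, Y) (3, a, j) = (shift (seg Y S a (k + 1)) S, shift (seg Y S a (k + 1)) Y) := rfl
  have hrl : rl (S, Y) (3, a, j) = (3, walk Y S a k, j) := if_pos ⟨rfl, h⟩
  have h1 : (mv (S, Y) (3, a, j)).1 (S a) = walk Y S a k := by
    have := R.toInj.shift_last ho R.pre
    rw [hp1, e2, ← e1] at this
    exact (PM.eq_iff _).1 this
  refine ⟨mv (S, Y) (3, a, j), ⟨j, ?_, ?_⟩, h1, ?_, fun v hv => ?_, ?_⟩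
  · rw [h1, ← hrl, mv_rl]
  · have h2 := rl_rl (S, Y) (3, a, j)
    rw [hrl] at h2
    rw [h1]
    generalize mv (S, Y) (3, a, j) = y at h2
    by_cases h3 : (seg y.2 y.1 (walk Y S a k) (j + 1)).Nodup
    · rw [rl, if_pos ⟨rfl, h3⟩] at h2
      exact ⟨h3, congrArg (fun l => l.2.1) h2⟩
    · rw [rl, if_neg (fun h4 => h3 h4.2)] at h2
      have h4 : walk Y S a k = a := congrArg (fun l => l.2.1) h2
      have h5 : k = 0 := by
        by_contra h5
        exact ultra_nodup.1 h k (by omega) 0 (by omega) h4.symm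
      subst h5
      exact absurd (by simp [seg, j]) h3
  · have := R.shift_snd_first ho
    rw [hp1, e2, ← e1] at this
    exact this
  · rw [hmv, e1]
    refine R.shift_snd_other ho fun s h1 h2 => ?_
    obtain ⟨s, rfl⟩ : ∃ s', s = s' + 1 := ⟨s - 1, by omega⟩
    rw [e2]
    exact hv s (by omega)
  · have := R.wt_col hl ho
    rw [hp1, e2, e2, walk_zero, ← e1, hl.symm (S a) a] at this
    exact this

theorem ultra_sum (A B : PM n → Prop) [DecidablePred A] [DecidablePred B] :
    ∑ y : PM n × PM n, (if A y.1 ∧ B y.2 then w2 lam y else 0) =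
      (∑ S ∈ univ.filter A, wt lam S) * ∑ S ∈ univ.filter B, wt lam S := by
  rw [sum_filter, sum_filter, sum_mul_sum, Fintype.sum_prod_type]
  refine sum_congr rfl fun S _ => sum_congr rfl fun Y _ => ?_
  by_cases h1 : A S <;> by_cases h2 : B Y <;> simp [h1, h2, w2]

/-- Path switching.  For `S ∋ a b`, `Y ∋ c d` follow `w = walk Y S a` up to the first `k` with `w k ∈ {b, c, d}` (it exists, and `w` is
injective on `[0, k]`).  If `w k = b` then `k` is odd; conjugate by the reversal of `w 0, ..., w (k - 1)` (a cycle swap, same weight): the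
second matching then contains `a b` and `c d`.  If `w k = c` (resp. `d`) then `k` is even; conjugate by the reversal of `w 0, ..., w k`: the new pair
has `S' ∋ b c`, `Y' ∋ a d` (resp. `S' ∋ b d`, `Y' ∋ a c`), weights by `run_walk`, `Run.wt_col`.  Each of the three maps is injective: the move is undone
by the reverse label (`mv_rl`), and the length is determined by the image because the reverse walk is duplicate free and ends at `a`
(first case: it starts at `Y' ⁻¹`-neighbour data determined by the image: `w (k - 1) = S' b`). -/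
theorem switch (hl : Pos lam) {a b c d : Fin n} (hab : a ≠ b) (hac : a ≠ c) (had : a ≠ d) (hbc : b ≠ c)
    (hbd : b ≠ d) (hcd : c ≠ d) :
    Ze lam a b * Ze lam c d ≤
      Zf lam * (∑ S ∈ univ.filter (fun S : PM n => S a = b ∧ S c = d), wt lam S) +
      lam a b * lam c d / (lam a c * lam b d) * (Ze lam a c * Ze lam b d) +
      lam a b * lam c d / (lam a d * lam b c) * (Ze lam a d * Ze lam b c) := by
  have hw : ∀ y : PM n × PM n, 0 < w2 lam y := fun y => mul_pos (hl.wt_pos _) (hl.wt_pos _)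
  obtain ⟨C2, hC2⟩ : ∃ C, C = lam a b * lam c d / (lam a c * lam b d) := ⟨_, rfl⟩
  obtain ⟨C3, hC3⟩ : ∃ C, C = lam a b * lam c d / (lam a d * lam b c) := ⟨_, rfl⟩
  have hp := hl.pos
  have hC2' : 0 < C2 := by rw [hC2]; exact div_pos (mul_pos (hp _ _) (hp _ _)) (mul_pos (hp _ _) (hp _ _))
  have hC3' : 0 < C3 := by rw [hC3]; exact div_pos (mul_pos (hp _ _) (hp _ _)) (mul_pos (hp _ _) (hp _ _))
  let G1 : PM n × PM n → ℝ := fun y => if True ∧ (y.2 a = b ∧ y.2 c = d) then w2 lam y else 0
  let G2 : PM n × PM n → ℝ := fun y => if y.1 b = d ∧ y.2 a = c then w2 lam y else 0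
  let G3 : PM n × PM n → ℝ := fun y => if y.1 b = c ∧ y.2 a = d then w2 lam y else 0
  have g1 : ∀ y, 0 ≤ G1 y := fun y => by
    simp only [G1]; split_ifs; exacts [(hw y).le, le_rfl]
  have g2 : ∀ y, 0 ≤ C2 * G2 y := fun y => mul_nonneg hC2'.le (by
    simp only [G2]; split_ifs; exacts [(hw y).le, le_rfl])
  have g3 : ∀ y, 0 ≤ C3 * G3 y := fun y => mul_nonneg hC3'.le (by
    simp only [G3]; split_ifs; exacts [(hw y).le, le_rfl])
  have key : ∀ x : PM n × PM n, ∃ y, x.1 a = b ∧ x.2 c = d →
      UltraRel a b x y ∧ w2 lam x ≤ G1 y + C2 * G2 y + C3 * G3 y := by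
    rintro ⟨S, Y⟩
    by_cases hx : S a = b ∧ Y c = d
    swap
    · exact ⟨(S, Y), fun h => absurd h hx⟩
    obtain ⟨rfl, rfl⟩ := hx
    have hex : ∃ k, walk Y S a k = S a ∨ walk Y S a k = c ∨ walk Y S a k = Y c := by
      by_contra hc
      push Not at hc
      have := ultra_le (ultra_nodup.2 fun j hj =>
        ultra_inj S Y a n (fun i _ => (hc i).1) j (Nat.lt_succ_iff.1 hj))
      omega
    classical
    obtain ⟨k, hk, hmin⟩ : ∃ k, (walk Y S a k = S a ∨ walk Y S a k = c ∨ walk Y S a k = Y c) ∧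
        ∀ i < k, walk Y S a i ≠ S a ∧ walk Y S a i ≠ c ∧ walk Y S a i ≠ Y c :=
      ⟨Nat.find hex, Nat.find_spec hex, fun i hi => by simpa [not_or] using Nat.find_min hex hi⟩
    have hinj := ultra_inj S Y a k fun i hi => (hmin i hi).1
    obtain ⟨k, rfl⟩ : ∃ k', k = k' + 1 := ⟨k - 1, by
      rcases k with _ | k
      · rw [walk_zero] at hk
        tauto
      · omega⟩
    have hb := ultra_walk_back S Y a k
    rcases hk with hk | hk | hk
    · have hpar : k % 2 = 0 := by
        by_contra hpar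
        rw [if_neg hpar, hk, S.inv] at hb
        exact hinj k (by omega) 0 (by omega) hb.symm
      obtain ⟨y, r1, -, r3, r4, r5⟩ := ultra_move hl S Y a hpar
        (ultra_nodup.2 fun j hj => hinj j hj.le)
      refine ⟨y, fun _ => ⟨r1, ?_⟩⟩
      have r6 : y.2 c = Y c := r4 c fun s hs => by
        rcases hs.lt_or_eq with hs | rfl
        · exact (hmin s hs).2.1
        · rw [hk]; exact hbc
      rw [hk] at r3 r5
      rw [hl.symm (S a) (walk Y S a k), mul_comm (lam a (S a))] at r5
      have r7 := mul_right_cancel₀ (mul_pos (hp _ _) (hp _ _)).ne' r5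
      have r8 : G1 y = w2 lam y := if_pos ⟨trivial, r3, r6⟩
      linarith [g2 y, g3 y]
    · have hpar : (k + 1) % 2 = 0 := by
        by_contra hpar
        rw [if_pos (by omega), hk] at hb
        exact (hmin k (by omega)).2.2 hb
      obtain ⟨y, r1, r2, r3, -, r5⟩ := ultra_move hl S Y a hpar
        (ultra_nodup.2 fun j hj => hinj j (Nat.lt_succ_iff.1 hj))
      refine ⟨y, fun _ => ⟨r1, ?_⟩⟩
      rw [walk_succ Y S a (k + 1), if_pos hpar, hk] at r3 r5
      rw [hk] at r2
      have r8 : G3 y = w2 lam y := if_pos ⟨r2, r3⟩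
      have r9 : w2 lam (S, Y) = C3 * w2 lam y := by
        rw [hC3, div_mul_eq_mul_div, eq_div_iff (mul_pos (hp _ _) (hp _ _)).ne']
        linarith
      rw [r8]
      linarith [g1 y, g2 y]
    · have hpar : (k + 1) % 2 = 0 := by
        by_contra hpar
        rw [if_pos (by omega), hk, Y.inv] at hb
        exact (hmin k (by omega)).2.1 hb
      obtain ⟨y, r1, r2, r3, -, r5⟩ := ultra_move hl S Y a hpar
        (ultra_nodup.2 fun j hj => hinj j (Nat.lt_succ_iff.1 hj))
      refine ⟨y, fun _ => ⟨r1, ?_⟩⟩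
      rw [walk_succ Y S a (k + 1), if_pos hpar, hk, Y.inv] at r3 r5
      rw [hk] at r2
      rw [hl.symm (Y c) c] at r5
      have r8 : G2 y = w2 lam y := if_pos ⟨r2, r3⟩
      have r9 : w2 lam (S, Y) = C2 * w2 lam y := by
        rw [hC2, div_mul_eq_mul_div, eq_div_iff (mul_pos (hp _ _) (hp _ _)).ne']
        linarith
      rw [r8]
      linarith [g1 y, g3 y]
  choose Φ hΦ using key
  have s0 := ultra_sum (lam := lam) (fun S : PM n => S a = b) (fun S : PM n => S c = d)
  have s1 := ultra_sum (lam := lam) (fun _ : PM n => True) (fun S : PM n => S a = b ∧ S c = d)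
  have s2 := ultra_sum (lam := lam) (fun S : PM n => S b = d) (fun S : PM n => S a = c)
  have s3 := ultra_sum (lam := lam) (fun S : PM n => S b = c) (fun S : PM n => S a = d)
  rw [filter_true] at s1
  rw [← hC2, ← hC3, Ze, Ze, Ze, Ze, Ze, Ze, Zf, ← s0, ← s1, mul_comm (∑ S ∈ filter (fun S : PM n => S a = c) _, _),
    ← s2, mul_comm (∑ S ∈ filter (fun S : PM n => S a = d) _, _), ← s3, ← sum_filter, mul_sum, mul_sum,
    ← sum_add_distrib, ← sum_add_distrib]
  calc _ ≤ ∑ x ∈ univ.filter (fun x : PM n × PM n => x.1 a = b ∧ x.2 c = d),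
        (G1 (Φ x) + C2 * G2 (Φ x) + C3 * G3 (Φ x)) :=
        sum_le_sum fun x hx => (hΦ x (mem_filter.1 hx).2).2
    _ = ∑ y ∈ (univ.filter (fun x : PM n × PM n => x.1 a = b ∧ x.2 c = d)).image Φ,
        (G1 y + C2 * G2 y + C3 * G3 y) := by
        rw [sum_image]
        intro x hx x' hx' e
        have h1 := (hΦ x (mem_filter.1 hx).2).1
        rw [e] at h1
        exact h1.unique (hΦ x' (mem_filter.1 hx').2).1
    _ ≤ _ := sum_le_univ_sum_of_nonneg fun y => add_nonneg (add_nonneg (g1 y) (g2 y)) (g3 y)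

end Crest.Agent.R304
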