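import Crest.Agent.R304.Tree
import Crest.Agent.R304.Tele
import Crest.Agent.R304.CI
import Crest.Agent.R304.Ultra

/-! Row 304: the linearised Poincaré inequality. -/

set_option autoImplicit false

namespace Crest.Agent.R304

open Finset

variable {n : ℕ} {lam : Fin n → Fin n → ℝ}

/-- `telescope`, `cyc_bound`, `exists_dom` -/
theorem poincare_QU {K : ℝ} (hl : Pos lam) (hK : 1 ≤ K) (hQ : QU lam K) (f : PM n → ℝ) :
    ∑ A : PM n, ∑ B : PM n, wt lam A * wt lam B * (f A - f B) ^ 2 ≤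
      360 * n ^ 4 * (1 + 4 * (n : ℝ) ^ 2) ^ 4 * K ^ 3 * Dir lam (two f) := by
  obtain ⟨E, hE, hsum⟩ := exists_dom hl f
  have hK0 : 0 ≤ K := by linarith
  have h1 : ∑ S : PM n, ∑ Y : PM n, ∑ v, wt lam S * wt lam Y * (f (cyc S Y v) - f S) ^ 2 ≤
      n * (60 * n ^ 2 * K ^ 3) * ∑ x, E x := by
    rw [Fintype.sum_prod_type, mul_sum]
    refine sum_le_sum fun S _ => ?_
    rw [mul_sum]
    refine sum_le_sum fun Y _ => ?_
    refine (sum_le_sum fun v _ => cyc_bound hl hK hQ (hE (S, Y)) v).trans (le_of_eq ?_)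
    simp only [sum_const, card_univ, Fintype.card_fin, nsmul_eq_mul]
    ring
  calc _ ≤ n * (n * (60 * n ^ 2 * K ^ 3) * ∑ x, E x) :=
        (telescope hl f).trans (mul_le_mul_of_nonneg_left h1 (Nat.cast_nonneg n))
    _ = 60 * n ^ 4 * K ^ 3 * ∑ x, E x := by ring
    _ ≤ 60 * n ^ 4 * K ^ 3 * (6 * (1 + 4 * (n : ℝ) ^ 2) ^ 4 * Dir lam (two f)) :=
        mul_le_mul_of_nonneg_left hsum (by positivity)
    _ = _ := by ring

theorem poincare_Zf_pos [Nonempty (PM n)] (hl : Pos lam) : 0 < Zf lam :=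
  sum_pos (fun S _ => hl.wt_pos S) univ_nonempty

theorem poincare_Ze_le (hl : Pos lam) (u v : Fin n) : Ze lam u v ≤ Zf lam :=
  sum_le_sum_of_subset_of_nonneg (filter_subset _ _) fun S _ _ => (hl.wt_pos S).le

theorem poincare_Ze_symm (lam : Fin n → Fin n → ℝ) (u v : Fin n) : Ze lam u v = Ze lam v u := by
  unfold Ze
  congr 1
  exact filter_congr fun S _ => S.eq_iff

/-- exchanging two partners -/
theorem poincare_two_le (hl : Pos lam) {x y z o : Fin n} (hxz : x ≠ z) (hxo : x ≠ o)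
    (hzo : z ≠ o) :
    (∑ S ∈ univ.filter (fun S : PM n => S x = z ∧ S y = o), wt lam S) * (lam x o * lam y z) ≤
      Ze lam x o * (lam x z * lam y o) := by
  have hpos : 0 < lam x z * lam y o := mul_pos (hl.pos _ _) (hl.pos _ _)
  have h1 : ∀ S ∈ univ.filter (fun S : PM n => S x = z ∧ S y = o),
      wt lam S * (lam x o * lam y z) = wt lam (shift [z, o] S) * (lam x z * lam y o) := by
    intro S hS
    obtain ⟨h1, h2⟩ := (mem_filter.1 hS).2
    have h3 : S z = x := S.eq_iff.1 h1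
    have h4 : S o = y := S.eq_iff.1 h2
    have := wt_shift_pair (S := S) hl hzo (by rw [h3]; exact hxo)
    rw [h3, h4, hl.symm z x, hl.symm o y, hl.symm o x, hl.symm z y] at this
    exact this.symm
  rw [sum_mul, sum_congr rfl h1, ← sum_mul]
  refine mul_le_mul_of_nonneg_right ?_ hpos.le
  have hinj : Set.InjOn (shift [z, o])
      (univ.filter (fun S : PM n => S x = z ∧ S y = o) : Set (PM n)) := fun S _ T _ h => by
    rw [← shift_shift [z, o] S, h, shift_shift]
  rw [← sum_image (f := wt lam) hinj]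
  refine sum_le_sum_of_subset_of_nonneg (fun T hT => ?_) fun S _ _ => (hl.wt_pos S).le
  obtain ⟨S, hS, rfl⟩ := mem_image.1 hT
  obtain ⟨h1, -⟩ := (mem_filter.1 hS).2
  refine mem_filter.2 ⟨mem_univ _, ?_⟩
  rw [shift_pair_apply hzo, Equiv.swap_apply_of_ne_of_ne hxz hxo, h1, Equiv.swap_apply_left]

/-- the four point inequality for the normalised marginals -/
theorem poincare_four [Nonempty (PM n)] {K : ℝ} (hl : Pos lam) (hB : Bal lam K) {x y z o : Fin n}
    (hxy : x ≠ y) (hxz : x ≠ z) (hxo : x ≠ o) (hyz : y ≠ z) (hyo : y ≠ o) (hzo : z ≠ o)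
    {r : Fin n → Fin n → ℝ} (hr : ∀ u v, Ze lam u v = r u v * (lam u v * Zf lam)) :
    r x z * r y o ≤ r x y * r z o + (1 + K) * (r x o * r y z) := by
  have hZ := poincare_Zf_pos hl
  have h1 := switch hl hxz hxy hxo hyz.symm hzo hyo
  have h2 := poincare_two_le (y := y) hl hxz hxo hzo
  have h3 := hB y z hyz
  set W := ∑ S ∈ univ.filter (fun S : PM n => S x = z ∧ S y = o), wt lam S
  rw [poincare_Ze_symm lam z y, hl.symm z y] at h1
  have hxo' : 0 ≤ Ze lam x o := sum_nonneg fun S _ => (hl.wt_pos S).le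
  simp only [hr] at h1 h2 h3 hxo'
  have a1 := hl.pos x z
  have a2 := hl.pos y o
  have a3 := hl.pos x y
  have a4 := hl.pos z o
  have a5 := hl.pos x o
  have a6 := hl.pos y z
  generalize lam x z = a at *
  generalize lam y o = b at *
  generalize lam x y = c at *
  generalize lam z o = d at *
  generalize lam x o = e at *
  generalize lam y z = g at *
  generalize Zf lam = Z at *
  have h4 : 0 ≤ r x o := nonneg_of_mul_nonneg_left hxo' (by positivity)
  have h5 : 1 ≤ K * r y z * g := by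
    have : Z * 1 ≤ Z * (K * r y z * g) := by linarith
    exact le_of_mul_le_mul_left this hZ
  have h6 : W * g ≤ r x o * Z * (a * b) := by
    have : e * (W * g) ≤ e * (r x o * Z * (a * b)) := by linarith
    exact le_of_mul_le_mul_left this a5
  have h7 : W ≤ K * (r x o * r y z) * (Z * (a * b)) := by
    have h8 : r x o * Z * (a * b) * 1 ≤ r x o * Z * (a * b) * (K * r y z * g) :=
      mul_le_mul_of_nonneg_left h5 (by positivity)
    have : g * W ≤ g * (K * (r x o * r y z) * (Z * (a * b))) := by linarith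
    exact le_of_mul_le_mul_left this a6
  have e1 : a * b / (c * d) * (r x y * (c * Z) * (r z o * (d * Z))) =
      r x y * r z o * (Z * Z * (a * b)) := by field_simp
  have e2 : a * b / (e * g) * (r x o * (e * Z) * (r y z * (g * Z))) =
      r x o * r y z * (Z * Z * (a * b)) := by field_simp
  rw [e1, e2] at h1
  have h9 : Z * W ≤ Z * (K * (r x o * r y z) * (Z * (a * b))) := mul_le_mul_of_nonneg_left h7 hZ.le
  have : (Z * Z * (a * b)) * (r x z * r y o) ≤
      (Z * Z * (a * b)) * (r x y * r z o + (1 + K) * (r x o * r y z)) := by linarith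
  exact le_of_mul_le_mul_left this (by positivity)

/-- Let `r u v = Ze u v / (lam u v * Zf)`, so `1 / K ≤ lam u v * r u v ≤ 1` for `u ≠ v`.  Fix a vertex `o` (nothing to do if `n = 0`), let
`ψ x = r x o` for `x ≠ o`, `ψ o = 1 / R` with `R > 0` an upper bound of all `r x y / (r x o * r y o)`, and `ρ x y = r x y / (ψ x * ψ y)` for `x ≠ y`,
`ρ x x = 0`.  Then `ρ x z ≤ ρ x y + (1 + K) ρ y z` for all `x, y, z`: trivial if two of them coincide or one is `o` (`ρ o x = R`); otherwise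
`switch` for `(a, b, c, d) = (x, z, y, o)`, where the weight of `{S ∋ x z, y o}` divided by `lam x z * lam y o` equals that of
`{S ∋ x o, y z}` divided by `lam x o * lam y z` (`shift [z, o]`, `wt_shift_pair`), which is at most `Ze x o / (lam x o * lam y z)`, and
`1 / lam y z ≤ K r y z`.  With `lam' = lam ψ ψ`: `ρ ≤ 1 / lam' ≤ K ρ` off the diagonal; chain by induction on `k`. -/
theorem exists_QU [Nonempty (PM n)] {K : ℝ} (hl : Pos lam) (hK : 1 ≤ K) (hB : Bal lam K) :
    ∃ ψ : Fin n → ℝ, (∀ v, 0 < ψ v) ∧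
      QU (fun u v => lam u v * ψ u * ψ v) ((n + 1) * (1 + K) * K) := by
  rcases isEmpty_or_nonempty (Fin n) with hn | ⟨⟨o⟩⟩
  · exact ⟨fun _ => 1, fun _ => one_pos, fun p => hn.elim (p 0)⟩
  have hZ := poincare_Zf_pos hl
  have hK0 : 0 < K := by linarith
  obtain ⟨r, hr⟩ : ∃ r : Fin n → Fin n → ℝ, ∀ u v, Ze lam u v = r u v * (lam u v * Zf lam) :=
    ⟨fun u v => Ze lam u v / (lam u v * Zf lam), fun u v =>
      (div_mul_cancel₀ _ (mul_pos (hl.pos u v) hZ).ne').symm⟩
  have r1 : ∀ u v, lam u v * r u v ≤ 1 := fun u v => by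
    have h := poincare_Ze_le hl u v
    rw [hr] at h
    have : Zf lam * (lam u v * r u v) ≤ Zf lam * 1 := by linarith
    exact le_of_mul_le_mul_left this hZ
  have r2 : ∀ u v, u ≠ v → 1 ≤ K * (lam u v * r u v) := fun u v huv => by
    have h := hB u v huv
    rw [hr] at h
    have : Zf lam * 1 ≤ Zf lam * (K * (lam u v * r u v)) := by linarith
    exact le_of_mul_le_mul_left this hZ
  have r3 : ∀ u v, u ≠ v → 0 < r u v := fun u v huv =>
    (mul_pos_iff_of_pos_left (hl.pos u v)).1 ((mul_pos_iff_of_pos_left hK0).1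
      (lt_of_lt_of_le one_pos (r2 u v huv)))
  have r4 : ∀ u v, r u v = r v u := fun u v => by
    have h := poincare_Ze_symm lam u v
    rw [hr, hr, hl.symm v u] at h
    exact mul_right_cancel₀ (mul_pos (hl.pos u v) hZ).ne' h
  obtain ⟨R, hR0, hR⟩ : ∃ R : ℝ, 0 < R ∧ ∀ x y, r x y / (r x o * r y o) ≤ R := by
    obtain ⟨M, hM⟩ := (Set.finite_range fun q : Fin n × Fin n =>
      r q.1 q.2 / (r q.1 o * r q.2 o)).bddAbove
    exact ⟨max M 1, lt_max_of_lt_right one_pos, fun x y =>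
      le_max_of_le_left (hM ⟨(x, y), rfl⟩)⟩
  obtain ⟨ψ, hψo, hψ⟩ : ∃ ψ : Fin n → ℝ, ψ o = 1 / R ∧ ∀ x, x ≠ o → ψ x = r x o :=
    ⟨fun x => if x = o then 1 / R else r x o, if_pos rfl, fun x hx => if_neg hx⟩
  have hψ0 : ∀ v, 0 < ψ v := fun v => by
    by_cases h : v = o
    · rw [h, hψo]; positivity
    · rw [hψ v h]; exact r3 v o h
  obtain ⟨ρ, hρ0, hρ⟩ : ∃ ρ : Fin n → Fin n → ℝ, (∀ x, ρ x x = 0) ∧
      ∀ x y, x ≠ y → ρ x y = r x y / (ψ x * ψ y) :=
    ⟨fun x y => if x = y then 0 else r x y / (ψ x * ψ y), fun x => if_pos rfl,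
      fun x y h => if_neg h⟩
  have ρ0 : ∀ x y, 0 ≤ ρ x y := fun x y => by
    by_cases h : x = y
    · rw [h, hρ0]
    · rw [hρ x y h]; exact (div_pos (r3 x y h) (mul_pos (hψ0 x) (hψ0 y))).le
  have ρo : ∀ x, x ≠ o → ρ x o = R := fun x h => by
    have := r3 x o h
    rw [hρ x o h, hψ x h, hψo]; field_simp
  have ρo' : ∀ x, x ≠ o → ρ o x = R := fun x h => by
    have := r3 x o h
    rw [hρ o x h.symm, hψ x h, hψo, r4 o x]; field_simp
  have tri : ∀ x y z, ρ x z ≤ ρ x y + (1 + K) * ρ y z := by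
    intro x y z
    have b1 := ρ0 x y
    have b2 := ρ0 y z
    have b3 : 0 ≤ K * ρ y z := mul_nonneg hK0.le b2
    by_cases hxz : x = z
    · rw [hxz, hρ0]; rw [hxz] at b1; linarith
    by_cases hxy : x = y
    · rw [hxy, hρ0]; linarith
    by_cases hyz : y = z
    · rw [hyz, hρ0]; linarith
    by_cases hxo : x = o
    · subst hxo
      rw [ρo' z (Ne.symm hxz), ρo' y (Ne.symm hxy)]; linarith
    by_cases hzo : z = o
    · subst hzo
      rw [ρo y hyz] at b3 ⊢
      rw [ρo x hxz]; linarith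
    by_cases hyo : y = o
    · subst hyo
      have := hR x z
      rw [ρo x hxy, hρ x z hxz, hψ x hxo, hψ z hzo]; linarith
    have h4 := poincare_four hl hB hxy hxz hxo hyz hyo hzo hr
    have c1 := r3 x o hxo
    have c2 := r3 y o hyo
    have c3 := r3 z o hzo
    rw [hρ x z hxz, hρ x y hxy, hρ y z hyz, hψ x hxo, hψ y hyo, hψ z hzo]
    have e : r x y / (r x o * r y o) + (1 + K) * (r y z / (r y o * r z o)) -
        r x z / (r x o * r z o) =
        (r x y * r z o + (1 + K) * (r x o * r y z) - r x z * r y o) / (r x o * r y o * r z o) := by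
      field_simp
    have : 0 ≤ (r x y * r z o + (1 + K) * (r x o * r y z) - r x z * r y o) /
        (r x o * r y o * r z o) := div_nonneg (by linarith) (by positivity)
    linarith
  have key : ∀ x y, x ≠ y → lam x y * ψ x * ψ y * ρ x y = lam x y * r x y := fun x y h => by
    have := hψ0 x
    have := hψ0 y
    rw [hρ x y h]; field_simp
  refine ⟨ψ, hψ0, fun p k t hk hp hc => ?_⟩
  have hL : 0 < lam (p 0) (p k) * ψ (p 0) * ψ (p k) :=
    mul_pos (mul_pos (hl.pos _ _) (hψ0 _)) (hψ0 _)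
  rcases le_or_gt t 0 with ht | ht
  · exact ht.trans (by positivity)
  have chain : ∀ j ≤ k, t * ρ (p 0) (p j) ≤ j * (1 + K) := by
    intro j
    induction j with
    | zero => intro _; simp [hρ0]
    | succ j ih =>
      intro hj
      obtain ⟨d1, d2⟩ := hc j hj
      have d3 : t * ρ (p j) (p (j + 1)) ≤ 1 :=
        (mul_le_mul_of_nonneg_right d2 (ρ0 _ _)).trans ((key _ _ d1).le.trans (r1 _ _))
      have d4 := mul_le_mul_of_nonneg_left (tri (p 0) (p j) (p (j + 1))) ht.le
      have d5 := ih (Nat.le_of_succ_le hj)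
      have d6 := mul_le_mul_of_nonneg_left d3 (show 0 ≤ 1 + K by linarith)
      push_cast
      linarith
  have h1 := r2 _ _ hp
  rw [← key _ _ hp] at h1
  have h2 : t * ρ (p 0) (p k) ≤ (n + 1) * (1 + K) :=
    (chain k le_rfl).trans (mul_le_mul_of_nonneg_right (by exact_mod_cast hk) (by linarith))
  have h3 := mul_le_mul_of_nonneg_left h1 ht.le
  have h4 := mul_le_mul_of_nonneg_left h2 (mul_pos hK0 hL).le
  beta_reduce
  linarith

/-- both sides are homogeneous under the rescaling (`wt_scale`) -/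
theorem poincare_bal [Nonempty (PM n)] {K : ℝ} (hl : Pos lam) (hK : 1 ≤ K) (hB : Bal lam K)
    (f : PM n → ℝ) :
    ∑ A : PM n, ∑ B : PM n, wt lam A * wt lam B * (f A - f B) ^ 2 ≤
      360 * n ^ 4 * (1 + 4 * (n : ℝ) ^ 2) ^ 4 * ((n + 1) * (1 + K) * K) ^ 3 * Dir lam (two f) := by
  obtain ⟨ψ, hψ, hQ⟩ := exists_QU hl hK hB
  have hl' : Pos fun u v => lam u v * ψ u * ψ v :=
    ⟨fun u v => mul_pos (mul_pos (hl.pos u v) (hψ u)) (hψ v), fun u v => by rw [hl.symm u v]; ring⟩
  have hK' : 1 ≤ ((n : ℝ) + 1) * (1 + K) * K :=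
    one_le_mul_of_one_le_of_one_le (one_le_mul_of_one_le_of_one_le
      (le_add_of_nonneg_left (Nat.cast_nonneg n)) (by linarith)) hK
  have h := poincare_QU hl' hK' hQ f
  have hP : 0 < (∏ v, ψ v) ^ 2 := pow_pos (prod_pos fun v _ => hψ v) 2
  have hw : ∀ x, w2 (fun u v => lam u v * ψ u * ψ v) x = (∏ v, ψ v) ^ 2 * w2 lam x := fun x => by
    simp only [w2, wt_scale]; ring
  have e1 : Dir (fun u v => lam u v * ψ u * ψ v) (two f) = (∏ v, ψ v) ^ 2 * Dir lam (two f) := by
    simp only [Dir, loc, hw, mul_sum, ← mul_min_of_nonneg _ _ hP.le]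
    exact sum_congr rfl fun x _ => sum_congr rfl fun l _ => mul_assoc _ _ _
  have e2 : ∑ A : PM n, ∑ B : PM n, wt (fun u v => lam u v * ψ u * ψ v) A *
      wt (fun u v => lam u v * ψ u * ψ v) B * (f A - f B) ^ 2 =
      (∏ v, ψ v) ^ 2 * ∑ A : PM n, ∑ B : PM n, wt lam A * wt lam B * (f A - f B) ^ 2 := by
    simp only [wt_scale, mul_sum]
    refine sum_congr rfl fun A _ => sum_congr rfl fun B _ => by ring
  rw [e1, e2] at h
  refine le_of_mul_le_mul_left (h.trans (le_of_eq ?_)) hP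
  ring

end Crest.Agent.R304
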