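import Mathlib

/-!
Row 304: the perfect matching polytope of a multigraph `ends : E → V × V` on a vertex set `U`.
Definitions only.
-/

set_option autoImplicit false

namespace Crest.Agent.R304

open Finset

variable {V E : Type} [DecidableEq V] [Fintype E] [DecidableEq E]

/-- the edges with exactly one end in `S` -/
def cut (ends : E → V × V) (S : Finset V) : Finset E :=
  univ.filter fun e => ¬ ((ends e).1 ∈ S ↔ (ends e).2 ∈ S)

/-- Edmonds' constraints on the vertex set `U` (`x` vanishes on loops and on edges leaving `U`) -/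
structure InQ (ends : E → V × V) (U : Finset V) (x : E → ℝ) : Prop where
  nonneg : ∀ e, 0 ≤ x e
  supp : ∀ e, x e ≠ 0 → (ends e).1 ∈ U ∧ (ends e).2 ∈ U ∧ (ends e).1 ≠ (ends e).2
  deg : ∀ v ∈ U, ∑ e ∈ cut ends {v}, x e = 1
  odd : ∀ S ⊆ U, Odd S.card → 1 ≤ ∑ e ∈ cut ends S, x e

/-- `M` is a perfect matching of `U` -/
def IsPMOn (ends : E → V × V) (U : Finset V) (M : Finset E) : Prop :=
  (∀ e ∈ M, (ends e).1 ∈ U ∧ (ends e).2 ∈ U ∧ (ends e).1 ≠ (ends e).2) ∧
    ∀ v ∈ U, (M ∩ cut ends {v}).card = 1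

/-- a probability law on the perfect matchings of `U` -/
def IsLawOn (ends : E → V × V) (U : Finset V) (p : Finset E → ℝ) : Prop :=
  (∀ M, 0 ≤ p M) ∧ ∑ M, p M = 1 ∧ ∀ M, p M ≠ 0 → IsPMOn ends U M

/-- edge marginals -/
def marg (p : Finset E → ℝ) (e : E) : ℝ := ∑ M ∈ univ.filter (fun M => e ∈ M), p M

open Classical in
/-- the cut vector of `S`, restricted to the support of `x` -/
noncomputable def cutVec (ends : E → V × V) (x : E → ℝ) (S : Finset V) : E → ℝ :=
  fun e => if e ∈ cut ends S ∧ 0 < x e then 1 else 0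

/-- the tight odd subsets of `U` -/
def Tight (ends : E → V × V) (U : Finset V) (x : E → ℝ) : Set (Finset V) :=
  {S | S ⊆ U ∧ Odd S.card ∧ ∑ e ∈ cut ends S, x e = 1}

open Classical in
/-- the fractional coordinates -/
noncomputable def frac (x : E → ℝ) : Finset E := univ.filter fun e => 0 < x e ∧ x e < 1

end Crest.Agent.R304
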