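import Crest.Agent.R304.Lst

/-! Row 304: runs and sub-runs. -/

set_option autoImplicit false

namespace Crest.Agent.R304

open Finset

variable {n : ℕ} {lam : Fin n → Fin n → ℝ} {f : PM n → ℝ} {S Y : PM n} {p : ℕ → Fin n} {m : ℕ}

theorem Run.toInj (R : Run S Y p m) : Inj p m := R.inj

theorem Run.pre (R : Run S Y p m) : Pre (lst p m) S := by
  exact pre_lst.2 fun s _ h2 h3 => R.ev s h2.le h3

theorem Run.fst_one (R : Run S Y p m) : S (p 1) = p 0 := by
  exact S.eq_iff.1 (R.ev 0 (Nat.zero_le _) rfl)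

/-- consecutive vertices are distinct -/
theorem Run.ne_succ (R : Run S Y p m) {i : ℕ} (hi : i ≤ m) : p i ≠ p (i + 1) := by
  intro h
  rcases Nat.mod_two_eq_zero_or_one i with h2 | h2
  · exact S.ne (p i) ((R.ev i hi h2).trans h.symm)
  · exact Y.ne (p i) ((R.od i hi h2).trans h.symm)

theorem Run.walk_eq (R : Run S Y p m) {i : ℕ} (hi : i ≤ m) : walk Y S (p 1) i = p (i + 1) := by
  induction i with
  | zero => exact walk_zero _ _ _
  | succ i ih =>
    rw [walk_succ, ih (by omega)]
    split_ifs with h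
    · exact R.od (i + 1) hi (by omega)
    · exact R.ev (i + 1) hi (by omega)

theorem Run.seg_eq (R : Run S Y p m) : seg Y S (p 1) m = lst p m := by
  unfold seg lst
  refine List.map_congr_left fun i hi => R.walk_eq ?_
  exact (List.mem_range.1 hi).le

/-- every duplicate free segment of a walk is the list of a run -/
theorem run_walk (S Y : PM n) (a : Fin n) {m : ℕ} (hm : 1 ≤ m) (h : (seg Y S a m).Nodup) :
    Run S Y (walk S Y (S a)) m ∧ seg Y S a m = lst (walk S Y (S a)) m ∧
      ∀ i, walk S Y (S a) (i + 1) = walk Y S a i := by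
  have key : ∀ i, walk S Y (S a) (i + 1) = walk Y S a i := by
    intro i
    induction i with
    | zero => rw [walk_succ, walk_zero, walk_zero, if_pos rfl, S.inv]
    | succ i ih =>
      rw [walk_succ, ih, walk_succ Y S a i]
      by_cases hi : i % 2 = 0
      · rw [if_neg (by omega), if_pos hi]
      · rw [if_pos (by omega), if_neg hi]
  have e : seg Y S a m = lst (walk S Y (S a)) m := by
    unfold seg lst
    exact List.map_congr_left fun i _ => (key i).symm
  refine ⟨⟨hm, nodup_lst.1 (e ▸ h), fun i _ hi => ?_, fun i _ hi => ?_⟩, e, key⟩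
  · rw [walk_succ, if_pos hi]
  · rw [walk_succ, if_neg (by omega)]

theorem Run.left (R : Run S Y p m) {i : ℕ} (h1 : 1 ≤ i) (h2 : i ≤ m) : Run S Y p i := by
  exact ⟨h1, fun a b ha ha' hb hb' => R.inj a b ha (by omega) hb (by omega),
    fun a ha => R.ev a (by omega), fun a ha => R.od a (by omega)⟩

theorem Run.right_even (R : Run S Y p m) {i : ℕ} (h1 : i % 2 = 0) (h2 : i < m) :
    Run S Y (fun s => p (s + i)) (m - i) := by
  refine ⟨by omega, fun a b ha ha' hb hb' h => ?_, fun a ha h => ?_, fun a ha h => ?_⟩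
  · have := R.inj (a + i) (b + i) (by omega) (by omega) (by omega) (by omega) h
    omega
  · have := R.ev (a + i) (by omega) (by omega)
    rwa [show a + i + 1 = a + 1 + i by omega] at this
  · have := R.od (a + i) (by omega) (by omega)
    rwa [show a + i + 1 = a + 1 + i by omega] at this

theorem Run.right_odd (R : Run S Y p m) {i : ℕ} (h1 : i % 2 = 1) (h2 : i < m) :
    Run Y S (fun s => p (s + i)) (m - i) := by
  refine ⟨by omega, fun a b ha ha' hb hb' h => ?_, fun a ha h => ?_, fun a ha h => ?_⟩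
  · have := R.inj (a + i) (b + i) (by omega) (by omega) (by omega) (by omega) h
    omega
  · have := R.od (a + i) (by omega) (by omega)
    rwa [show a + i + 1 = a + 1 + i by omega] at this
  · have := R.ev (a + i) (by omega) (by omega)
    rwa [show a + i + 1 = a + 1 + i by omega] at this

theorem Run.rev_odd (R : Run S Y p m) (h : m % 2 = 1) : Run Y S (fun s => p (m + 1 - s)) m := by
  refine ⟨R.pos, fun a b ha ha' hb hb' e => ?_, fun a ha h' => ?_, fun a ha h' => ?_⟩
  · have := R.inj (m + 1 - a) (m + 1 - b) (by omega) (by omega) (by omega) (by omega) e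
    omega
  · have := Y.eq_iff.1 (R.od (m - a) (by omega) (by omega))
    rwa [show m - a + 1 = m + 1 - a by omega, show m - a = m + 1 - (a + 1) by omega] at this
  · have := S.eq_iff.1 (R.ev (m - a) (by omega) (by omega))
    rwa [show m - a + 1 = m + 1 - a by omega, show m - a = m + 1 - (a + 1) by omega] at this

theorem Run.rev_even (R : Run S Y p m) (h : m % 2 = 0) : Run S Y (fun s => p (m + 1 - s)) m := by
  refine ⟨R.pos, fun a b ha ha' hb hb' e => ?_, fun a ha h' => ?_, fun a ha h' => ?_⟩
  · have := R.inj (m + 1 - a) (m + 1 - b) (by omega) (by omega) (by omega) (by omega) e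
    omega
  · have := S.eq_iff.1 (R.ev (m - a) (by omega) (by omega))
    rwa [show m - a + 1 = m + 1 - a by omega, show m - a = m + 1 - (a + 1) by omega] at this
  · have := Y.eq_iff.1 (R.od (m - a) (by omega) (by omega))
    rwa [show m - a + 1 = m + 1 - a by omega, show m - a = m + 1 - (a + 1) by omega] at this

theorem Proper.left (P : Proper lam p m) {i : ℕ} (h2 : i < m)
    (hmin : ∀ j, 1 ≤ j → j < m → lam (p i) (p (i + 1)) ≤ lam (p j) (p (j + 1))) : Proper lam p i := by
  exact fun j hj hj' => ⟨(P j hj (by omega)).1, hmin j hj (by omega)⟩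

theorem Proper.right (P : Proper lam p m) {i : ℕ} (h2 : i < m)
    (hmin : ∀ j, 1 ≤ j → j < m → lam (p i) (p (i + 1)) ≤ lam (p j) (p (j + 1))) :
    Proper lam (fun s => p (s + i)) (m - i) := by
  intro j hj hj'
  have e1 : j + 1 + i = j + i + 1 := by omega
  have e2 : m - i + i = m := by omega
  have e3 : m - i + 1 + i = m + 1 := by omega
  simp only [e1, e2, e3, Nat.zero_add, Nat.add_comm 1 i]
  exact ⟨hmin (j + i) (by omega) (by omega), (P (j + i) (by omega) (by omega)).2⟩

theorem Proper.rev (hl : Pos lam) (P : Proper lam p m) : Proper lam (fun s => p (m + 1 - s)) m := by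
  intro j hj hj'
  have e1 : m + 1 - j = m - j + 1 := by omega
  have e2 : m + 1 - (j + 1) = m - j := by omega
  have e3 : m + 1 - m = 1 := by omega
  simp only [e1, e2, e3, Nat.sub_zero, Nat.add_sub_cancel, Nat.sub_self]
  have := P (m - j) (by omega) (by omega)
  rw [hl.symm (p (m + 1)), hl.symm (p (m - j + 1)), hl.symm (p 1)]
  exact ⟨this.2, this.1⟩

/-- chords of a run: apply `QU` to the chain `p i, ..., p j` -/
theorem Run.chord {K t : ℝ} (hQ : QU lam K) (R : Run S Y p m) {i j : ℕ} (hij : i < j) (hj : j ≤ m + 1)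
    (hne : p i ≠ p j) (ht : ∀ s, i ≤ s → s < j → t ≤ lam (p s) (p (s + 1))) : t ≤ K * lam (p i) (p j) := by
  have hm := R.toInj.le
  have e : j - i + i = j := by omega
  have := hQ (fun s => p (s + i)) (j - i) t (by omega) (by simpa only [e, Nat.zero_add] using hne)
    (fun s hs => by
      rw [show s + 1 + i = s + i + 1 by omega]
      exact ⟨R.ne_succ (by omega), ht _ (by omega) (by omega)⟩)
  simpa only [e, Nat.zero_add] using this

/-- `Inj.wt_shift` for `S` and, with the reversed run, for `Y` -/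
theorem Run.wt_col (hl : Pos lam) (R : Run S Y p m) (ho : m % 2 = 1) :
    wt lam (shift (lst p m) S) * wt lam (shift (lst p m) Y) *
        (lam (p 0) (p 1) * lam (p m) (p (m + 1))) =
      wt lam S * wt lam Y * (lam (p 0) (p m) * lam (p 1) (p (m + 1))) := by
  have h1 := R.toInj.wt_shift hl ho R.pre
  have R' := R.rev_odd ho
  have h2 := R'.toInj.wt_shift hl ho R'.pre
  rw [R.fst_one] at h1
  rw [R'.fst_one, lst_rev, shift_reverse] at h2
  have e3 : m + 1 - m = 1 := by omega
  simp only [e3, Nat.sub_zero, Nat.add_sub_cancel] at h2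
  have eA : ∏ i ∈ range (m / 2), lam (p (m + 1 - (2 * i + 2))) (p (m + 1 - (2 * i + 3))) =
      ∏ i ∈ range (m / 2), lam (p (2 * i + 1)) (p (2 * i + 2)) := by
    rw [← prod_range_reflect]
    refine prod_congr rfl fun i hi => ?_
    have := mem_range.1 hi
    rw [hl.symm]
    congr 2 <;> omega
  have eB : ∏ i ∈ range (m / 2), lam (p (m + 1 - (2 * i + 1))) (p (m + 1 - (2 * i + 2))) =
      ∏ i ∈ range (m / 2), lam (p (2 * i + 2)) (p (2 * i + 3)) := by
    rw [← prod_range_reflect]
    refine prod_congr rfl fun i hi => ?_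
    have := mem_range.1 hi
    rw [hl.symm]
    congr 2 <;> omega
  rw [eA, eB, hl.symm (p (m + 1)) (p m), hl.symm (p (m + 1)) (p 1)] at h2
  have hA : 0 < ∏ i ∈ range (m / 2), lam (p (2 * i + 2)) (p (2 * i + 3)) :=
    prod_pos fun _ _ => hl.pos _ _
  have hB : 0 < ∏ i ∈ range (m / 2), lam (p (2 * i + 1)) (p (2 * i + 2)) :=
    prod_pos fun _ _ => hl.pos _ _
  generalize ∏ i ∈ range (m / 2), lam (p (2 * i + 2)) (p (2 * i + 3)) = A at *
  generalize ∏ i ∈ range (m / 2), lam (p (2 * i + 1)) (p (2 * i + 2)) = B at *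
  apply mul_right_cancel₀ (mul_pos hA hB).ne'
  have h3 := congrArg₂ (· * ·) h1 h2
  linear_combination h3

theorem Run.shift_snd_inner (R : Run S Y p m) (ho : m % 2 = 1) {s : ℕ} (h0 : 1 ≤ s) (h1 : s % 2 = 0)
    (h2 : s < m) : shift (lst p m) Y (p s) = p (s + 1) := by
  have R' := R.rev_odd ho
  have := R'.toInj.shift_inner ho R'.pre (s := m - s) (by omega) (by omega)
  rw [lst_rev, shift_reverse] at this
  simp only [show m + 1 - (m - s) = s + 1 by omega, show m + 1 - (m - s + 1) = s by omega] at this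
  exact (PM.eq_iff _).1 this

theorem Run.shift_snd_first (R : Run S Y p m) (ho : m % 2 = 1) :
    shift (lst p m) Y (p 1) = p (m + 1) := by
  have R' := R.rev_odd ho
  have := R'.toInj.shift_last ho R'.pre
  rw [R'.fst_one, lst_rev, shift_reverse] at this
  simpa only [show m + 1 - m = 1 by omega, Nat.sub_zero] using this

theorem Run.shift_snd_other (R : Run S Y p m) (ho : m % 2 = 1) {v : Fin n}
    (h : ∀ s, 1 ≤ s → s ≤ m + 1 → p s ≠ v) : shift (lst p m) Y v = Y v := by
  have R' := R.rev_odd ho
  have := R'.toInj.shift_other ho R'.pre (v := v)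
    (by rw [R'.fst_one]; exact (h (m + 1) (by omega) le_rfl).symm)
    (fun s h1 h2 => h _ (by omega) (by omega))
  rwa [lst_rev, shift_reverse] at this

/-- the label `(3, p 1, m - 1)` -/
theorem Run.mv_col (R : Run S Y p m) :
    ∃ l, mv (S, Y) l = (shift (lst p m) S, shift (lst p m) Y) := by
  have hm := R.toInj.le
  have h1 := R.pos
  refine ⟨(3, p 1, ⟨m - 1, by omega⟩), ?_⟩
  have e : m - 1 + 1 = m := by omega
  unfold mv
  rw [if_neg (show ¬ (3 : Fin 4) = 0 by decide), if_neg (show ¬ (3 : Fin 4) = 1 by decide),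
    if_neg (show ¬ (3 : Fin 4) = 2 by decide)]
  simp only [e, R.seg_eq]

theorem mv_fst (S Y : PM n) (a b : Fin n) : mv (S, Y) (1, a, b) = (shift [a, b] S, Y) := by
  unfold mv
  rw [if_neg (show ¬ (1 : Fin 4) = 0 by decide), if_pos rfl]

theorem mv_snd (S Y : PM n) (a b : Fin n) : mv (S, Y) (2, a, b) = (S, shift [a, b] Y) := by
  unfold mv
  rw [if_neg (show ¬ (2 : Fin 4) = 0 by decide), if_neg (show ¬ (2 : Fin 4) = 1 by decide),
    if_pos rfl]

end Crest.Agent.R304
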