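import Crest.Agent.R304.Alg
import Crest.Agent.R304.Kernel

/-! Row 304: the list operations simulate the moves on matchings. -/

set_option autoImplicit false

namespace Crest.Agent.R304

open Finset Crest.Agent.Lib.PT Crest.Agent.R309

variable {n ℓ : ℕ} {G : List (List Bool)} {k : KM}

theorem length_enc1 (S : PM n) : (enc1 S).length = n := by
  simp [enc1]

theorem ap_enc1 (S : PM n) (v : Fin n) : ap (enc1 S) v = S v := by
  simp [ap, enc1, List.getD_eq_getElem?_getD]

theorem enc1_injective : Function.Injective (enc1 : PM n → List ℕ) := by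
  intro S T h
  ext v
  rw [← ap_enc1, ← ap_enc1, h]

theorem sim_rv (g : List (Fin n)) (v : Fin n) : rv (g.map Fin.val) v = (rv g v : Fin n) := by
  unfold rv
  have h1 : (v : ℕ) ∈ g.map Fin.val ↔ v ∈ g := List.mem_map_of_injective Fin.val_injective
  by_cases h : v ∈ g
  · have h2 : (g.map Fin.val).idxOf (v : ℕ) = g.idxOf v := by
      clear h1 h
      induction g with
      | nil => rfl
      | cons a g ih =>
        simp only [List.map_cons, List.idxOf_cons, ih]
        congr 1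
        by_cases e : a = v
        · simp [e]
        · have : (a : ℕ) ≠ v := fun e' => e (Fin.ext e')
          simp [e, this]
    rw [if_pos (h1.2 h), if_pos h, h2, ← List.map_reverse, List.getD_map]
  · rw [if_neg (fun e => h (h1.1 e)), if_neg h]

theorem shiftL_enc1 (g : List (Fin n)) (S : PM n) :
    shiftL (g.map Fin.val) (enc1 S) = enc1 (shift g S) := by
  have h1 : (g.map Fin.val).Nodup ↔ g.Nodup := List.nodup_map_iff Fin.val_injective
  by_cases h : g.Nodup
  · rw [shiftL, if_pos (h1.2 h), length_enc1]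
    refine List.ext_getElem (by simp [enc1]) fun i hi _ => ?_
    have hi' : i < n := by simpa using hi
    have := sim_rv g ⟨i, hi'⟩
    simp only at this
    simp only [List.getElem_map, List.getElem_range, this, ap_enc1, sim_rv, enc1,
      List.getElem_ofFn, shift_apply h]
    rw [← enc1, ap_enc1, sim_rv]
  · rw [shiftL, if_neg (fun e => h (h1.1 e)), shift_of_not h]

theorem sim_walk (Y S : PM n) (a : Fin n) (i : ℕ) :
    walk (ap (enc1 Y)) (ap (enc1 S)) a i = (walk Y S a i : Fin n) := by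
  induction i with
  | zero => rfl
  | succ i ih =>
    rw [walk_succ, walk_succ, ih]
    split_ifs <;> exact ap_enc1 _ _

theorem seg_enc1 (Y S : PM n) (a : Fin n) (m : ℕ) :
    seg (ap (enc1 Y)) (ap (enc1 S)) a m = (seg Y S a m).map Fin.val := by
  rw [seg, seg, List.map_map]
  exact List.map_congr_left fun i _ => sim_walk Y S a i

theorem mvL_enc2 (x : PM n × PM n) (l : Lab n) : mvL (enc2 x) l.1 l.2.1 l.2.2 = enc2 (mv x l) := by
  obtain ⟨t, a, b⟩ := l
  have h1 : ∀ S : PM n, shiftL [(a : ℕ), (b : ℕ)] (enc1 S) = enc1 (shift [a, b] S) :=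
    fun S => shiftL_enc1 [a, b] S
  fin_cases t <;> simp [mvL, mv, enc2, h1, seg_enc1, shiftL_enc1]

theorem wtL_enc1 (h : G.length = n) (S : PM n) : wtL ℓ G k (enc1 S) = wt (lamF n ℓ G k) S := by
  rw [wtL, h, Finset.prod_range, wt, Finset.prod_filter]
  refine Finset.prod_congr rfl fun v _ => ?_
  simp only [ap_enc1, lamF, Fin.lt_def]

theorem ent2_mat (F : ℕ → ℕ → ℕ) (u v : Fin n) : ent2 (mat n F) u v = F u v := by
  simp [ent2, mat, List.getD_eq_getElem?_getD]

theorem cnt_encX {N : ℕ} (x : Fin N → PM n) (u v : Fin n) :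
    cnt (encX x) u v = (univ.filter fun i => x i u = v).card := by
  rw [cnt, encX, List.ofFn_eq_map, List.countP_map, List.countP_eq_length_filter,
    ← List.toFinset_card_of_nodup ((List.nodup_finRange N).filter _)]
  congr 1
  ext i
  simp [ap_enc1, Fin.ext_iff]

theorem inG_enc1 (h : G.length = n) (S : PM n) : inG G (enc1 S) = true ↔ ∀ v : Fin n, adj G v (S v) = true := by
  simp only [inG, h, List.all_eq_true, List.mem_range, Bool.and_eq_true, decide_eq_true_eq]
  constructor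
  · intro H v
    have := (H v v.2).2
    rwa [ap_enc1] at this
  · intro H v hv
    have h1 := ap_enc1 S ⟨v, hv⟩
    simp only at h1
    rw [h1, ap_enc1, S.inv]
    exact ⟨⟨⟨(S _).2, rfl⟩, fun e => S.ne ⟨v, hv⟩ (Fin.ext e)⟩, H ⟨v, hv⟩⟩

/-- a list passing the test is the list of a perfect matching of `G` -/
theorem cntG_pos_of_inG (h : G.length = n) {S : List ℕ} (hS : inG G S = true) : 0 < cntG n G := by
  simp only [inG, h, List.all_eq_true, List.mem_range, Bool.and_eq_true, decide_eq_true_eq] at hS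
  refine Finset.card_pos.2 ⟨⟨fun v => ⟨ap S v, (hS v v.2).1.1.1⟩, fun v => Fin.ext (hS v v.2).1.1.2,
    fun v e => (hS v v.2).1.2 (congrArg Fin.val e)⟩, ?_⟩
  simpa using fun v : Fin n => (hS v v.2).2

theorem sim_two (ω : List Bool) : ofBits (ω.take 2) < 4 :=
  (R309.ofBits_lt _).trans_le (Nat.pow_le_pow_right (by norm_num) (List.length_take_le 2 ω))

theorem pstep_enc2 (h : G.length = n) (x : PM n × PM n) (ω : List Bool) :
    ∃ y : PM n × PM n, pstep ℓ G k (enc2 x) ω = enc2 y := by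
  unfold pstep
  split_ifs with hc
  · exact ⟨_, mvL_enc2 x (⟨_, sim_two _⟩, ⟨_, h ▸ hc.2.1⟩, ⟨_, h ▸ hc.2.2.1⟩)⟩
  · exact ⟨x, rfl⟩

theorem sim_set {N : ℕ} (x : Fin N → PM n) (i : Fin N) (a : PM n) :
    (encX x).set i (enc1 a) = encX (Function.update x i a) := by
  refine List.ext_getElem (by simp [encX]) fun j h1 _ => ?_
  have hj : j < N := by simpa [encX] using h1
  simp only [encX, List.getElem_set, List.getElem_ofFn, Function.update_apply, Fin.ext_iff]
  by_cases e : (i : ℕ) = j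
  · simp [e]
  · simp [e, Ne.symm e]

theorem sim_getD {N : ℕ} (x : Fin N → PM n) (i : Fin N) : (encX x).getD i [] = enc1 (x i) := by
  simp [encX, List.getD_eq_getElem?_getD]

theorem sim_idx (ℓ : ℕ) (ω : List Bool) : ofBits (ω.take (300 * ℓ)) < pN ℓ := by
  rw [pN, pw_def]
  exact (R309.ofBits_lt _).trans_le (Nat.pow_le_pow_right (by norm_num) (List.length_take_le _ ω))

theorem sim_coll (h : G.length = n) {N : ℕ} (x : Fin N → PM n) (i j : Fin N) (ω : List Bool) :
    ∃ y : Fin N → PM n, coll ℓ G k (encX x) i j ω = encX y := by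
  unfold coll
  split_ifs
  · exact ⟨x, rfl⟩
  · obtain ⟨y, hy⟩ := pstep_enc2 (ℓ := ℓ) (k := k) h (x i, x j) ω
    rw [sim_getD, sim_getD]
    refine ⟨Function.update (Function.update x i y.1) j y.2, ?_⟩
    rw [← sim_set, ← sim_set]
    change ((encX x).set i (pstep ℓ G k (enc2 (x i, x j)) ω).1).set j
      (pstep ℓ G k (enc2 (x i, x j)) ω).2 = _
    rw [hy]
    rfl

theorem nstep_encX (h : G.length = n) (x : Fin (pN ℓ) → PM n) (ω : List Bool) :
    ∃ y : Fin (pN ℓ) → PM n, nstep ℓ G k (encX x) ω = encX y :=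
  sim_coll h x ⟨_, sim_idx ℓ _⟩ ⟨_, sim_idx ℓ _⟩ _

theorem run_encX (h : G.length = n) (x : Fin (pN ℓ) → PM n) (ω : List Bool) :
    ∃ y : Fin (pN ℓ) → PM n, run ℓ G k (encX x) ω = encX y := by
  unfold run
  generalize chunks (pT ℓ) (r2 ℓ) ω = L
  induction L generalizing x with
  | nil => exact ⟨x, rfl⟩
  | cons u L ih =>
    obtain ⟨y, hy⟩ := nstep_encX (k := k) h x u
    rw [List.foldl_cons, hy]
    exact ih y

theorem lamN_le (ℓ : ℕ) (g : Bool) (a : ℕ) : lamN ℓ g a ≤ (pM ℓ + 1) ^ (2 * pK ℓ + 2) := by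
  have hM := pw_pos 630 ℓ
  have h1 : pD ℓ ≤ (pM ℓ + 1) ^ (2 * pK ℓ + 1) := by
    calc pD ℓ ≤ (pM ℓ + 1) ^ pK ℓ * (pM ℓ + 1) ^ pK ℓ :=
          Nat.mul_le_mul_left _ (Nat.pow_le_pow_left (Nat.le_succ _) _)
      _ ≤ _ := by rw [← pow_add]; exact Nat.pow_le_pow_right (Nat.succ_pos _) (by omega)
  have h2 : omN ℓ a ≤ (pM ℓ + 1) ^ (2 * pK ℓ + 1) := by
    calc omN ℓ a ≤ (pM ℓ + 1) * (pM ℓ + 1) ^ min a (2 * pK ℓ) * (pM ℓ + 1) ^ (2 * pK ℓ - a) :=
          Nat.mul_le_mul (Nat.mul_le_mul_right _ (Nat.le_succ _))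
            (Nat.pow_le_pow_left (Nat.le_succ _) _)
      _ ≤ _ := by
          rw [← pow_succ', ← pow_add]
          exact Nat.pow_le_pow_right (Nat.succ_pos _) (by omega)
  have h3 : lamN ℓ g a ≤ pD ℓ + omN ℓ a := by
    unfold lamN
    split_ifs <;> omega
  calc lamN ℓ g a ≤ (pM ℓ + 1) ^ (2 * pK ℓ + 1) * 2 := by omega
    _ ≤ (pM ℓ + 1) ^ (2 * pK ℓ + 1) * (pM ℓ + 1) := Nat.mul_le_mul_left _ (by unfold pM; omega)
    _ = _ := by rw [← pow_succ]

/-- `lamN ≤ (pM + 1) ^ (2 pK + 2) ≤ 2 ^ (631 ℓ (2 pK + 2))`, at most `2 n` factors -/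
theorem Sz.w2_lt (H : Sz n ℓ G) (k : KM) (x : PM n × PM n) : w2 (lamF n ℓ G k) x < 2 ^ pR ℓ := by
  have hℓ := H.ten
  have h1 : pM ℓ + 1 ≤ 2 ^ (631 * ℓ) := by
    have := pw_pos 630 ℓ
    calc pM ℓ + 1 ≤ pM ℓ * 2 := by unfold pM; omega
      _ = 2 ^ (630 * ℓ + 1) := by rw [pM, pw_def, pow_succ]
      _ ≤ _ := Nat.pow_le_pow_right (by norm_num) (by omega)
  have h2 : ∀ S : PM n, wt (lamF n ℓ G k) S ≤ 2 ^ (631 * ℓ * (2 * pK ℓ + 2) * n) := by
    intro S
    refine (Finset.prod_le_pow_card _ _ (2 ^ (631 * ℓ * (2 * pK ℓ + 2))) fun v _ => ?_).trans ?_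
    · rw [pow_mul]
      exact (lamN_le _ _ _).trans (Nat.pow_le_pow_left h1 _)
    · rw [← pow_mul]
      refine Nat.pow_le_pow_right (by norm_num) (Nat.mul_le_mul_left _ ?_)
      simpa using Finset.card_filter_le (univ : Finset (Fin n)) fun v => v < S v
  refine (Nat.mul_le_mul (h2 x.1) (h2 x.2)).trans_lt ?_
  rw [← pow_add]
  refine Nat.pow_lt_pow_right (by norm_num) ?_
  have h3 : ℓ ≤ 2 ^ ℓ := Nat.lt_two_pow_self.le
  have h4 : 1024 ≤ 2 ^ ℓ := Nat.pow_le_pow_right (by norm_num) hℓ (n := 2) |>.trans' (by norm_num)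
  have h5 := H.le
  rw [pR, pK, pw_eq, pw_eq]
  generalize 2 ^ ℓ = s at h3 h4 h5
  have h6 : 0 < s ^ 639 := by positivity
  have h7 : s ^ 643 = s ^ 639 * (s * s * (s * s)) := by ring
  rw [h7]
  generalize s ^ 639 = K at h6
  have h8 : 631 * ℓ * (2 * K + 2) * n ≤ 631 * s * (4 * K) * s :=
    Nat.mul_le_mul (Nat.mul_le_mul (Nat.mul_le_mul_left _ h3) (by omega)) h5
  have h9 : 5049 ≤ s * s := le_trans (by norm_num) (Nat.mul_le_mul h4 h4)
  have h10 : 0 < K * (s * s) := by positivity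
  have h11 := Nat.mul_le_mul_left (K * (s * s)) h9
  nlinarith

end Crest.Agent.R304
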