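import Crest.Agent.R304.Sim

/-! Row 304: the Markov operators of the randomized steps. -/

set_option autoImplicit false

namespace Crest.Agent.R304

open Finset Crest.Agent.Lib.PT Crest.Agent.R309

variable {n ℓ : ℕ} {G : List (List Bool)} {k : KM}

theorem sim2_split (a r : ℕ) (F : ℕ → List Bool → ℝ) :
    Ex (a + r) (fun ω => F (ofBits (ω.take a)) (ω.drop a)) =
      (∑ i ∈ range (2 ^ a), Ex r (F i)) / 2 ^ a := by
  rw [Ex_split a r fun u v => F (ofBits u) v, Ex_ofBits a fun i => Ex r (F i)]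

theorem sim2_sum_lt {N m : ℕ} (h : m ≤ N) (f : ℕ → ℝ) :
    ∑ i ∈ range N, (if i < m then f i else 0) = ∑ i : Fin m, f i := by
  rw [Fin.sum_univ_eq_sum_range f m, ← Finset.sum_filter]
  refine Finset.sum_congr ?_ fun _ _ => rfl
  ext i
  simp only [mem_filter, mem_range]
  omega

theorem sim2_acc {R w w' : ℕ} (hw : w < 2 ^ R) (hw' : w' < 2 ^ R) (p q : ℝ) :
    Ex R (fun l => if ofBits (l.take (Nat.size (max w w'))) < w' then p else q) =
      q + accN w w' * (p - q) := by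
  have h1 : Nat.size (max w w') ≤ R := Nat.size_le.2 (max_lt hw hw')
  have h2 : w' ≤ 2 ^ Nat.size (max w w') := (le_max_right w w').trans (Nat.lt_size_self _).le
  rw [Ex_take h1 fun l => if ofBits l < w' then p else q,
    Ex_ofBits _ fun i => if i < w' then p else q]
  have h3 : ∀ i : ℕ, (if i < w' then p else q) = q + if i < w' then p - q else 0 := fun i => by
    split_ifs <;> ring
  simp only [h3]
  rw [Finset.sum_add_distrib, sim2_sum_lt h2 fun _ => p - q]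
  simp only [sum_const, card_range, card_univ, Fintype.card_fin, nsmul_eq_mul, accN]
  push_cast
  field_simp

theorem sim2_w2L (h : G.length = n) (x : PM n × PM n) :
    w2L ℓ G k (enc2 x) = w2 (lamF n ℓ G k) x := by
  simp only [w2L, enc2, w2, wtL_enc1 h]

/-- the collision, given the label -/
def sim2Acc (ℓ : ℕ) (G : List (List Bool)) (k : KM) (x : List ℕ × List ℕ) (t a c : ℕ)
    (w : List Bool) : List ℕ × List ℕ :=
  if a < G.length ∧ c < G.length ∧
      ofBits (w.take (Nat.size (max (w2L ℓ G k x) (w2L ℓ G k (mvL x t a c))))) <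
        w2L ℓ G k (mvL x t a c)
  then mvL x t a c else x

theorem sim2_pstep_true (x : List ℕ × List ℕ) (l : List Bool) :
    pstep ℓ G k x (true :: l) = sim2Acc ℓ G k x (ofBits (l.take 2)) (ofBits ((l.drop 2).take ℓ))
      (ofBits (((l.drop 2).drop ℓ).take ℓ)) (((l.drop 2).drop ℓ).drop ℓ) := by
  have e1 : (true :: l).drop 1 = l := rfl
  have e2 : (true :: l).drop 3 = l.drop 2 := rfl
  have e3 : (true :: l).drop (3 + ℓ) = (l.drop 2).drop ℓ := by
    rw [List.drop_drop, show 3 + ℓ = (2 + ℓ) + 1 by omega, List.drop_succ_cons]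
  have e4 : (true :: l).drop (3 + 2 * ℓ) = ((l.drop 2).drop ℓ).drop ℓ := by
    rw [List.drop_drop, List.drop_drop, show 3 + 2 * ℓ = (2 + (ℓ + ℓ)) + 1 by omega,
      List.drop_succ_cons]
  simp only [pstep, prop, sim2Acc, e1, e2, e3, e4, List.getD_cons_zero, true_and]

theorem sim2_pstep_false (x : List ℕ × List ℕ) (l : List Bool) :
    pstep ℓ G k x (false :: l) = x := by
  simp [pstep]

theorem Sz.sim2_Ex_acc (H : Sz n ℓ G) (k : KM) (Φ : List ℕ × List ℕ → ℝ) (x : PM n × PM n)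
    {t : ℕ} (ht : t < 4) (a c : ℕ) :
    Ex (pR ℓ) (fun w => Φ (sim2Acc ℓ G k (enc2 x) t a c w)) = Φ (enc2 x) +
      if a < n then (if c < n then accN (w2L ℓ G k (enc2 x)) (w2L ℓ G k (mvL (enc2 x) t a c)) *
        (Φ (mvL (enc2 x) t a c) - Φ (enc2 x)) else 0) else 0 := by
  by_cases ha : a < n
  · by_cases hc : c < n
    · rw [if_pos ha, if_pos hc]
      have h1 : w2L ℓ G k (enc2 x) < 2 ^ pR ℓ := by
        rw [sim2_w2L H.len]
        exact H.w2_lt k x
      have h2 : w2L ℓ G k (mvL (enc2 x) t a c) < 2 ^ pR ℓ := by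
        have := mvL_enc2 x (⟨t, ht⟩, ⟨a, ha⟩, ⟨c, hc⟩)
        simp only at this
        rw [this, sim2_w2L H.len]
        exact H.w2_lt k _
      rw [← sim2_acc h1 h2]
      refine Ex_congr fun w _ => ?_
      simp only [sim2Acc, H.len, ha, hc, true_and]
      split_ifs <;> rfl
    · simp [sim2Acc, H.len, hc, Ex_const]
  · simp [sim2Acc, H.len, ha, Ex_const]

/-- Split the tape into `1 + 2 + ℓ + ℓ + pR` bits (`Ex_split`, `Ex_succ`, `Ex_ofBits`); labels with `a ≥ n` or `b ≥ n` do not move; given the label, the move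
is accepted with probability `accN` (`Ex_take` with `Sz.w2_lt`, `Nat.size_le`, `Ex_ofBits`). -/
theorem Sz.Kop_pstep (H : Sz n ℓ G) (k : KM) (Φ : List ℕ × List ℕ → ℝ) (x : PM n × PM n) :
    Kop (r1 ℓ) (pstep ℓ G k) Φ (enc2 x) =
      Qop (lamF n ℓ G k) (1 / (8 * ((2 : ℝ) ^ ℓ) ^ 2)) (fun y => Φ (enc2 y)) x := by
  have hr : r1 ℓ = (2 + (ℓ + (ℓ + pR ℓ))) + 1 := by unfold r1; omega
  set E : ℕ → ℕ → ℕ → ℝ := fun t a c =>
    accN (w2L ℓ G k (enc2 x)) (w2L ℓ G k (mvL (enc2 x) t a c)) *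
      (Φ (mvL (enc2 x) t a c) - Φ (enc2 x)) with hE
  have h2 : (2 : ℝ) ^ ℓ ≠ 0 := by positivity
  have h3 : ∀ t < 4, ∀ a : ℕ, Ex (ℓ + pR ℓ) (fun v =>
      Φ (sim2Acc ℓ G k (enc2 x) t a (ofBits (v.take ℓ)) (v.drop ℓ))) =
        Φ (enc2 x) + if a < n then (∑ c : Fin n, E t a c) / 2 ^ ℓ else 0 := fun t ht a => by
    rw [sim2_split ℓ (pR ℓ) fun c w => Φ (sim2Acc ℓ G k (enc2 x) t a c w)]
    simp only [H.sim2_Ex_acc k Φ x ht]
    rw [Finset.sum_add_distrib]
    by_cases ha : a < n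
    · simp only [ha, if_true]
      rw [sim2_sum_lt H.le (E t a)]
      simp only [sum_const, card_range, nsmul_eq_mul]
      push_cast
      field_simp
    · simp only [ha, if_false, sum_const, card_range, nsmul_eq_mul]
      push_cast
      field_simp
  have h4 : ∀ t < 4, Ex (ℓ + (ℓ + pR ℓ)) (fun v =>
      Φ (sim2Acc ℓ G k (enc2 x) t (ofBits (v.take ℓ)) (ofBits ((v.drop ℓ).take ℓ))
        ((v.drop ℓ).drop ℓ))) =
        Φ (enc2 x) + (∑ a : Fin n, ∑ c : Fin n, E t a c) / (2 ^ ℓ) ^ 2 := fun t ht => by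
    rw [sim2_split ℓ (ℓ + pR ℓ) fun a v =>
      Φ (sim2Acc ℓ G k (enc2 x) t a (ofBits (v.take ℓ)) (v.drop ℓ))]
    simp only [h3 t ht]
    rw [Finset.sum_add_distrib, sim2_sum_lt H.le fun a => (∑ c : Fin n, E t a c) / 2 ^ ℓ,
      ← Finset.sum_div]
    simp only [sum_const, card_range, nsmul_eq_mul]
    push_cast
    field_simp
  have h5 : ∑ l : Lab n, accN (w2 (lamF n ℓ G k) x) (w2 (lamF n ℓ G k) (mv x l)) *
      (Φ (enc2 (mv x l)) - Φ (enc2 x)) = ∑ t ∈ range 4, ∑ a : Fin n, ∑ c : Fin n, E t a c := by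
    rw [← Fin.sum_univ_eq_sum_range (fun t => ∑ a : Fin n, ∑ c : Fin n, E t a c) 4,
      Fintype.sum_prod_type]
    refine Finset.sum_congr rfl fun t _ => ?_
    rw [Fintype.sum_prod_type]
    refine Finset.sum_congr rfl fun a _ => Finset.sum_congr rfl fun c _ => ?_
    have := mvL_enc2 x (t, a, c)
    simp only at this
    simp only [hE, this, sim2_w2L H.len]
  rw [Qop_apply, h5, Kop, hr, Ex_succ]
  simp only [sim2_pstep_false, sim2_pstep_true, Ex_const]
  rw [sim2_split 2 (ℓ + (ℓ + pR ℓ)) fun t v =>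
    Φ (sim2Acc ℓ G k (enc2 x) t (ofBits (v.take ℓ)) (ofBits ((v.drop ℓ).take ℓ))
      ((v.drop ℓ).drop ℓ)), show 2 ^ 2 = 4 from rfl,
    Finset.sum_congr rfl fun t ht => h4 t (mem_range.1 ht), Finset.sum_add_distrib,
    ← Finset.sum_div]
  simp only [sum_const, card_range, nsmul_eq_mul]
  push_cast
  field_simp
  ring

theorem sim2_getD {N : ℕ} (x : Fin N → PM n) (i : Fin N) : (encX x).getD i [] = enc1 (x i) := by
  simp [encX, List.getD_eq_getElem?_getD]

theorem sim2_set {N : ℕ} (x : Fin N → PM n) (i : Fin N) (S : PM n) :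
    (encX x).set i (enc1 S) = encX (Function.update x i S) := by
  refine List.ext_getElem (by simp [encX]) fun j h1 h2 => ?_
  simp only [encX, List.getElem_set, List.getElem_ofFn, Function.update_apply, Fin.ext_iff]
  by_cases h : (i : ℕ) = j
  · simp [h]
  · simp [h, Ne.symm h]

theorem Sz.sim2_coll (H : Sz n ℓ G) (k : KM) {N : ℕ} (Φ : List (List ℕ) → ℝ) (x : Fin N → PM n)
    (i j : Fin N) :
    Ex (r1 ℓ) (fun w => Φ (coll ℓ G k (encX x) i j w)) = if i = j then Φ (encX x) else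
      Qop (lamF n ℓ G k) (1 / (8 * ((2 : ℝ) ^ ℓ) ^ 2))
        (fun y => Φ (encX (Function.update (Function.update x i y.1) j y.2))) (x i, x j) := by
  by_cases h : i = j
  · simp [coll, h, Ex_const]
  · have h' : (i : ℕ) ≠ j := fun e => h (Fin.ext e)
    have h1 := H.Kop_pstep k (fun z => Φ (((encX x).set i z.1).set j z.2)) (x i, x j)
    simp only [enc2, sim2_set] at h1
    rw [if_neg h, ← h1, Kop]
    simp only [coll, h', if_false, sim2_getD]

/-- `i`, `j` are uniform in `Fin (pN ℓ)` (`pw_def`); `(encX x).set i (enc1 a) = encX (update x i a)` -/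
theorem Sz.Kop_nstep (H : Sz n ℓ G) (k : KM) (Φ : List (List ℕ) → ℝ) (x : Fin (pN ℓ) → PM n) :
    Kop (r2 ℓ) (nstep ℓ G k) Φ (encX x) =
      Pop (pN ℓ) (Qop (lamF n ℓ G k) (1 / (8 * ((2 : ℝ) ^ ℓ) ^ 2))) (fun y => Φ (encX y)) x := by
  have hN : 2 ^ (300 * ℓ) = pN ℓ := (pw_def 300 ℓ).symm
  have hN' : (2 : ℝ) ^ (300 * ℓ) = pN ℓ := by rw [← hN]; push_cast; rfl
  have h1 : ∀ i : ℕ, Ex (300 * ℓ + r1 ℓ) (fun v =>
      Φ (coll ℓ G k (encX x) i (ofBits (v.take (300 * ℓ))) (v.drop (300 * ℓ)))) =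
      (∑ j : Fin (pN ℓ), Ex (r1 ℓ) fun w => Φ (coll ℓ G k (encX x) i j w)) / pN ℓ := fun i => by
    rw [sim2_split (300 * ℓ) (r1 ℓ) fun j w => Φ (coll ℓ G k (encX x) i j w), hN, hN',
      Fin.sum_univ_eq_sum_range (fun j => Ex (r1 ℓ) fun w => Φ (coll ℓ G k (encX x) i j w))]
  rw [Kop, r2]
  simp only [nstep]
  rw [sim2_split (300 * ℓ) (300 * ℓ + r1 ℓ) fun i v =>
    Φ (coll ℓ G k (encX x) i (ofBits (v.take (300 * ℓ))) (v.drop (300 * ℓ))), hN, hN']
  simp only [h1]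
  rw [← Fin.sum_univ_eq_sum_range (fun i => (∑ j : Fin (pN ℓ), Ex (r1 ℓ) fun w =>
    Φ (coll ℓ G k (encX x) i j w)) / pN ℓ), ← Finset.sum_div, div_div, ← sq, Pop]
  simp only [H.sim2_coll]

/-- `Ex_foldl` and induction -/
theorem Sz.Ex_run (H : Sz n ℓ G) (k : KM) (Φ : List (List ℕ) → ℝ) (x : Fin (pN ℓ) → PM n) :
    Ex (r3 ℓ) (fun ω => Φ (run ℓ G k (encX x) ω)) =
      (Pop (pN ℓ) (Qop (lamF n ℓ G k) (1 / (8 * ((2 : ℝ) ^ ℓ) ^ 2))))^[pT ℓ] (fun y => Φ (encX y)) x := by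
  rw [r3]
  simp only [run]
  rw [Ex_foldl]
  generalize pT ℓ = T
  induction T generalizing x with
  | zero => rfl
  | succ T ih =>
    rw [Function.iterate_succ_apply', Function.iterate_succ_apply', H.Kop_nstep]
    simp only [ih]

end Crest.Agent.R304
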