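import Crest.Agent.R304.Sim2
import Crest.Agent.R304.Poincare

/-! Row 304: one run of the particle system. -/

set_option autoImplicit false

namespace Crest.Agent.R304

open Finset Crest.Agent.Lib.PT Crest.Agent.R309

variable {n ℓ : ℕ} {G : List (List Bool)} {k k' : KM}

theorem Sz.s_ge (H : Sz n ℓ G) : (1024 : ℝ) ≤ (2 : ℝ) ^ ℓ :=
  le_trans (by norm_num) (pow_le_pow_right₀ (by norm_num) H.ten)

theorem Sz.n_le (H : Sz n ℓ G) : (n : ℝ) ≤ (2 : ℝ) ^ ℓ := by exact_mod_cast H.le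

theorem stage_pow_le {δ : ℝ} (hδ : 0 ≤ δ) (k : ℕ) (h : 2 * k * δ ≤ 1) :
    (1 + δ) ^ k ≤ 1 + 2 * k * δ := by
  induction k with
  | zero => simp
  | succ k ih =>
    push_cast at h ⊢
    have h1 : 2 * k * δ ≤ 1 := by linarith
    rw [pow_succ]
    nlinarith [mul_le_mul_of_nonneg_right (ih h1) (by linarith : 0 ≤ 1 + δ),
      mul_le_mul_of_nonneg_right h1 hδ]

theorem Sz.gr (H : Sz n ℓ G) : Gr (gR n G) := by
  refine ⟨fun u v => ?_, fun u v => by simp only [gR, H.symm u v]⟩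
  unfold gR
  split_ifs <;> simp

theorem KOk.pos (h : KOk n ℓ k) : Pos (omR n ℓ k) := by
  have hM : (0 : ℝ) < pM ℓ := by exact_mod_cast pw_pos 630 ℓ
  exact ⟨fun u v => by unfold omR; positivity, fun u v => by simp only [omR, h.1 u v]⟩

theorem omN_cast {a : ℕ} (h : a ≤ 2 * pK ℓ) :
    (omN ℓ a : ℝ) = pD ℓ * (pM ℓ * (1 + 1 / (pM ℓ : ℝ)) ^ a / (1 + 1 / (pM ℓ : ℝ)) ^ pK ℓ) := by
  have hM : (0 : ℝ) < pM ℓ := by exact_mod_cast pw_pos 630 ℓ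
  have h1 : (1 + 1 / (pM ℓ : ℝ)) = (pM ℓ + 1) / pM ℓ := by field_simp
  have h2 : (pM ℓ : ℝ) ^ (2 * pK ℓ - a) = pM ℓ ^ pK ℓ * pM ℓ ^ pK ℓ / pM ℓ ^ a := by
    rw [← pow_add, eq_div_iff (by positivity), ← pow_add]
    congr 1
    omega
  rw [omN, pD, min_eq_left h, h1]
  push_cast
  rw [h2, div_pow, div_pow]
  field_simp

theorem pD_pos (ℓ : ℕ) : 0 < pD ℓ := by
  have := pw_pos 630 ℓ
  unfold pD
  positivity

theorem KOk.lamF_cast (h : KOk n ℓ k) :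
    (fun u v => (lamF n ℓ G k u v : ℝ)) = fun u v => pD ℓ * (gR n G + omR n ℓ k) u v := by
  funext u v
  simp only [lamF, lamN, Pi.add_apply, gR, omR]
  push_cast
  rw [omN_cast (h.2 u v)]
  split_ifs <;> simp [mul_add]

theorem omR_k0 : omR n ℓ (k0 ℓ n) = fun _ _ => (pM ℓ : ℝ) := by
  have hM : (0 : ℝ) < pM ℓ := by exact_mod_cast pw_pos 630 ℓ
  funext u v
  rw [omR, k0, ent2_mat, mul_div_assoc, div_self (by positivity), mul_one]

theorem kOk_k0 : KOk n ℓ (k0 ℓ n) := by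
  refine ⟨fun u v => by simp only [k0, ent2_mat], fun u v => ?_⟩
  rw [k0, ent2_mat]
  omega

theorem close_omR {d : ℕ} (h : ∀ u v : Fin n, ent2 k u v ≤ ent2 k' u v + d ∧ ent2 k' u v ≤ ent2 k u v + d) :
    Close ((1 + 1 / (pM ℓ : ℝ)) ^ d) (omR n ℓ k) (omR n ℓ k') := by
  have hM : (0 : ℝ) < pM ℓ := by exact_mod_cast pw_pos 630 ℓ
  have h1 : (1 : ℝ) ≤ 1 + 1 / (pM ℓ : ℝ) := le_add_of_nonneg_right (by positivity)
  have key : ∀ a b : ℕ, a ≤ b + d → pM ℓ * (1 + 1 / (pM ℓ : ℝ)) ^ a / (1 + 1 / (pM ℓ : ℝ)) ^ pK ℓ ≤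
      (1 + 1 / (pM ℓ : ℝ)) ^ d * (pM ℓ * (1 + 1 / (pM ℓ : ℝ)) ^ b / (1 + 1 / (pM ℓ : ℝ)) ^ pK ℓ) := by
    intro a b hab
    have h2 := pow_le_pow_right₀ h1 hab
    rw [← mul_div_assoc, mul_left_comm, mul_comm (_ ^ d), ← pow_add]
    gcongr
  exact fun u v => ⟨key _ _ (h u v).2, key _ _ (h u v).1⟩

/-- `Close.mu_le` in both directions, `(1 + 1 / M) ^ (2 n) ≤ 1 + 4 n / M ≤ 1 + 4 / s ^ 629` -/
theorem Sz.mu_close [Nonempty (PM n)] (H : Sz n ℓ G) {lam lam' : Fin n → Fin n → ℝ} (hl : Pos lam)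
    (hl' : Pos lam') (h : Close (1 + 1 / (pM ℓ : ℝ)) lam lam') (S : PM n) :
    |mu lam S - mu lam' S| ≤ 4 / ((2 : ℝ) ^ ℓ) ^ 629 * mu lam' S := by
  have hM : (0 : ℝ) < pM ℓ := by exact_mod_cast pw_pos 630 ℓ
  have h1 : (1 : ℝ) ≤ 1 + 1 / (pM ℓ : ℝ) := le_add_of_nonneg_right (by positivity)
  have h2 := Close.mu_le hl hl' h1 h S
  have h3 := Close.mu_le hl' hl h1 h.symm S
  have hs := H.s_ge
  have hn := H.n_le
  have h4 : (1 + 1 / (pM ℓ : ℝ)) ^ (2 * n) ≤ 1 + 4 / ((2 : ℝ) ^ ℓ) ^ 629 := by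
    have e : 2 * ((2 * n : ℕ) : ℝ) * (1 / (pM ℓ : ℝ)) ≤ 4 / ((2 : ℝ) ^ ℓ) ^ 629 := by
      rw [pM, pw_cast]
      push_cast
      generalize (2 : ℝ) ^ ℓ = s at hs hn
      rw [mul_one_div, div_le_div_iff₀ (by positivity) (by positivity), pow_succ s 629]
      have : 0 < s ^ 629 := by positivity
      nlinarith
    refine (stage_pow_le (by positivity) _ (e.trans ?_)).trans (by linarith)
    generalize (2 : ℝ) ^ ℓ = s at hs
    rw [div_le_one (by positivity)]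
    exact le_trans (by linarith) (le_self_pow₀ (by linarith) (by norm_num))
  have h5 := hl.mu_pos S
  have h6 := hl'.mu_pos S
  have h7 : (0 : ℝ) < 4 / ((2 : ℝ) ^ ℓ) ^ 629 := by positivity
  generalize 4 / ((2 : ℝ) ^ ℓ) ^ 629 = δ at h4 h7 ⊢
  have h8 : mu lam S ≤ (1 + δ) * mu lam' S := h3.trans (by gcongr)
  have h9 : mu lam' S ≤ (1 + δ) * mu lam S := h2.trans (by gcongr)
  rw [abs_le]
  constructor
  · by_contra hc
    nlinarith [mul_pos h7 h6, mul_pos (mul_pos h7 h7) h6]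
  · linarith

/-- `Sz.Ex_run`, `PairOp.particle` with `ν = s ^ 150`, `C = 20 CP / q₀²`, `CP = s ^ 38`, `q₀ = 1 / (8 s²)` (so `1 ≤ C ≤ s ^ 44`), `pairOp`,
`poincare_bal` (for `K = 8 s³`; `(n + 1) (1 + K) K ≤ s ^ 8`, `360 n⁴ (1 + 4 n²)⁴ ≤ s ^ 14`, `0 ≤ Dir`), `KOk.lamF_cast`, `mu_const_mul`,
`Bal.const_mul`. -/
theorem Sz.stage [Nonempty (PM n)] (H : Sz n ℓ G) (hk : KOk n ℓ k)
    (hB : Bal (gR n G + omR n ℓ k) (8 * ((2 : ℝ) ^ ℓ) ^ 3)) {μ₀ : PM n → ℝ} (h1 : ∑ S, μ₀ S = 1)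
    (h2 : ∀ S, |μ₀ S - mu (gR n G + omR n ℓ k) S| ≤ 4 / ((2 : ℝ) ^ ℓ) ^ 629 * mu (gR n G + omR n ℓ k) S)
    {Φ : List (List ℕ) → ℝ} (hΦ : Unit01 Φ) :
    |EX μ₀ (fun x : Fin (pN ℓ) → PM n => Ex (r3 ℓ) fun ω => Φ (run ℓ G k (encX x) ω)) -
      EX (mu (gR n G + omR n ℓ k)) (fun x : Fin (pN ℓ) → PM n => Φ (encX x))| ≤
      1 / ((2 : ℝ) ^ ℓ) ^ 655 := by
  have hs := H.s_ge
  have hn := H.n_le
  have hD : (0 : ℝ) < pD ℓ := by exact_mod_cast pD_pos ℓ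
  have hp0 := H.gr.pos_add hk.pos
  have hL : Pos fun u v => (lamF n ℓ G k u v : ℝ) := by
    rw [hk.lamF_cast]
    exact ⟨fun u v => mul_pos hD (hp0.pos u v), fun u v => by rw [hp0.symm u v]⟩
  have hB' : Bal (fun u v => (lamF n ℓ G k u v : ℝ)) (8 * ((2 : ℝ) ^ ℓ) ^ 3) := by
    rw [hk.lamF_cast]
    exact hB.const_mul hD
  have hmu : (mu fun u v => (lamF n ℓ G k u v : ℝ)) = mu (gR n G + omR n ℓ k) := by
    rw [hk.lamF_cast]
    exact mu_const_mul hD _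
  have hN : pN ℓ = pw 150 ℓ ^ 2 := by rw [pN, pw_eq, pw_eq, ← pow_mul (2 ^ ℓ)]
  have hT : (pT ℓ : ℝ) = ((2 : ℝ) ^ ℓ) ^ 652 := pw_cast _ _
  have hν : (pw 150 ℓ : ℝ) = ((2 : ℝ) ^ ℓ) ^ 150 := pw_cast _ _
  have hN' : (pN ℓ : ℝ) = ((2 : ℝ) ^ ℓ) ^ 300 := pw_cast _ _
  simp only [H.Ex_run k]
  generalize (2 : ℝ) ^ ℓ = s at *
  have s1 : 1 ≤ s := by linarith
  have hn0 : (0 : ℝ) ≤ n := Nat.cast_nonneg n
  have s3 : 1 ≤ s ^ 3 := one_le_pow₀ s1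
  have hP : ∀ f : PM n → ℝ, ∑ A : PM n, ∑ B : PM n,
      wt (fun u v => (lamF n ℓ G k u v : ℝ)) A * wt (fun u v => (lamF n ℓ G k u v : ℝ)) B *
        (f A - f B) ^ 2 ≤ s ^ 38 * Dir (fun u v => (lamF n ℓ G k u v : ℝ)) (two f) := by
    intro f
    refine (poincare_bal hL (by linarith) hB' f).trans (mul_le_mul_of_nonneg_right ?_
      (Finset.sum_nonneg fun x _ => loc_nonneg hL _ x))
    have e1 : ((n : ℝ) + 1) * (1 + 8 * s ^ 3) * (8 * s ^ 3) ≤ s ^ 8 := by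
      calc _ ≤ (2 * s) * (16 * s ^ 3) * (8 * s ^ 3) := by gcongr <;> linarith
        _ = 256 * s ^ 7 := by ring
        _ ≤ s * s ^ 7 := by gcongr; linarith
        _ = _ := by ring
    have e2 : 1 + 4 * (n : ℝ) ^ 2 ≤ 5 * s ^ 2 := by
      have : (n : ℝ) ^ 2 ≤ s ^ 2 := by gcongr
      have : 1 ≤ s ^ 2 := one_le_pow₀ s1
      linarith
    calc _ ≤ 360 * s ^ 4 * (5 * s ^ 2) ^ 4 * (s ^ 8) ^ 3 := by gcongr
      _ = 360 * 625 * s ^ 36 := by ring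
      _ ≤ s * s * s ^ 36 := by gcongr <;> linarith
      _ = _ := by ring
  have hq : 1 / (8 * s ^ 2) * (4 * (n : ℝ) ^ 2) ≤ 1 / 2 := by
    have : (n : ℝ) ^ 2 ≤ s ^ 2 := by gcongr
    rw [one_div_mul_eq_div, div_le_div_iff₀ (by positivity) (by positivity)]
    linarith
  have hq1 : 1 / (8 * s ^ 2) ≤ 1 := by
    rw [div_le_one (by positivity)]
    have : 1 ≤ s ^ 2 := one_le_pow₀ s1
    linarith
  have hPO := pairOp hL (by positivity) hq1 hq (one_le_pow₀ s1) hP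
  rw [hmu] at hPO
  have hC : 20 * s ^ 38 / (1 / (8 * s ^ 2)) ^ 2 = 1280 * s ^ 42 := by
    field_simp
    norm_num
  rw [hC] at hPO
  have hC2 : 1280 * s ^ 42 ≤ s ^ 44 := by
    calc _ ≤ s * s * s ^ 42 := by gcongr; nlinarith
      _ = _ := by ring
  have hC1 : 1 ≤ 1280 * s ^ 42 := by
    have : 1 ≤ s ^ 42 := one_le_pow₀ s1
    linarith
  refine (hPO.particle hC1 hN (δ := 4 / s ^ 629) ?_ ?_ h1 h2 ?_ fun x => hΦ _).trans ?_
  · rw [hν]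
    calc _ ≤ s * s ^ 44 := by gcongr; linarith
      _ = s ^ 45 := by ring
      _ ≤ _ := pow_le_pow_right₀ s1 (by norm_num)
  · rw [hν, hT]
    have e1 : 16 * (1280 * s ^ 42) * (s ^ 150) ^ 4 ≤ s ^ 651 := by
      calc _ ≤ s * s ^ 44 * (s ^ 150) ^ 4 := by gcongr; linarith
        _ = s ^ 645 := by ring
        _ ≤ _ := pow_le_pow_right₀ s1 (by norm_num)
    have e2 : 2 ≤ s ^ 651 := le_trans (by linarith) (le_self_pow₀ s1 (by norm_num))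
    have e3 : s ^ 652 = s * s ^ 651 := by ring
    nlinarith
  · rw [hN', mul_div_assoc', div_le_one (by positivity)]
    calc _ ≤ s ^ 300 * s := by gcongr; linarith
      _ = s ^ 301 := by ring
      _ ≤ _ := pow_le_pow_right₀ s1 (by norm_num)
  · rw [hν, hN']
    have e1 : 10 ^ 4 * (1280 * s ^ 42) ^ 2 * (4 / s ^ 629) / s ^ 150 ≤ 1 / (2 * s ^ 655) := by
      rw [mul_div_assoc', div_div, div_le_div_iff₀ (by positivity) (by positivity)]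
      calc _ ≤ 10 ^ 4 * (s ^ 44) ^ 2 * 4 * (2 * s ^ 655) := by gcongr
        _ = 80000 * s ^ 743 := by ring
        _ ≤ s * s * s ^ 743 := by gcongr; nlinarith
        _ = s ^ 745 := by ring
        _ ≤ s ^ 779 := pow_le_pow_right₀ s1 (by norm_num)
        _ = _ := by ring
    have e2 : (s ^ 300 * (4 / s ^ 629)) ^ 2 ≤ 1 / (2 * s ^ 655) := by
      rw [mul_div_assoc', div_pow, div_le_div_iff₀ (by positivity) (by positivity)]
      calc _ = 32 * s ^ 1255 := by ring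
        _ ≤ s * s ^ 1255 := by gcongr; linarith
        _ = s ^ 1256 := by ring
        _ ≤ s ^ 1258 := pow_le_pow_right₀ s1 (by norm_num)
        _ = _ := by ring
    have e3 : 1 / s ^ 655 = 1 / (2 * s ^ 655) + 1 / (2 * s ^ 655) := by
      field_simp
      norm_num
    linarith

end Crest.Agent.R304
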