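import Crest.Agent.R304.NodeA
import Crest.Agent.R304.NodeB
import Crest.Agent.R304.NodeC
import Crest.Agent.R304.Cycle

/-! Row 304: the recursion along the Cartesian tree of a cycle. -/

set_option autoImplicit false

namespace Crest.Agent.R304

open Finset

variable {n : ℕ} {lam : Fin n → Fin n → ℝ} {f : PM n → ℝ} {S Y : PM n} {p : ℕ → Fin n} {m : ℕ}

theorem tree_abs_le {W B x : ℝ} (hW : 0 < W) (h : W * x ^ 2 ≤ B) : |x| ≤ √(B / W) :=
  Real.abs_le_sqrt (by rw [le_div_iff₀ hW]; linarith)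

theorem tree_comb {e g a b : ℝ} {i m : ℕ} (him : i < m) (h : |g - (a + b)| ≤ e)
    (ha : |a| ≤ ((i : ℝ) - 1) * e) (hb : |b| ≤ (((m - i : ℕ) : ℝ) - 1) * e) :
    |g| ≤ ((m : ℝ) - 1) * e := by
  rw [Nat.cast_sub him.le] at hb
  rw [abs_le] at *
  constructor <;> linarith [h.1, h.2, ha.1, ha.2, hb.1, hb.2]

theorem tree_gam {K E : ℝ} (hl : Pos lam) (hK : 1 ≤ K) (hQ : QU lam K) (m : ℕ) :
    ∀ (S Y : PM n) (p : ℕ → Fin n), Run S Y p m → Proper lam p m → Dom lam f (S, Y) E →
      |gam lam f p m| ≤ ((m : ℝ) - 1) * √(16 * K ^ 3 * E / (wt lam S * wt lam Y)) := by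
  induction m using Nat.strong_induction_on with
  | _ m ih =>
  have hW : ∀ S Y : PM n, 0 < wt lam S * wt lam Y := fun S Y =>
    mul_pos (hl.wt_pos S) (hl.wt_pos Y)
  have hoo : ∀ (S Y : PM n) (p : ℕ → Fin n), Run S Y p m → Proper lam p m → Dom lam f (S, Y) E →
      ∀ i, i < m → (∀ j, 1 ≤ j → j < m → lam (p i) (p (i + 1)) ≤ lam (p j) (p (j + 1))) →
      m % 2 = 1 → i % 2 = 1 →
      |gam lam f p m| ≤ ((m : ℝ) - 1) * √(16 * K ^ 3 * E / (wt lam S * wt lam Y)) := by
    intro S Y p R P D i him hmin hm hi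
    refine tree_comb him (tree_abs_le (hW S Y) (node_odd hl hK hQ R P D him hmin hm hi))
      (ih i him S Y p (R.left (by omega) him.le) (P.left him hmin) D) ?_
    rw [mul_comm (wt lam S)]
    exact ih (m - i) (by omega) Y S _ (R.right_odd hi him) (P.right him hmin) D.swap
  intro S Y p R P D
  have hm1 := R.pos
  rcases eq_or_lt_of_le hm1 with rfl | hm2
  · rw [gam_one]
    simp
  obtain ⟨i, hi, hmin'⟩ := Finset.exists_min_image (Ico 1 m) (fun j => lam (p j) (p (j + 1)))
    ⟨1, mem_Ico.2 ⟨le_rfl, hm2⟩⟩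
  obtain ⟨hi1, him⟩ := mem_Ico.1 hi
  have hmin : ∀ j, 1 ≤ j → j < m → lam (p i) (p (i + 1)) ≤ lam (p j) (p (j + 1)) :=
    fun j h1 h2 => hmin' j (mem_Ico.2 ⟨h1, h2⟩)
  rcases Nat.mod_two_eq_zero_or_one m with hm | hm <;>
    rcases Nat.mod_two_eq_zero_or_one i with hi | hi
  · exact tree_comb him (tree_abs_le (hW S Y) (node_even_even hl hK hQ R P D hi1 him hmin hm hi))
      (ih i him S Y p (R.left hi1 him.le) (P.left him hmin) D)
      (ih (m - i) (by omega) S Y _ (R.right_even hi him) (P.right him hmin) D)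
  · have h1 := tree_abs_le (hW S Y) (node_even_odd hl hK hQ R P D him hmin hm hi)
    rw [add_comm] at h1
    refine tree_comb him h1 ?_ ?_
    · rw [gam_rev hl (R.left hi1 him.le).toInj hi, abs_neg]
      exact ih i him S Y p (R.left hi1 him.le) (P.left him hmin) D
    · rw [mul_comm (wt lam S)]
      exact ih (m - i) (by omega) Y S _ (R.right_odd hi him) (P.right him hmin) D.swap
  · have h1 := hoo Y S _ (R.rev_odd hm) (P.rev hl) D.swap (m - i) (by omega) (by
      intro j h1 h2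
      have h3 := hmin (m - j) (by omega) (by omega)
      rw [hl.symm (p i), hl.symm (p (m - j))] at h3
      rw [show m + 1 - (m - i) = i + 1 by omega, show m + 1 - (m - i + 1) = i by omega,
        show m + 1 - j = m - j + 1 by omega, show m + 1 - (j + 1) = m - j by omega]
      exact h3) hm (by omega)
    rwa [gam_rev hl R.toInj hm, abs_neg, mul_comm (wt lam Y)] at h1
  · exact hoo S Y p R P D i him hmin hm hi

theorem tree_shift_fst {q : ℕ → Fin n} {k : ℕ} (R : Run S Y q k) (hk : k % 2 = 1)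
    (hc : q (k + 1) = q 0) {s : ℕ} (hs : s ≤ k) : shift (lst q k) S (q s) = Y (q s) := by
  have hodd : ∀ s ≤ k, s % 2 = 1 → shift (lst q k) S (q s) = Y (q s) := by
    intro s hs h1
    rw [R.od s hs h1]
    rcases eq_or_lt_of_le hs with rfl | h2
    · rw [R.toInj.shift_last hk R.pre, R.fst_one, hc]
    · exact R.toInj.shift_inner hk R.pre h1 h2
  rcases Nat.mod_two_eq_zero_or_one s with h | h
  · obtain ⟨t, ht, ht1, ht2⟩ : ∃ t ≤ k, t % 2 = 1 ∧ Y (q t) = q s := by
      rcases Nat.eq_zero_or_pos s with rfl | h0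
      · exact ⟨k, le_rfl, hk, by rw [R.od k le_rfl hk, hc]⟩
      · refine ⟨s - 1, by omega, by omega, ?_⟩
        rw [R.od (s - 1) (by omega) (by omega), Nat.sub_add_cancel h0]
    have h3 := hodd t ht ht1
    rw [ht2] at h3
    rw [(PM.eq_iff _).1 h3, (PM.eq_iff _).1 ht2]
  · exact hodd s hs h

theorem tree_shift_snd {q : ℕ → Fin n} {k : ℕ} (R : Run S Y q k) (hk : k % 2 = 1)
    (hc : q (k + 1) = q 0) {s : ℕ} (hs : s ≤ k) : shift (lst q k) Y (q s) = S (q s) := by
  have heven : ∀ s ≤ k, s % 2 = 0 → shift (lst q k) Y (q s) = q (s + 1) := by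
    intro s hs h1
    rcases Nat.eq_zero_or_pos s with rfl | h0
    · rw [PM.eq_iff, zero_add, R.shift_snd_first hk, hc]
    · exact R.shift_snd_inner hk h0 h1 (by omega)
  rcases Nat.mod_two_eq_zero_or_one s with h | h
  · rw [heven s hs h, R.ev s hs h]
  · have h3 := heven (s - 1) (by omega) (by omega)
    have h4 := R.ev (s - 1) (by omega) (by omega)
    rw [Nat.sub_add_cancel (by omega : 1 ≤ s)] at h3 h4
    rw [(PM.eq_iff _).1 h3, (PM.eq_iff _).1 h4]

theorem tree_cyc_apply (S Y : PM n) (v u : Fin n) :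
    (Conn S Y v u → cyc S Y v u = Y u) ∧ (¬ Conn S Y v u → cyc S Y v u = S u) :=
  ⟨fun h => by simp [cyc, h], fun h => by simp [cyc, h]⟩

/-- With `e = √(16 K³ E / (wt S * wt Y))` prove `|gam p m| ≤ (m - 1) e` by strong induction on `m` for all `p` and both
frames `(S, Y)`, `(Y, S)` (`Dom.swap`): `gam_one`; for `m ≥ 2` split at a lightest inner edge `i` and use the node lemmas with
`Run.left`, `Run.right_even`, `Run.right_odd`, `Run.rev_odd`, `Proper.left`, ...; for odd `m` and even `i` pass to the reversed run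
(`gam_rev`), where the split index is `m - i`. -/
theorem gam_bound {K E : ℝ} (hl : Pos lam) (hK : 1 ≤ K) (hQ : QU lam K) (R : Run S Y p m)
    (P : Proper lam p m) (D : Dom lam f (S, Y) E) :
    wt lam S * wt lam Y * gam lam f p m ^ 2 ≤ 16 * m ^ 2 * K ^ 3 * E := by
  have hW := mul_pos (hl.wt_pos S) (hl.wt_pos Y)
  have hE := D.nonneg hl
  have hB : 0 ≤ 16 * K ^ 3 * E / (wt lam S * wt lam Y) := by positivity
  have h1 := tree_gam hl hK hQ m S Y p R P D
  have h2 : |gam lam f p m| ≤ m * √(16 * K ^ 3 * E / (wt lam S * wt lam Y)) :=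
    h1.trans (mul_le_mul_of_nonneg_right (by linarith) (Real.sqrt_nonneg _))
  have h3 := pow_le_pow_left₀ (abs_nonneg _) h2 2
  rw [sq_abs, mul_pow, Real.sq_sqrt hB] at h3
  refine (mul_le_mul_of_nonneg_left h3 hW.le).trans (le_of_eq ?_)
  rw [mul_left_comm, mul_div_cancel₀ _ hW.ne']
  ring

/-- Let `g = (p 2, ..., p m)`; `shift g S = cyc S Y v` and `shift g Y = cyc Y S v`.  Frame `(Y, S)`: `Run.dev_even_proper` and
`gam_bound`.  Frame `(S, Y)`: the same for `f (shift g Y) - f Y`, and `dev_loc` for the cycle swap (`Run.mv_col`, `Run.wt_col`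
for the run `fun s => p (s + 1)` of length `m - 1` in the frame `(Y, S)`: the weight is preserved). -/
theorem cyc_bound {K E : ℝ} (hl : Pos lam) (hK : 1 ≤ K) (hQ : QU lam K) (D : Dom lam f (S, Y) E)
    (v : Fin n) : wt lam S * wt lam Y * (f (cyc S Y v) - f S) ^ 2 ≤ 60 * n ^ 2 * K ^ 3 * E := by
  obtain ⟨p, m, hR, hm, hp, P, hC⟩ := exists_cycle_run hl S Y v
  have hW := mul_pos (hl.wt_pos S) (hl.wt_pos Y)
  have hE := D.nonneg hl
  have hm1 : 1 ≤ m := hR.elim (·.pos) (·.pos)
  have hmn : m ≤ n := hR.elim (·.toInj.le) (·.toInj.le)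
  have hk : (m - 1) % 2 = 1 := by omega
  have hc : p (m - 1 + 1 + 1) = p (0 + 1) := by
    rw [Nat.sub_add_cancel hm1]
    rcases hR with R | R
    · rw [← R.ev m le_rfl hm, hp, R.ev 0 (Nat.zero_le _) rfl]
    · rw [← R.ev m le_rfl hm, hp, R.ev 0 (Nat.zero_le _) rfl]
  have hn1 : (1 : ℝ) ≤ n := by exact_mod_cast hm1.trans hmn
  have hmn' : (m : ℝ) ^ 2 ≤ (n : ℝ) ^ 2 :=
    pow_le_pow_left₀ (Nat.cast_nonneg _) (by exact_mod_cast hmn) 2
  have hK3 : K ^ 2 ≤ K ^ 3 := pow_le_pow_right₀ hK (by norm_num)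
  have hK1 : 1 ≤ K ^ 3 := one_le_pow₀ hK
  have hn2 : (1 : ℝ) ≤ (n : ℝ) ^ 2 := one_le_pow₀ hn1
  have b0 : 0 ≤ K ^ 3 * E := by positivity
  have b1 : E ≤ n ^ 2 * K ^ 3 * E := by
    have := mul_le_mul_of_nonneg_right (one_le_mul_of_one_le_of_one_le hn2 hK1) hE
    linarith
  have b2 : K ^ 2 * E ≤ n ^ 2 * K ^ 3 * E := by
    have h1 := mul_le_mul_of_nonneg_right hK3 hE
    have h2 := mul_le_mul_of_nonneg_right hn2 b0
    linarith
  have b3 : 16 * (m : ℝ) ^ 2 * K ^ 3 * E ≤ 16 * (n ^ 2 * K ^ 3 * E) := by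
    have := mul_le_mul_of_nonneg_right hmn' b0
    linarith
  have b4 : 0 ≤ n ^ 2 * K ^ 3 * E := hE.trans b1
  rcases hR with R | R
  · have Q := R.right_odd (i := 1) rfl (by omega)
    have hS : cyc S Y v = shift (lst (fun s => p (s + 1)) (m - 1)) S := by
      refine PM.ext fun u => ?_
      by_cases hu : Conn S Y v u
      · rw [(tree_cyc_apply S Y v u).1 hu]
        obtain ⟨s, h1, h2, rfl⟩ := (hC u).1 hu
        have := tree_shift_snd Q hk hc (s := s - 1) (by omega)
        simp only [Nat.sub_add_cancel h1] at this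
        exact this.symm
      · rw [(tree_cyc_apply S Y v u).2 hu]
        refine (Q.shift_snd_other hk fun s h1 h2 h3 => hu ((hC u).2 ?_)).symm
        rcases eq_or_lt_of_le h2 with rfl | h4
        · exact ⟨1, le_rfl, hm1, hc.symm.trans h3⟩
        · exact ⟨s + 1, by omega, by omega, h3⟩
    have d1 := R.dev_even_proper hl hK hQ P D hm
    have d2 := gam_bound hl hK hQ R P D
    obtain ⟨l, hl'⟩ := Q.mv_col
    have d3 := (dev_loc (f := f) hl (Y, S) l).trans (D [] (by simp)).2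
    have d4 := Q.wt_col hl hk
    simp only [hc] at d4
    have d5 : wt lam (shift (lst (fun s => p (s + 1)) (m - 1)) Y) *
        wt lam (shift (lst (fun s => p (s + 1)) (m - 1)) S) = wt lam Y * wt lam S := by
      rw [hl.symm (p (m - 1 + 1)), hl.symm (p (1 + 1)), mul_comm (lam (p (0 + 1)) (p (m - 1 + 1)))] at d4
      exact mul_right_cancel₀ (mul_pos (hl.pos _ _) (hl.pos _ _)).ne' d4
    rw [hl'] at d3
    simp only [w2, two, d5, min_self] at d3
    rw [hS]
    set a := f (shift (lst (fun s => p (s + 1)) (m - 1)) S)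
    set b := f (shift (lst (fun s => p (s + 1)) (m - 1)) Y)
    set g := gam lam f p m
    rw [mul_comm (wt lam Y)] at d3
    set W := wt lam S * wt lam Y
    have d6 : (a - f S) ^ 2 ≤ 3 * ((b + a - (f Y + f S)) ^ 2 + (b - f Y - g) ^ 2 + g ^ 2) := by
      nlinarith [sq_nonneg ((b + a - (f Y + f S)) + (b - f Y - g)),
        sq_nonneg ((b + a - (f Y + f S)) + g), sq_nonneg ((b - f Y - g) - g)]
    have d7 := mul_le_mul_of_nonneg_left d6 hW.le
    linarith
  · have Q := R.right_odd (i := 1) rfl (by omega)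
    have hS : cyc S Y v = shift (lst (fun s => p (s + 1)) (m - 1)) S := by
      refine PM.ext fun u => ?_
      by_cases hu : Conn S Y v u
      · rw [(tree_cyc_apply S Y v u).1 hu]
        obtain ⟨s, h1, h2, rfl⟩ := (hC u).1 hu
        have := tree_shift_fst Q hk hc (s := s - 1) (by omega)
        simp only [Nat.sub_add_cancel h1] at this
        exact this.symm
      · rw [(tree_cyc_apply S Y v u).2 hu]
        refine (Q.toInj.shift_other hk Q.pre (fun h3 => hu ((hC u).2 ?_))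
          fun s h1 h2 h3 => hu ((hC u).2 ⟨s + 1, by omega, by omega, h3⟩)).symm
        rw [Q.fst_one] at h3
        exact ⟨1, le_rfl, hm1, h3.symm⟩
    have d1 := R.dev_even_proper hl hK hQ P D.swap hm
    have d2 := gam_bound hl hK hQ R P D.swap
    rw [hS]
    set a := f (shift (lst (fun s => p (s + 1)) (m - 1)) S)
    set g := gam lam f p m
    rw [mul_comm (wt lam Y)] at d1 d2
    set W := wt lam S * wt lam Y
    have d6 : (a - f S) ^ 2 ≤ 2 * ((a - f S - g) ^ 2 + g ^ 2) := by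
      nlinarith [sq_nonneg ((a - f S - g) - g)]
    have d7 := mul_le_mul_of_nonneg_left d6 hW.le
    linarith

end Crest.Agent.R304
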