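import Crest.Agent.R304.Poly

/-! Row 304: a point satisfying Edmonds' constraints has a perfect matching in its support. -/

set_option autoImplicit false
set_option linter.unusedSectionVars false

namespace Crest.Agent.R304

open Finset

variable {V E : Type} [DecidableEq V] [Fintype E] [DecidableEq E]

theorem tutte_mem_cut {ends : E → V × V} {S : Finset V} {e : E} :
    e ∈ cut ends S ↔ ¬ ((ends e).1 ∈ S ↔ (ends e).2 ∈ S) := by
  simp only [cut, mem_filter, mem_univ, true_and]

theorem tutte_sum_cut (ends : E → V × V) (S : Finset V) (x : E → ℝ) :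
    ∑ e ∈ cut ends S, x e = ∑ e, if e ∈ cut ends S then x e else 0 := by
  rw [← Finset.sum_filter, Finset.filter_mem_eq_inter, Finset.univ_inter]

/-- The counting step of Tutte's condition. -/
theorem tutte_count {ends : E → V × V} {U : Finset V} {x : E → ℝ} (h : InQ ends U x)
    (W : Finset V) (hW : W ⊆ U) {ι : Type} (I : Finset ι) (S : ι → Finset V)
    (hS : ∀ i ∈ I, S i ⊆ U ∧ Odd (S i).card)
    (hdisj : ∀ i ∈ I, ∀ j ∈ I, ∀ v, v ∈ S i → v ∈ S j → i = j)
    (hW' : ∀ i ∈ I, ∀ v ∈ S i, v ∉ W)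
    (hcl : ∀ i ∈ I, ∀ e, 0 < x e → (ends e).1 ∉ W → (ends e).2 ∉ W →
      ((ends e).1 ∈ S i ↔ (ends e).2 ∈ S i)) : I.card ≤ W.card := by
  have key : ∀ e, (∑ i ∈ I, if e ∈ cut ends (S i) then x e else 0) ≤
      ∑ v ∈ W, if e ∈ cut ends {v} then x e else 0 := by
    intro e
    have hnn : ∀ v ∈ W, 0 ≤ if e ∈ cut ends {v} then x e else 0 := fun v _ => by
      split_ifs
      · exact h.nonneg e
      · exact le_rfl
    rcases (h.nonneg e).eq_or_lt with h0 | h0
    · simp [← h0]
    by_cases hex : ∃ i ∈ I, e ∈ cut ends (S i)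
    swap
    · push Not at hex
      rw [Finset.sum_eq_zero fun i hi => if_neg (hex i hi)]
      exact Finset.sum_nonneg hnn
    obtain ⟨i, hi, hei⟩ := hex
    have hne := (h.supp e h0.ne').2.2
    have h1 : ∃ a ∈ W, e ∈ cut ends {a} ∧ ∀ j ∈ I, e ∈ cut ends (S j) → j = i := by
      rw [tutte_mem_cut] at hei
      by_cases ha : (ends e).1 ∈ W
      · refine ⟨_, ha, by simp [tutte_mem_cut, hne.symm], fun j hj hej => ?_⟩
        rw [tutte_mem_cut] at hej
        have h2 : (ends e).1 ∉ S i := fun h' => hW' i hi _ h' ha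
        have h3 : (ends e).1 ∉ S j := fun h' => hW' j hj _ h' ha
        exact hdisj j hj i hi (ends e).2 (by tauto) (by tauto)
      · have hb : (ends e).2 ∈ W := by
          by_contra hb
          exact hei (hcl i hi e h0 ha hb)
        refine ⟨_, hb, by simp [tutte_mem_cut, hne], fun j hj hej => ?_⟩
        rw [tutte_mem_cut] at hej
        have h2 : (ends e).2 ∉ S i := fun h' => hW' i hi _ h' hb
        have h3 : (ends e).2 ∉ S j := fun h' => hW' j hj _ h' hb
        exact hdisj j hj i hi (ends e).1 (by tauto) (by tauto)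
    obtain ⟨a, ha, hea, huniq⟩ := h1
    rw [Finset.sum_eq_single_of_mem i hi fun j hj hji => if_neg fun h' => hji (huniq j hj h'),
      if_pos hei]
    have := Finset.single_le_sum hnn ha
    rwa [if_pos hea] at this
  have h1 : (I.card : ℝ) ≤ W.card := by
    calc (I.card : ℝ) = ∑ _i ∈ I, (1 : ℝ) := by simp
      _ ≤ ∑ i ∈ I, ∑ e ∈ cut ends (S i), x e :=
          Finset.sum_le_sum fun i hi => h.odd _ (hS i hi).1 (hS i hi).2
      _ = ∑ e, ∑ i ∈ I, if e ∈ cut ends (S i) then x e else 0 := by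
          rw [Finset.sum_comm]
          exact Finset.sum_congr rfl fun i _ => tutte_sum_cut _ _ _
      _ ≤ ∑ e, ∑ v ∈ W, if e ∈ cut ends {v} then x e else 0 := Finset.sum_le_sum fun e _ => key e
      _ = ∑ v ∈ W, ∑ e ∈ cut ends {v}, x e := by
          rw [Finset.sum_comm]
          exact Finset.sum_congr rfl fun i _ => (tutte_sum_cut _ _ _).symm
      _ = ∑ _v ∈ W, (1 : ℝ) := Finset.sum_congr rfl fun v hv => h.deg v (hW hv)
      _ = W.card := by simp
  exact_mod_cast h1

/-- the simple graph underlying the support of `x` -/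
def tutteG (ends : E → V × V) (U : Finset V) (x : E → ℝ) : SimpleGraph U where
  Adj a b := a ≠ b ∧ ∃ e, 0 < x e ∧ s((ends e).1, (ends e).2) = s((a : V), (b : V))
  symm := ⟨fun _ _ ⟨h1, e, h2, h3⟩ => ⟨h1.symm, e, h2, h3.trans Sym2.eq_swap⟩⟩
  loopless := ⟨fun _ h => h.1 rfl⟩

theorem tutteG_pm {ends : E → V × V} {U : Finset V} {x : E → ℝ} (h : InQ ends U x) :
    ∃ M : (tutteG ends U x).Subgraph, M.IsPerfectMatching := by
  classical
  rw [SimpleGraph.tutte]
  intro u
  rw [SimpleGraph.IsTutteViolator, not_lt]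
  set H := ((⊤ : (tutteG ends U x).Subgraph).deleteVerts u).coe with hH
  let emb : ((⊤ : (tutteG ends U x).Subgraph).deleteVerts u).verts ↪ V :=
    ⟨fun w => w.1.1, fun a b hab => Subtype.ext (Subtype.ext hab)⟩
  have hnu : ∀ w : ((⊤ : (tutteG ends U x).Subgraph).deleteVerts u).verts, w.1 ∉ u :=
    fun w => w.2.2
  have key := tutte_count h ((Set.toFinite u).toFinset.map (Function.Embedding.subtype _))
    (fun v hv => by
      obtain ⟨w, -, rfl⟩ := Finset.mem_map.1 hv
      exact w.2)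
    (Set.toFinite H.oddComponents).toFinset
    (fun c => (Set.toFinite c.supp).toFinset.map emb) ?_ ?_ ?_ ?_
  · rwa [Finset.card_map, ← Set.ncard_eq_toFinset_card, ← Set.ncard_eq_toFinset_card] at key
  · intro c hc
    refine ⟨fun v hv => ?_, ?_⟩
    · obtain ⟨w, -, rfl⟩ := Finset.mem_map.1 hv
      exact w.1.2
    · rw [Finset.card_map, ← Set.ncard_eq_toFinset_card]
      rw [Set.Finite.mem_toFinset] at hc
      exact hc
  · intro c _ c' _ v hv hv'
    obtain ⟨w, hw, rfl⟩ := Finset.mem_map.1 hv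
    rw [Finset.mem_map' emb] at hv'
    rw [Set.Finite.mem_toFinset, SimpleGraph.ConnectedComponent.mem_supp_iff] at hw hv'
    exact hw.symm.trans hv'
  · intro c _ v hv hv'
    obtain ⟨w, -, rfl⟩ := Finset.mem_map.1 hv
    obtain ⟨w', hw', e⟩ := Finset.mem_map.1 hv'
    rw [Set.Finite.mem_toFinset] at hw'
    have : w' = w.1 := Subtype.ext e
    exact hnu w (this ▸ hw')
  · intro c _ e he h1 h2
    obtain ⟨k1, k2, k3⟩ := h.supp e he.ne'
    have n1 : (⟨_, k1⟩ : U) ∉ u := fun h' =>
      h1 (Finset.mem_map.2 ⟨⟨_, k1⟩, (Set.Finite.mem_toFinset _).2 h', rfl⟩)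
    have n2 : (⟨_, k2⟩ : U) ∉ u := fun h' =>
      h2 (Finset.mem_map.2 ⟨⟨_, k2⟩, (Set.Finite.mem_toFinset _).2 h', rfl⟩)
    let a : ((⊤ : (tutteG ends U x).Subgraph).deleteVerts u).verts := ⟨⟨_, k1⟩, trivial, n1⟩
    let b : ((⊤ : (tutteG ends U x).Subgraph).deleteVerts u).verts := ⟨⟨_, k2⟩, trivial, n2⟩
    have hadj : H.Adj a b := by
      rw [hH, SimpleGraph.Subgraph.coe_adj, SimpleGraph.Subgraph.deleteVerts_adj]
      exact ⟨trivial, n1, trivial, n2, fun h' => k3 (congrArg Subtype.val h'), e, he, rfl⟩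
    change emb a ∈ _ ↔ emb b ∈ _
    rw [Finset.mem_map' emb, Finset.mem_map' emb, Set.Finite.mem_toFinset, Set.Finite.mem_toFinset]
    exact c.mem_supp_congr_adj hadj

/-- Apply `SimpleGraph.tutte` to the simple graph on the subtype `U` in which `a, b` are adjacent iff
`a ≠ b` and some `e` with `0 < x e` has the ends `a, b` (in either order).  For a vertex set `u`, every odd
component `C` of the graph with `u` deleted has `x (cut C) ≥ 1`, and every edge of `cut C` with `0 < x e`
has its other end in `u`; an edge lies in the cut of at most one such component and then in `cut {v}` for a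
`v ∈ u`.  So the number of odd components is at most `∑ v ∈ u, x (cut {v}) = |u|`.  From the perfect
matching of the simple graph choose for every matched pair one edge `e` (choose it as a function of the
unordered pair). -/
theorem InQ.exists_pm {ends : E → V × V} {U : Finset V} {x : E → ℝ} (h : InQ ends U x) :
    ∃ M, IsPMOn ends U M ∧ ∀ e ∈ M, 0 < x e := by
  classical
  obtain ⟨M, hM⟩ := tutteG_pm h
  rw [SimpleGraph.Subgraph.isPerfectMatching_iff] at hM
  choose f hf1 hf2 using fun (s : Sym2 V) (hs : ∃ e, 0 < x e ∧ s((ends e).1, (ends e).2) = s) => hs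
  have hcongr : ∀ s s' hs hs', s = s' → f s hs = f s' hs' := by
    rintro s s' hs hs' rfl; rfl
  refine ⟨univ.filter fun e => ∃ (a b : U) (hab : M.Adj a b), e = f _ (M.adj_sub hab).2,
    ⟨fun e he => ?_, fun v hv => ?_⟩, fun e he => ?_⟩
  · obtain ⟨a, b, hab, rfl⟩ := (mem_filter.1 he).2
    exact h.supp _ (hf1 _ _).ne'
  · obtain ⟨w, hw, huniq⟩ := hM ⟨v, hv⟩
    have hvw : v ≠ w := fun h' => (M.adj_sub hw).1 (Subtype.ext h')
    rw [Finset.card_eq_one]
    refine ⟨f _ (M.adj_sub hw).2, Finset.eq_singleton_iff_unique_mem.2 ⟨?_, fun e he => ?_⟩⟩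
    · refine mem_inter.2 ⟨mem_filter.2 ⟨mem_univ _, _, _, hw, rfl⟩, ?_⟩
      rw [tutte_mem_cut]
      rcases Sym2.eq_iff.1 (hf2 _ (M.adj_sub hw).2) with ⟨h1, h2⟩ | ⟨h1, h2⟩
      · rw [h1, h2]; simp [hvw.symm]
      · rw [h1, h2]; simp [hvw.symm]
    · obtain ⟨he1, he2⟩ := mem_inter.1 he
      obtain ⟨a, b, hab, rfl⟩ := (mem_filter.1 he1).2
      rw [tutte_mem_cut] at he2
      have hv' : (a : V) = v ∨ (b : V) = v := by
        simp only [mem_singleton] at he2
        rcases Sym2.eq_iff.1 (hf2 _ (M.adj_sub hab).2) with ⟨h1, h2⟩ | ⟨h1, h2⟩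
        · rw [h1, h2] at he2; tauto
        · rw [h1, h2] at he2; tauto
      refine hcongr _ _ _ _ ?_
      rcases hv' with rfl | rfl
      · rw [huniq b hab]
      · rw [huniq a hab.symm]; exact Sym2.eq_swap
  · obtain ⟨a, b, hab, rfl⟩ := (mem_filter.1 he).2
    exact hf1 _ _

/-- A perfect matching crosses every odd cut (parity: `|S| = ∑ v ∈ S, |M ∩ cut {v}|`
`= |M ∩ cut S| + 2 |edges of M inside S|`). -/
theorem IsPMOn.odd_cut {ends : E → V × V} {U : Finset V} {M : Finset E} (h : IsPMOn ends U M)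
    {S : Finset V} (hS : S ⊆ U) (ho : Odd S.card) : 1 ≤ (M ∩ cut ends S).card := by
  by_contra hcon
  have h0 : M ∩ cut ends S = ∅ := Finset.card_eq_zero.1 (by omega)
  have h1 : ∀ v, (M ∩ cut ends {v}).card = ∑ e ∈ M, if e ∈ cut ends {v} then 1 else 0 := by
    intro v
    rw [← Finset.card_filter, Finset.filter_mem_eq_inter]
  have h2 : S.card = ∑ e ∈ M, ∑ v ∈ S, if e ∈ cut ends {v} then 1 else 0 := by
    rw [Finset.sum_comm, Finset.card_eq_sum_ones]
    exact Finset.sum_congr rfl fun v hv => by rw [← h1, h.2 v (hS hv)]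
  rw [h2, ← Nat.not_even_iff_odd] at ho
  refine ho (Finset.even_sum _ fun e he => ?_)
  have hne := (h.1 e he).2.2
  have h3 : (ends e).1 ∈ S ↔ (ends e).2 ∈ S := by
    by_contra h'
    have : e ∈ M ∩ cut ends S := mem_inter.2 ⟨he, tutte_mem_cut.2 h'⟩
    rw [h0] at this
    exact notMem_empty _ this
  have h4 : ∀ v, (if e ∈ cut ends {v} then 1 else 0 : ℕ) =
      (if (ends e).1 = v then 1 else 0) + (if (ends e).2 = v then 1 else 0) := by
    intro v
    simp only [tutte_mem_cut, mem_singleton]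
    by_cases k1 : (ends e).1 = v <;> by_cases k2 : (ends e).2 = v
    · exact absurd (k1.trans k2.symm) hne
    all_goals simp [k1, k2]
  simp only [h4, Finset.sum_add_distrib, Finset.sum_ite_eq, h3]
  exact ⟨_, rfl⟩

/-- The easy inclusion: `∑ e ∈ cut S, marg p e = ∑ M, p M * |M ∩ cut S|`. -/
theorem IsLawOn.inQ {ends : E → V × V} {U : Finset V} {p : Finset E → ℝ} (h : IsLawOn ends U p) :
    InQ ends U (marg p) := by
  obtain ⟨h0, h1, h2⟩ := h
  have key : ∀ C : Finset E, ∑ e ∈ C, marg p e = ∑ M, p M * ((M ∩ C).card : ℝ) := by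
    intro C
    simp only [marg, Finset.sum_filter]
    rw [Finset.sum_comm]
    refine Finset.sum_congr rfl fun M _ => ?_
    rw [← Finset.sum_filter, Finset.filter_mem_eq_inter, Finset.sum_const, nsmul_eq_mul,
      Finset.inter_comm, mul_comm]
  refine ⟨fun e => Finset.sum_nonneg fun M _ => h0 M, fun e he => ?_, fun v hv => ?_,
    fun S hS ho => ?_⟩
  · obtain ⟨M, hM, hp⟩ := Finset.exists_ne_zero_of_sum_ne_zero he
    exact (h2 M hp).1 e (mem_filter.1 hM).2
  · rw [key, ← h1]
    refine Finset.sum_congr rfl fun M _ => ?_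
    by_cases hp : p M = 0
    · rw [hp, zero_mul]
    · rw [(h2 M hp).2 v hv]; simp
  · rw [key, ← h1]
    refine Finset.sum_le_sum fun M _ => ?_
    by_cases hp : p M = 0
    · rw [hp, zero_mul]
    · have : (1 : ℝ) ≤ ((M ∩ cut ends S).card : ℝ) := by
        exact_mod_cast (h2 M hp).odd_cut hS ho
      exact le_mul_of_one_le_right (h0 M) this

end Crest.Agent.R304
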